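import Vale.Agent.P141.H677.FlowG
import Vale.Agent.P141.H103.CapA

/-!
# P141, line (A): the three pieces and the Abel sum for arbitrary families at fixed `x0`

Letters: `z` = `x3`, `x` = `x1`, `y` = `x2`; `A z y`, `b x y`, `C z x` at one scale; nodes
`m = (m3, m2, m1)`.  `K : ℤ → ℕ → ℤ → Matrix` any tree data (`H420.Tr`), not related to `b`.

* `nf3` : the node form; `nf3_split` : `nf3 = ndI + ndZ + ndF`; `nf3_congr`, `ndI_congr`,
  `ndZ_congr`, `ndF_congr` : only the values on the node count; `ndZ_form` : letters of `H576.WZ`;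
* `RA`, `GA`, `abel_fam` : the flow piece as the left side of `H352.abel_id`, any signs, any family
  of nodes;
* `loc_nf3` : a node of `cosF`, payer `u'` depending on the scale;
* `TI_le`, `TZ_le`, `TF_eq` : the three pieces for families which agree with the data on the alive
  nodes; `kF`, `kF_alive` : the inputs killed on the stopped squares.
-/

namespace Vale.Agent.P141.H677

open Finset Matrix
open Vale.Agent.P141.PL (Pt loc prd iv hs ix mem_iv ix_ix cb mem_cb cx)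
open Vale.Agent.P141.PL.H560 (cbs bx0)
open Vale.Agent.P141.PL.H317 (crn)
open Vale.Agent.P141.PL.H804 (bx3)
open Vale.Agent.P141.PL.H588 (Pl)
open Vale.Agent.P141.PL.H315 (Tri)
open Vale.Agent.P141.H48 (sst cst)
open Vale.Agent.P141.H579 (cosA)
open Vale.Agent.P141.H420 (Tr)
open Vale.Agent.P141.H483 (hd ze xiT)
open Vale.Agent.P141.H352 (In p)
open Vale.Agent.P141.H103 (qK)
open Vale.Agent.P141.H576 (sz)

noncomputable section

open scoped Classical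

variable {κ : Type*} [Fintype κ] [DecidableEq κ]

/-! ### The node forms -/

/-- the node form -/
def nf3 (A : ℤ → ℤ → ℝ) (b C : ℤ → ℤ → κ → ℝ) (k : ℕ) (m : Pt) : ℝ :=
  ((2 : ℝ) ^ k)⁻¹ * ∑ z ∈ iv k m.1, ∑ x ∈ iv k m.2.2, ∑ y ∈ iv k m.2.1,
    hs k z * hs k x * hs k y * (A z y * (b x y ⬝ᵥ C z x))

/-- increasing part -/
def ndI (l : ℝ) (K : ℤ → ℕ → ℤ → Matrix κ κ ℝ) (A : ℤ → ℤ → ℝ) (b C : ℤ → ℤ → κ → ℝ) (k : ℕ)
    (m : Pt) : ℝ :=
  ∑ z ∈ iv k m.1, ∑ x ∈ iv k m.2.2, hs k z * hs k x *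
    ((C z x - ST l (K x) (C z x) k m.2.1) ⬝ᵥ hd (qK A b z x) k m.2.1)

/-- gap part -/
def ndZ (l : ℝ) (K : ℤ → ℕ → ℤ → Matrix κ κ ℝ) (A : ℤ → ℤ → ℝ) (b C : ℤ → ℤ → κ → ℝ) (k : ℕ)
    (m : Pt) : ℝ :=
  ∑ z ∈ iv k m.1, ∑ x ∈ iv k m.2.2, hs k z * hs k x *
    (sz l (K x) (qK A b z x) k m.2.1 ⬝ᵥ C z x)

/-- flow part -/
def ndF (l : ℝ) (K : ℤ → ℕ → ℤ → Matrix κ κ ℝ) (A : ℤ → ℤ → ℝ) (b C : ℤ → ℤ → κ → ℝ) (k : ℕ)
    (m : Pt) : ℝ :=
  ∑ z ∈ iv k m.1, ∑ x ∈ iv k m.2.2, hs k z * hs k x *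
    (xiT l (K x) (C z x) k m.2.1 ⬝ᵥ qK A b z x k m.2.1)

omit [Fintype κ] [DecidableEq κ] in
theorem qK_eq (A : ℤ → ℤ → ℝ) (b : ℤ → ℤ → κ → ℝ) (z x : ℤ) :
    qK A b z x = mT fun y => A z y • b x y := rfl

omit [Fintype κ] [DecidableEq κ] in
/-- the half difference of the two children as a Haar mean -/
theorem hd_qK {k : ℕ} (hk : 1 ≤ k) (A : ℤ → ℤ → ℝ) (b : ℤ → ℤ → κ → ℝ) (z x m : ℤ) :
    hd (qK A b z x) k m = ((2 : ℝ) ^ k)⁻¹ • ∑ y ∈ iv k m, hs k y • (A z y • b x y) := by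
  rw [qK_eq, ← mT_hs _ hk]
  rfl

omit [DecidableEq κ] in
theorem nf3_eq {k : ℕ} (hk : 1 ≤ k) (A : ℤ → ℤ → ℝ) (b C : ℤ → ℤ → κ → ℝ) (m : Pt) :
    nf3 A b C k m = ∑ z ∈ iv k m.1, ∑ x ∈ iv k m.2.2, hs k z * hs k x *
      (C z x ⬝ᵥ hd (qK A b z x) k m.2.1) := by
  unfold nf3
  rw [mul_sum]
  refine sum_congr rfl fun z _ => ?_
  rw [mul_sum]
  refine sum_congr rfl fun x _ => ?_
  rw [hd_qK hk, dotProduct_smul, dotProduct_sum, smul_eq_mul, mul_left_comm, mul_sum (a := _ * _)]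
  congr 1
  refine sum_congr rfl fun y _ => ?_
  rw [dotProduct_smul, dotProduct_smul, smul_eq_mul, smul_eq_mul, dotProduct_comm (C z x)]
  ring

/-- **A node is the sum of the three parts.** -/
theorem nf3_split {l : ℝ} {N : ℕ} {G K : ℤ → ℕ → ℤ → Matrix κ κ ℝ}
    (h : ∀ x, Tr l N (G x) (K x)) {k : ℕ} (hk : 1 ≤ k) (A : ℤ → ℤ → ℝ) (b C : ℤ → ℤ → κ → ℝ)
    (m : Pt) : nf3 A b C k m = ndI l K A b C k m + ndZ l K A b C k m + ndF l K A b C k m := by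
  rw [nf3_eq hk]
  unfold ndI ndZ ndF
  simp only [← sum_add_distrib]
  refine sum_congr rfl fun z _ => sum_congr rfl fun x _ => ?_
  have e := three (l := l) ((h x).pdK k m.2.1).isHermitian (hd_herm (h x) k m.2.1) (C z x)
    (qK A b z x k m.2.1) (hd (qK A b z x) k m.2.1)
  rw [e, mul_add, mul_add]
  congr 1
  congr 1
  unfold H576.sz H483.ze
  rw [dotProduct_comm]

/-- the children of a cell lie in the cell -/
theorem iv_left {k : ℕ} (hk : 1 ≤ k) {m y : ℤ} (h : y ∈ iv (k - 1) (2 * m)) : y ∈ iv k m := by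
  obtain ⟨k, rfl⟩ : ∃ j, k = j + 1 := ⟨k - 1, by omega⟩
  rw [Nat.add_sub_cancel, mem_iv] at h
  rw [mem_iv, ← H352.ix_succ, h]
  omega

theorem iv_right {k : ℕ} (hk : 1 ≤ k) {m y : ℤ} (h : y ∈ iv (k - 1) (2 * m + 1)) :
    y ∈ iv k m := by
  obtain ⟨k, rfl⟩ : ∃ j, k = j + 1 := ⟨k - 1, by omega⟩
  rw [Nat.add_sub_cancel, mem_iv] at h
  rw [mem_iv, ← H352.ix_succ, h]
  omega

section congr

variable {A A' : ℤ → ℤ → ℝ} {b b' C C' : ℤ → ℤ → κ → ℝ} {k : ℕ} {m : Pt}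

omit [Fintype κ] [DecidableEq κ] in
theorem qK_congr {z x : ℤ} {j : ℕ} {i : ℤ} (hA : ∀ y ∈ iv j i, A z y = A' z y)
    (hb : ∀ y ∈ iv j i, b x y = b' x y) : qK A b z x j i = qK A' b' z x j i := by
  unfold H103.qK
  congr 1
  exact sum_congr rfl fun y hy => by rw [hA y hy, hb y hy]

omit [Fintype κ] [DecidableEq κ] in
theorem hdqK_congr (hk : 1 ≤ k) {z x n : ℤ} (hA : ∀ y ∈ iv k n, A z y = A' z y)
    (hb : ∀ y ∈ iv k n, b x y = b' x y) : hd (qK A b z x) k n = hd (qK A' b' z x) k n := by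
  unfold H483.hd
  rw [qK_congr (fun y hy => hA y (iv_left hk hy)) fun y hy => hb y (iv_left hk hy),
    qK_congr (fun y hy => hA y (iv_right hk hy)) fun y hy => hb y (iv_right hk hy)]

/-- `A`, `b`, `C` and `A'`, `b'`, `C'` agree on the node -/
def Agr (A A' : ℤ → ℤ → ℝ) (b b' C C' : ℤ → ℤ → κ → ℝ) (k : ℕ) (m : Pt) : Prop :=
  (∀ z ∈ iv k m.1, ∀ y ∈ iv k m.2.1, A z y = A' z y) ∧
  (∀ x ∈ iv k m.2.2, ∀ y ∈ iv k m.2.1, b x y = b' x y) ∧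
  ∀ z ∈ iv k m.1, ∀ x ∈ iv k m.2.2, C z x = C' z x

theorem ndI_congr {l : ℝ} {K : ℤ → ℕ → ℤ → Matrix κ κ ℝ} (hk : 1 ≤ k)
    (h : Agr A A' b b' C C' k m) : ndI l K A b C k m = ndI l K A' b' C' k m := by
  unfold ndI
  refine sum_congr rfl fun z hz => sum_congr rfl fun x hx => ?_
  rw [hdqK_congr hk (h.1 z hz) (h.2.1 x hx), h.2.2 z hz x hx]

theorem ndZ_congr {l : ℝ} {K : ℤ → ℕ → ℤ → Matrix κ κ ℝ} (hk : 1 ≤ k)
    (h : Agr A A' b b' C C' k m) : ndZ l K A b C k m = ndZ l K A' b' C' k m := by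
  unfold ndZ H576.sz H483.ze
  refine sum_congr rfl fun z hz => sum_congr rfl fun x hx => ?_
  rw [hdqK_congr hk (h.1 z hz) (h.2.1 x hx), qK_congr (h.1 z hz) (h.2.1 x hx), h.2.2 z hz x hx]

theorem ndF_congr {l : ℝ} {K : ℤ → ℕ → ℤ → Matrix κ κ ℝ}
    (h : Agr A A' b b' C C' k m) : ndF l K A b C k m = ndF l K A' b' C' k m := by
  unfold ndF
  refine sum_congr rfl fun z hz => sum_congr rfl fun x hx => ?_
  rw [qK_congr (h.1 z hz) (h.2.1 x hx), h.2.2 z hz x hx]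

omit [DecidableEq κ] in
theorem nf3_congr (h : Agr A A' b b' C C' k m) : nf3 A b C k m = nf3 A' b' C' k m := by
  unfold nf3
  congr 1
  refine sum_congr rfl fun z hz => sum_congr rfl fun x hx => sum_congr rfl fun y hy => ?_
  rw [h.1 z hz y hy, h.2.1 x hx y hy, h.2.2 z hz x hx]

end congr

/-- **The gap part in the letters of `H576.WZ`.** -/
theorem ndZ_form {L : ℕ} {e : κ → ℤ} (he : Function.Injective e) (hm : ∀ i, e i ∈ H958.lbs L)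
    (l : ℝ) (K : ℤ → ℕ → ℤ → Matrix κ κ ℝ) (A : ℕ → ℤ → ℤ → ℝ) (b : ℕ → ℤ → ℤ → κ → ℝ)
    (C : ℤ → ℤ → κ → ℝ) {k : ℕ} (hk : 1 ≤ k) (m : Pt) :
    ndZ l K (A k) (b k) C k m = (2 ^ (k + L) : ℝ)⁻¹ *
      (H576.WZ L l e A b K (k + L) m * PL.H588.hd (k + L) *
        PL.H804.bl (k + L) (H958.encR L fun lab z x => H338.cu e (C z x) lab) m.1 m.2.2).trace :=
  (H576.WZ_form he hm hk C m).symm

/-! ### The Abel sum -/

/-- the cell of `y` of the node of `(z, x)` -/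
def my (c : ℕ → ℤ) (z x : ℤ) (k : ℕ) : ℤ := c k - ix k x - ix k z

/-- the slot at the time `j`, signs `th k z x` -/
def RA (N : ℕ) (l : ℝ) (K : ℤ → ℕ → ℤ → Matrix κ κ ℝ) (c : ℕ → ℤ) (th : ℕ → ℤ → ℤ → ℝ) (j : ℕ)
    (z x : ℤ) : Matrix κ κ ℝ :=
  ∑ i ∈ Ico j N, th (i + 1) z x • MT l (K x) (i + 1) (my c z x (i + 1))

theorem RA_top (N : ℕ) (l : ℝ) (K : ℤ → ℕ → ℤ → Matrix κ κ ℝ) (c : ℕ → ℤ) (th : ℕ → ℤ → ℤ → ℝ)
    (z x : ℤ) : RA N l K c th N z x = 0 := by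
  unfold RA
  rw [Ico_self, sum_empty]

theorem RA_step {N j : ℕ} (hj : j < N) (l : ℝ) (K : ℤ → ℕ → ℤ → Matrix κ κ ℝ) (c : ℕ → ℤ)
    (th : ℕ → ℤ → ℤ → ℝ) (z x : ℤ) :
    RA N l K c th j z x = th (j + 1) z x • MT l (K x) (j + 1) (my c z x (j + 1)) +
      RA N l K c th (j + 1) z x := by
  unfold RA
  rw [sum_eq_sum_Ico_succ_bot hj]

/-- slot at the time `a`, families at the time `b'` -/
def GA (A : ℕ → ℤ → ℤ → ℝ) (b C : ℕ → ℤ → ℤ → κ → ℝ) (R : ℕ → ℤ → ℤ → Matrix κ κ ℝ)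
    (a b' : ℕ) (y : Pt) : ℝ :=
  A b' y.2.2 y.2.1 * (b b' y.1 y.2.1 ⬝ᵥ R a y.2.2 y.1 *ᵥ C b' y.2.2 y.1)

/-- the signs of a family of nodes `s k` with signs `σ k m` -/
def thA (c : ℕ → ℤ) (s : ℕ → Finset Pt) (σ : ℕ → Pt → ℝ) (k : ℕ) (z x : ℤ) : ℝ :=
  if (ix k z, my c z x k, ix k x) ∈ s k then σ k (ix k z, my c z x k, ix k x) * (hs k z * hs k x)
    else 0

/-- **One scale of the flow piece**, any family of nodes on the plane, any signs. -/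
theorem abel_scale (l : ℝ) (K : ℤ → ℕ → ℤ → Matrix κ κ ℝ) (N : ℕ) (M : Pt) (c : ℕ → ℤ)
    (s : ℕ → Finset Pt) (σ : ℕ → Pt → ℝ) (A : ℕ → ℤ → ℤ → ℝ) (b C : ℕ → ℤ → ℤ → κ → ℝ) {j : ℕ}
    (hj : j < N) (hs : s (j + 1) ⊆ bx3 N (rv M) (j + 1) (c (j + 1))) :
    ∑ m ∈ s (j + 1), σ (j + 1) m *
        ndF l K (A (j + 1)) (b (j + 1)) (C (j + 1)) (j + 1) m =
      In N M (p (j + 1) (c (j + 1))) (fun y =>
        GA A b C (RA N l K c (thA c s σ)) j (j + 1) y -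
          GA A b C (RA N l K c (thA c s σ)) (j + 1) (j + 1) y) := by
  set k := j + 1 with hk
  have hsub : ∀ y : Pt, GA A b C (RA N l K c (thA c s σ)) j k y -
      GA A b C (RA N l K c (thA c s σ)) k k y =
      A k y.2.2 y.2.1 * (thA c s σ k y.2.2 y.1 * (b k y.1 y.2.1 ⬝ᵥ
        xiT l (K y.1) (C k y.2.2 y.1) k (my c y.2.2 y.1 k))) := by
    intro y
    unfold GA
    rw [RA_step hj, add_mulVec, smul_mulVec, MT_mulVec, dotProduct_add, dotProduct_smul,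
      smul_eq_mul]
    ring
  unfold H352.In
  rw [H352.cb_part (k := k) (by omega) M]
  have e1 : ∀ m ∈ cbs N M k, rv m ∉ s k → ∑ y ∈ cb k m, p k (c k) y *
      (GA A b C (RA N l K c (thA c s σ)) j k y - GA A b C (RA N l K c (thA c s σ)) k k y) = 0 := by
    intro m _ hn
    refine sum_eq_zero fun y hy => ?_
    have hy' : cx k y = m := mem_cb.1 hy
    unfold H352.p
    split_ifs with h
    · rw [hsub y]
      have e2 : (ix k y.2.2, my c y.2.2 y.1 k, ix k y.1) = rv m := by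
        rw [← hy']
        unfold my rv PL.cx
        rw [← h]
        refine Prod.ext rfl (Prod.ext ?_ rfl)
        simp only
        ring
      have e3 : thA c s σ k y.2.2 y.1 = 0 := by
        unfold thA
        rw [e2, if_neg hn]
      rw [e3]
      ring
    · rw [zero_mul]
  have e4 : ∑ m ∈ cbs N M k, ∑ y ∈ cb k m, p k (c k) y *
      (GA A b C (RA N l K c (thA c s σ)) j k y - GA A b C (RA N l K c (thA c s σ)) k k y) =
      ∑ m ∈ s k, ∑ y ∈ cb k (rv m), p k (c k) y *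
      (GA A b C (RA N l K c (thA c s σ)) j k y - GA A b C (RA N l K c (thA c s σ)) k k y) := by
    rw [← sum_filter_add_sum_filter_not (cbs N M k) (fun m => rv m ∈ s k)]
    rw [sum_eq_zero (s := (cbs N M k).filter fun m => ¬ rv m ∈ s k) fun m hm =>
      e1 m (mem_filter.1 hm).1 (mem_filter.1 hm).2, add_zero]
    refine sum_nbij' rv rv (fun m hm => ?_) (fun m hm => ?_) (fun _ _ => rfl) (fun _ _ => rfl)
      fun _ _ => rfl
    · exact (mem_filter.1 hm).2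
    · rw [mem_filter, rv_rv]
      refine ⟨?_, hm⟩
      have h := hs hm
      unfold PL.H804.bx3 at h
      rw [mem_filter, mem_product, mem_product] at h
      unfold cbs
      rw [mem_product, mem_product]
      exact ⟨h.1.2.2, h.1.2.1, h.1.1⟩
  rw [e4]
  refine sum_congr rfl fun m hm => ?_
  have hc : m.1 + m.2.1 + m.2.2 = c k := by
    have h := hs hm
    unfold PL.H804.bx3 at h
    exact (mem_filter.1 h).2
  unfold PL.cb ndF
  rw [sum_product]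
  change _ = ∑ x ∈ iv k m.2.2, ∑ w ∈ iv k m.2.1 ×ˢ iv k m.1, _
  have e5 : ∀ x ∈ iv k m.2.2, ∑ w ∈ iv k m.2.1 ×ˢ iv k m.1, p k (c k) (x, w) *
      (GA A b C (RA N l K c (thA c s σ)) j k (x, w) -
        GA A b C (RA N l K c (thA c s σ)) k k (x, w)) =
      ∑ z ∈ iv k m.1, σ k m * (PL.hs k z * PL.hs k x *
        (xiT l (K x) (C k z x) k m.2.1 ⬝ᵥ qK (A k) (b k) z x k m.2.1)) := by
    intro x hx
    rw [sum_product, sum_comm]
    refine sum_congr rfl fun z hz => ?_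
    have hx1 : ix k x = m.2.2 := (mem_iv).1 hx
    have hz1 : ix k z = m.1 := (mem_iv).1 hz
    have hmy : my c z x k = m.2.1 := by
      unfold my
      rw [hx1, hz1, ← hc]
      ring
    have e7 : thA c s σ k z x = σ k m * (PL.hs k z * PL.hs k x) := by
      unfold thA
      rw [hmy, hx1, hz1, if_pos hm]
    have e6 : ∀ y ∈ iv k m.2.1, p k (c k) (x, y, z) *
        (GA A b C (RA N l K c (thA c s σ)) j k (x, y, z) -
          GA A b C (RA N l K c (thA c s σ)) k k (x, y, z)) =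
        σ k m * (PL.hs k z * PL.hs k x) * (((2 : ℝ) ^ k)⁻¹ * (A k z y *
          (xiT l (K x) (C k z x) k m.2.1 ⬝ᵥ b k x y))) := by
      intro y hy
      have hy1 : ix k y = m.2.1 := (mem_iv).1 hy
      rw [hsub]
      unfold H352.p
      simp only
      rw [if_pos (by rw [hx1, hy1, hz1, ← hc]; ring), e7, hmy, dotProduct_comm (b k x y)]
      ring
    rw [sum_congr rfl e6, ← mul_sum, ← mul_sum]
    unfold H103.qK
    rw [dotProduct_smul, dotProduct_sum, smul_eq_mul]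
    simp only [dotProduct_smul, smul_eq_mul]
    ring
  refine Eq.trans ?_ (sum_congr rfl e5).symm
  rw [sum_comm, mul_sum]
  exact sum_congr rfl fun z _ => mul_sum _ _ _

/-- **The flow piece is an Abel sum.** -/
theorem abel_fam (l : ℝ) (K : ℤ → ℕ → ℤ → Matrix κ κ ℝ) (N : ℕ) (M : Pt) (c : ℕ → ℤ)
    (s : ℕ → Finset Pt) (σ : ℕ → Pt → ℝ) (A : ℕ → ℤ → ℤ → ℝ) (b C : ℕ → ℤ → ℤ → κ → ℝ)
    (hs : ∀ k ∈ Icc 1 N, s k ⊆ bx3 N (rv M) k (c k)) :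
    ∑ k ∈ Icc 1 N, ∑ m ∈ s k, σ k m * ndF l K (A k) (b k) (C k) k m =
      ∑ j ∈ range N, In N M (p (j + 1) (c (j + 1))) (fun y =>
        GA A b C (RA N l K c (thA c s σ)) j (j + 1) y -
          GA A b C (RA N l K c (thA c s σ)) (j + 1) (j + 1) y) := by
  have e2 : ∀ f : ℕ → ℝ, ∑ k ∈ Icc 1 N, f k = ∑ j ∈ range N, f (j + 1) := by
    intro f
    rw [range_eq_Ico, sum_Ico_add' f 0 N 1]
    rfl
  rw [e2]
  refine sum_congr rfl fun j hj => ?_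
  rw [mem_range] at hj
  exact abel_scale l K N M c s σ A b C hj (hs (j + 1) (by rw [mem_Icc]; omega))

/-! ### The nodes of `cosF` -/

variable {ι : Type*} [Fintype ι] [DecidableEq ι]

omit [DecidableEq ι] in
/-- **A node, payer `u'`, in families.** -/
theorem loc_nf3 (o : ℤ) {k : ℕ} (m : Pt) (g : ℤ × ℤ → ℝ) (u' v : ℤ → ℤ → ι → ℝ)
    (F1 F2 F3 : ℕ → Pt → ℝ) :
    ((2 : ℝ) ^ k)⁻¹ * loc k (bx0 o m) (fun y => g y.2 * (u' y.1 y.2.1 ⬝ᵥ v y.1 y.2.2)) (F1 k)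
      (F2 k) (F3 k) = ∑ x0 ∈ iv k (bx0 o m).1, hs k x0 *
        nf3 (fA g F1 x0 k) (fb u' F3 x0 k) (fC v F2 x0 k) k (rv m) := by
  unfold PL.loc nf3
  rw [mul_sum]
  refine sum_congr rfl fun x0 _ => ?_
  rw [mul_left_comm]
  congr 1
  rw [show (bx0 o m).2.2.2 = m.2.2 from rfl, show (bx0 o m).2.2.1 = m.2.1 from rfl,
    show (bx0 o m).2.1 = m.1 from rfl]
  have e : ∀ f : ℤ → ℤ → ℤ → ℝ, ∑ x1 ∈ iv k m.1, ∑ x2 ∈ iv k m.2.1, ∑ x3 ∈ iv k m.2.2,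
      f x1 x2 x3 = ∑ x3 ∈ iv k m.2.2, ∑ x1 ∈ iv k m.1, ∑ x2 ∈ iv k m.2.1, f x1 x2 x3 := by
    intro f
    rw [sum_comm (s := iv k m.2.2)]
    exact sum_congr rfl fun x1 _ => sum_comm
  rw [e]
  unfold rv
  simp only [mul_sum]
  refine sum_congr rfl fun z _ => sum_congr rfl fun x _ => sum_congr rfl fun y _ => ?_
  unfold PL.prd fA fb fC
  rw [smul_dotProduct, dotProduct_smul, smul_eq_mul, smul_eq_mul]
  ring

/-! ### The three pieces for families which agree with the data on the alive nodes -/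

/-- the nodes of `nodeS` in families -/
theorem nodeI_eq (l : ℝ) (o : ℤ) (k : ℕ) (m : Pt) (g : ℤ × ℤ → ℝ) (u v : ℤ → ℤ → ι → ℝ)
    (F1 F2 F3 : ℕ → Pt → ℝ) :
    nodeS o k m (F2 k) (fI l g u v (F1 k) (F3 k) k m.2.1) = ∑ x0 ∈ iv k (bx0 o m).1, hs k x0 *
      ndI l (KT l u) (fA g F1 x0 k) (fb u F3 x0 k) (fC v F2 x0 k) k (rv m) := by
  unfold nodeS ndI
  refine sum_congr rfl fun x0 _ => ?_
  rw [sum_comm]
  unfold rv
  simp only [mul_sum]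
  refine sum_congr rfl fun z _ => sum_congr rfl fun x _ => ?_
  unfold fI fC ST
  rw [qT_qK]
  have e : F2 k (x0, x, z) • v x z - √l • ((KT l u x k m.2.1)⁻¹ *ᵥ (F2 k (x0, x, z) • v x z)) =
      F2 k (x0, x, z) • (v x z - √l • ((KT l u x k m.2.1)⁻¹ *ᵥ v x z)) := by
    rw [mulVec_smul, smul_sub, smul_comm]
  rw [e, smul_dotProduct, smul_eq_mul]
  ring

theorem nodeZ_eq (l : ℝ) (o : ℤ) (k : ℕ) (m : Pt) (g : ℤ × ℤ → ℝ) (u v : ℤ → ℤ → ι → ℝ)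
    (F1 F2 F3 : ℕ → Pt → ℝ) :
    nodeS o k m (F2 k) (fZ l g u v (F1 k) (F3 k) k m.2.1) = ∑ x0 ∈ iv k (bx0 o m).1, hs k x0 *
      ndZ l (KT l u) (fA g F1 x0 k) (fb u F3 x0 k) (fC v F2 x0 k) k (rv m) := by
  unfold nodeS ndZ
  refine sum_congr rfl fun x0 _ => ?_
  rw [sum_comm]
  unfold rv
  simp only [mul_sum]
  refine sum_congr rfl fun z _ => sum_congr rfl fun x _ => ?_
  unfold fZ fC ST H576.sz
  rw [qT_qK]
  simp only [dotProduct_smul, smul_dotProduct, smul_eq_mul]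
  rw [dotProduct_comm (v x z)]
  ring

theorem nodeF_eq (l : ℝ) (o : ℤ) (k : ℕ) (m : Pt) (g : ℤ × ℤ → ℝ) (u v : ℤ → ℤ → ι → ℝ)
    (F1 F2 F3 : ℕ → Pt → ℝ) :
    nodeS o k m (F2 k) (fF l g u v (F1 k) (F3 k) k m.2.1) = ∑ x0 ∈ iv k (bx0 o m).1, hs k x0 *
      ndF l (KT l u) (fA g F1 x0 k) (fb u F3 x0 k) (fC v F2 x0 k) k (rv m) := by
  unfold nodeS ndF
  refine sum_congr rfl fun x0 _ => ?_
  rw [sum_comm]
  unfold rv
  simp only [mul_sum]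
  refine sum_congr rfl fun z _ => sum_congr rfl fun x _ => ?_
  unfold fF fC
  rw [qT_qK]
  have e : xiT l (KT l u x) (F2 k (x0, x, z) • v x z) k m.2.1 =
      F2 k (x0, x, z) • xiT l (KT l u x) (v x z) k m.2.1 := by
    unfold H483.xiT
    rw [mulVec_smul, mulVec_smul, mulVec_smul, smul_comm]
  rw [e, smul_dotProduct, smul_eq_mul]
  ring

section pieces

variable {o : ℤ} {Al : ℕ → Pt → Prop} {K : ℕ} {x : Pt} {g : ℤ × ℤ → ℝ} {u v : ℤ → ℤ → ι → ℝ}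
  {F1 F2 F3 : ℕ → Pt → ℝ} {A : ℤ → ℕ → ℤ → ℤ → ℝ} {b C : ℤ → ℕ → ℤ → ℤ → ι → ℝ}

/-- the families agree with the data on the alive nodes -/
def AgrN (o : ℤ) (Al : ℕ → Pt → Prop) (K : ℕ) (x : Pt) (g : ℤ × ℤ → ℝ) (u v : ℤ → ℤ → ι → ℝ)
    (F1 F2 F3 : ℕ → Pt → ℝ) (A : ℤ → ℕ → ℤ → ℤ → ℝ) (b C : ℤ → ℕ → ℤ → ℤ → ι → ℝ) : Prop :=
  ∀ x0 : ℤ, ∀ k ∈ Icc 1 K, ∀ m ∈ sN Al o K (PL.cx K x) x0 k,
    Agr (fA g F1 x0 k) (A x0 k) (fb u F3 x0 k) (b x0 k) (fC v F2 x0 k) (C x0 k) k m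

/-- **The increasing piece in families.** -/
theorem TI_le (ho : o = 1 ∨ o = -1) (l : ℝ) (h : AgrN o Al K x g u v F1 F2 F3 A b C) :
    nodesA Al K x (fun k m => |nodeS o k m (F2 k) (fI l g u v (F1 k) (F3 k) k m.2.1)|) ≤
      ∑ t ∈ rt (PL.cx K x), ∑ x0 ∈ iv K t, ∑ k ∈ Icc 1 K, ∑ m ∈ sN Al o K (PL.cx K x) x0 k,
        |ndI l (KT l u) (A x0 k) (b x0 k) (C x0 k) k m| := by
  have h1 : nodesA Al K x (fun k m => |nodeS o k m (F2 k)
      (fI l g u v (F1 k) (F3 k) k m.2.1)|) ≤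
      nodesA Al K x (fun k m => ∑ x0 ∈ iv k (bx0 o m).1,
        |ndI l (KT l u) (fA g F1 x0 k) (fb u F3 x0 k) (fC v F2 x0 k) k (rv m)|) := by
    refine nodesA_mono fun k _ m _ _ => ?_
    rw [nodeI_eq]
    refine (abs_sum_le_sum_abs _ _).trans (sum_le_sum fun x0 _ => le_of_eq ?_)
    rw [abs_mul, PL.abs_hs, one_mul]
  refine h1.trans (le_of_eq ?_)
  rw [swap0 ho Al K x fun x0 k m =>
    |ndI l (KT l u) (fA g F1 x0 k) (fb u F3 x0 k) (fC v F2 x0 k) k (rv m)|]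
  refine sum_congr rfl fun t _ => sum_congr rfl fun x0 _ => sum_congr rfl fun k hk =>
    sum_congr rfl fun m hm => ?_
  rw [rv_rv, ndI_congr (mem_Icc.1 hk).1 (h x0 k hk m hm)]

/-- **The gap piece in families.** -/
theorem TZ_le (ho : o = 1 ∨ o = -1) (l : ℝ) (h : AgrN o Al K x g u v F1 F2 F3 A b C) :
    nodesA Al K x (fun k m => |nodeS o k m (F2 k) (fZ l g u v (F1 k) (F3 k) k m.2.1)|) ≤
      ∑ t ∈ rt (PL.cx K x), ∑ x0 ∈ iv K t, ∑ k ∈ Icc 1 K, ∑ m ∈ sN Al o K (PL.cx K x) x0 k,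
        |ndZ l (KT l u) (A x0 k) (b x0 k) (C x0 k) k m| := by
  have h1 : nodesA Al K x (fun k m => |nodeS o k m (F2 k)
      (fZ l g u v (F1 k) (F3 k) k m.2.1)|) ≤
      nodesA Al K x (fun k m => ∑ x0 ∈ iv k (bx0 o m).1,
        |ndZ l (KT l u) (fA g F1 x0 k) (fb u F3 x0 k) (fC v F2 x0 k) k (rv m)|) := by
    refine nodesA_mono fun k _ m _ _ => ?_
    rw [nodeZ_eq]
    refine (abs_sum_le_sum_abs _ _).trans (sum_le_sum fun x0 _ => le_of_eq ?_)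
    rw [abs_mul, PL.abs_hs, one_mul]
  refine h1.trans (le_of_eq ?_)
  rw [swap0 ho Al K x fun x0 k m =>
    |ndZ l (KT l u) (fA g F1 x0 k) (fb u F3 x0 k) (fC v F2 x0 k) k (rv m)|]
  refine sum_congr rfl fun t _ => sum_congr rfl fun x0 _ => sum_congr rfl fun k hk =>
    sum_congr rfl fun m hm => ?_
  rw [rv_rv, ndZ_congr (mem_Icc.1 hk).1 (h x0 k hk m hm)]

/-- **The flow piece in families.** -/
theorem TF_eq (ho : o = 1 ∨ o = -1) (l : ℝ) (sg : ℕ → Pt → ℝ)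
    (h : AgrN o Al K x g u v F1 F2 F3 A b C) :
    nodesA Al K x (fun k m => sg k m *
        nodeS o k m (F2 k) (fF l g u v (F1 k) (F3 k) k m.2.1)) =
      ∑ t ∈ rt (PL.cx K x), ∑ x0 ∈ iv K t, ∑ j ∈ range K,
        In K (PL.cx K x) (p (j + 1) (cP o x0 (j + 1))) (fun y =>
          GA (A x0) (b x0) (C x0) (RA K l (KT l u) (cP o x0) (thA (cP o x0)
            (sN Al o K (PL.cx K x) x0) fun k m => sg k (rv m) * hs k x0)) j (j + 1) y -
          GA (A x0) (b x0) (C x0) (RA K l (KT l u) (cP o x0) (thA (cP o x0)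
            (sN Al o K (PL.cx K x) x0) fun k m => sg k (rv m) * hs k x0)) (j + 1) (j + 1) y) := by
  have h1 : nodesA Al K x (fun k m => sg k m *
      nodeS o k m (F2 k) (fF l g u v (F1 k) (F3 k) k m.2.1)) =
      nodesA Al K x (fun k m => ∑ x0 ∈ iv k (bx0 o m).1, sg k m * (hs k x0 *
        ndF l (KT l u) (fA g F1 x0 k) (fb u F3 x0 k) (fC v F2 x0 k) k (rv m))) := by
    unfold nodesA
    refine sum_congr rfl fun k _ => sum_congr rfl fun m _ => ?_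
    beta_reduce
    rw [nodeF_eq, mul_sum]
  rw [h1, swap0 ho Al K x fun x0 k m => sg k m * (hs k x0 *
    ndF l (KT l u) (fA g F1 x0 k) (fb u F3 x0 k) (fC v F2 x0 k) k (rv m))]
  refine sum_congr rfl fun t _ => sum_congr rfl fun x0 _ => ?_
  rw [← abel_fam l (KT l u) K (PL.cx K x) (cP o x0) (sN Al o K (PL.cx K x) x0)
    (fun k m => sg k (rv m) * hs k x0) (A x0) (b x0) (C x0) fun k _ => sN_sub ..]
  refine sum_congr rfl fun k hk => sum_congr rfl fun m hm => ?_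
  rw [rv_rv, ndF_congr (h x0 k hk m hm)]
  ring

end pieces

/-! ### Inputs killed on the stopped squares -/

/-- the input killed at scale `0` and on the stopped squares of the edge `a` -/
def kF (Λ : ℝ) (a : ℤ × ℤ → ℝ) (K : ℕ) (F : ℕ → Pt → ℝ) (k : ℕ) (q : Pt) : ℝ :=
  if k = 0 ∨ sst Λ a K k q.2.1 q.2.2 then 0 else F k q

theorem fA_kF (Λ : ℝ) (g : ℤ × ℤ → ℝ) (K : ℕ) (F : ℕ → Pt → ℝ) (x0 : ℤ) (k : ℕ) :
    fA g (kF Λ g K F) x0 k = H103.Ap Λ g K F x0 k := by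
  funext z y
  unfold fA kF H103.Ap H48.pth
  split_ifs <;> simp

theorem kF_alive {Λ : ℝ} {U : Tri} {K : ℕ} {k : ℕ} (hk : 1 ≤ k) {m : Pt}
    (h : ¬ cst Λ U K k (crn k m)) (F : ℕ → Pt → ℝ) {x0 x1 x2 x3 : ℤ} (h1 : ix k x1 = m.1)
    (h2 : ix k x2 = m.2.1) (h3 : ix k x3 = m.2.2) :
    kF Λ U.2.2 K F k (x0, x2, x3) = F k (x0, x2, x3) ∧
    kF Λ U.2.1 K F k (x0, x1, x3) = F k (x0, x1, x3) ∧
    kF Λ U.1 K F k (x0, x1, x2) = F k (x0, x1, x2) := by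
  have hc : cx k (x1, x2, x3) = m := by
    unfold PL.cx
    rw [h1, h2, h3]
  rw [← hc, H48.cst_crn] at h
  unfold H48.cst at h
  push Not at h
  obtain ⟨a1, a2, a3⟩ := h
  have hk0 : ¬ k = 0 := by omega
  unfold kF
  refine ⟨if_neg ?_, if_neg ?_, if_neg ?_⟩
  · exact not_or.2 ⟨hk0, a3⟩
  · exact not_or.2 ⟨hk0, a2⟩
  · exact not_or.2 ⟨hk0, a1⟩

omit [Fintype ι] [DecidableEq ι] in
/-- **The killed inputs agree with the data on the alive nodes.** -/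
theorem agrN_kF (o : ℤ) (Λ : ℝ) (U : Tri) (K : ℕ) (x : Pt) (g : ℤ × ℤ → ℝ)
    (u v : ℤ → ℤ → ι → ℝ) (F1 F2 F3 : ℕ → Pt → ℝ) :
    AgrN o (fun k z => ¬ cst Λ U K k z) K x g u v F1 F2 F3 (fA g (kF Λ U.2.2 K F1))
      (fb u (kF Λ U.1 K F3)) (fC v (kF Λ U.2.1 K F2)) := by
  intro x0 k hk m hm
  have hk1 := (mem_Icc.1 hk).1
  have ha := (mem_sN.1 hm).2.2
  have c1 : ix k (2 ^ k * m.1) = m.1 := ix_two k _
  have c2 : ix k (2 ^ k * m.2.1) = m.2.1 := ix_two k _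
  have c3 : ix k (2 ^ k * m.2.2) = m.2.2 := ix_two k _
  refine ⟨fun z hz y hy => ?_, fun w hw y hy => ?_, fun z hz w hw => ?_⟩
  · rw [mem_iv] at hz hy
    unfold fA
    rw [(kF_alive hk1 ha F1 (x0 := x0) (x1 := 2 ^ k * m.2.2) c3 hy hz).1]
  · rw [mem_iv] at hw hy
    unfold fb
    rw [(kF_alive hk1 ha F3 (x0 := x0) (x3 := 2 ^ k * m.1) hw hy c1).2.2]
  · rw [mem_iv] at hz hw
    unfold fC
    rw [(kF_alive hk1 ha F2 (x0 := x0) (x2 := 2 ^ k * m.2.1) hw c2 hz).2.1]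

end

end Vale.Agent.P141.H677
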