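import Vale.Agent.P141.H677.SkelTF2
import Vale.Agent.P141.H401.CutData
import Vale.Agent.P141.H205.SUse

/-!
# P141, line (A): the bundle of the flow part and its five leaves

* `FDs`, `FD` : the data of the cut families used by the flow part (`FD : Bun`);
* `LeafN`, `Leaf0`, `LeafB`, `LeafS`, `LeafM` ; `partF_NTF` : the flow part from the leaves;
* `leaf0` : the term of scale `0`.
-/

namespace Vale.Agent.P141.H677.Sk

open Finset Matrix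
open Vale.Agent.P141.PL (Pt iv hs ix mem_iv ix_ix cb mem_cb cx)
open Vale.Agent.P141.PL.H315 (Tri)
open Vale.Agent.P141.H48 (US ES BSl sst)
open Vale.Agent.P141.H352 (In p)
open Vale.Agent.P141.H795 (kp TS E8)
open Vale.Agent.P141.H401 (StX PartX Bun PartF NF NTFf mA mb)
open Vale.Agent.P141.H305 (ClsM kapM)
open Vale.Agent.P141.H205 (CapS)
open Vale.Agent.P141.H103 (PA QW un)
open Vale.Agent.P141.H588G (S2)
open Vale.Agent.P141.H576 (QD)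

noncomputable section

open scoped Classical

set_option linter.unusedSectionVars false

variable {ι : Type} [Fintype ι] [DecidableEq ι]

/-- the level of the cut of `v` at dense fibres, `lam1 = (r / t) ^ 8 √s` -/
def lam1 (q : H401.Num) (s r : ℝ) : ℝ := q.t ^ (-8 : ℝ) * √s * r ^ (8 : ℝ)

/-- **The data of the cut families, flow part.** Cells in the root `(ix K x.1, ix K x.2.1,
ix K x.2.2)`, every `x0`. -/
structure FDs (q : H401.Num) (n : ℕ) (ez : ℝ) (F1 F2 F3 : ℕ → Pt → ℝ) (K : ℕ) (x : Pt)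
    (s r : ℝ) (U : Tri) (g : ℤ → ℤ → ℝ) (u v : ℤ → ℤ → ι → ℝ) (A : FamA) (b C : FamV ι)
    (Q1 Q2 Q3 : ℕ → Pt → Prop) (v' : ℤ → ℤ → ι → ℝ) : Prop where
  B1 : BSl n q.e q.cP F1 Q1
  B2 : BSl n ez q.cP F2 Q2
  B3 : BSl n q.e q.cP F3 Q3
  /-- scale `0` -/
  z0A : ∀ x0 z y, A x0 0 z y = 0
  z0b : ∀ x0 x y, b x0 0 x y = 0
  /-- agreement off the affected squares, pointwise -/
  agA : ∀ x0, ∀ k < K, ∀ n' m', ¬ H401.qA q U K Q1 k (ix k x0) n' m' →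
    ∀ z ∈ iv k n', ∀ y ∈ iv k m', A x0 (k + 1) z y = A x0 k z y
  agb : ∀ x0, ∀ k < K, ∀ n' m', ¬ H401.qB q U K Q3 k (ix k x0) n' m' →
    ∀ z ∈ iv k n', ∀ y ∈ iv k m', b x0 (k + 1) z y = b x0 k z y
  /-- caps, every square, times `k` and `k + 1` -/
  capA : ∀ x0, ∀ k ≤ K, ∀ n' m', CapS (q.th s r ^ 2) k k (un (A x0 k)) n' m'
  capA1 : ∀ x0, ∀ k < K, ∀ n' m', CapS (q.th s r ^ 2) k k (un (A x0 (k + 1))) n' m'
  capb : ∀ x0, ∀ k ≤ K, ∀ n' m', CapS (q.th s r ^ 2) k k (b x0 k) n' m'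
  capb1 : ∀ x0, ∀ k < K, ∀ n' m', CapS (q.th s r ^ 2) k k (b x0 (k + 1)) n' m'
  /-- own energies, weight one, times `j = k` and `j = k + 1` -/
  ownA : ∀ k ≤ K, ∀ j, j = k ∨ (j = k + 1 ∧ k < K) → ∀ i : ℤ, ∀ n' ∈ iv (K - k) (ix K x.2.2),
    ∀ m' ∈ iv (K - k) (ix K x.2.1), ∑ x0 ∈ iv k i, S2 (PA (A x0 j) k k n' m') ≤
      q.CD * (q.t ^ (2 - 2 * q.c - 2 * q.d) * s ^ (3 / 2 : ℝ)) * 2 ^ k
  ownb : ∀ k ≤ K, ∀ j, j = k ∨ (j = k + 1 ∧ k < K) → ∀ i : ℤ, ∀ n' ∈ iv (K - k) (ix K x.1),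
    ∀ m' ∈ iv (K - k) (ix K x.2.1), ∑ x0 ∈ iv k i, S2 (QW k k (b x0 j) (fun _ => 1) n' m') ≤
      q.CD * (q.t ^ (2 - 2 * q.c - 2 * q.d) * s ^ (3 / 2 : ℝ)) * 2 ^ k
  /-- masses, times `j = k` and `j = k + 1` -/
  massA : ∀ k ≤ K, ∀ j, j = k ∨ (j = k + 1 ∧ k < K) → ∀ i : ℤ, ∀ n' ∈ iv (K - k) (ix K x.2.2),
    ∀ m' ∈ iv (K - k) (ix K x.2.1), ∑ x0 ∈ iv k i, ∑ z ∈ iv k n', ∑ y ∈ iv k m',
      A x0 j z y ^ 2 ≤ q.CD * (q.Lm * s) * 8 ^ k
  massb : ∀ k ≤ K, ∀ j, j = k ∨ (j = k + 1 ∧ k < K) → ∀ i : ℤ, ∀ n' ∈ iv (K - k) (ix K x.1),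
    ∀ m' ∈ iv (K - k) (ix K x.2.1), ∑ x0 ∈ iv k i, ∑ z ∈ iv k n', ∑ y ∈ iv k m',
      b x0 j z y ⬝ᵥ b x0 j z y ≤ q.CD * (q.Lm * s) * 8 ^ k
  /-- rows of the cut `b` below the rows of the killed `b`, times `j = k` and `j = k + 1` -/
  rowb : ∀ k ≤ K, ∀ j, j = k ∨ (j = k + 1 ∧ k < K) → ∀ (x0 x' m' : ℤ) (w : ι → ℝ),
    ∑ y ∈ iv k m', (b x0 j x' y ⬝ᵥ w) ^ 2 ≤
      ∑ y ∈ iv k m', (mb q U K u F3 x0 j x' y ⬝ᵥ w) ^ 2
  /-- rows of the cut `A` below the rows of the killed `A` -/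
  rowA : ∀ k ≤ K, ∀ j, j = k ∨ (j = k + 1 ∧ k < K) → ∀ x0 z m' : ℤ,
    ∑ y ∈ iv k m', A x0 j z y ^ 2 ≤
      ∑ y ∈ iv k m', mA q U K g F1 x0 j z y ^ 2
  /-- the slot `C`, never cut but by points of `v` -/
  C_eq : ∀ x0 k z x', C x0 k z x' = kF q.Lm U.2.1 K F2 k (x0, x', z) • v' x' z
  v_or : ∀ x' z, v' x' z = v x' z ∨ v' x' z = 0
  /-- fibres of `v'` on the unstopped squares -/
  fib : ∀ k ≤ K, ∀ x1 ∈ iv K (ix K x.1), ∀ x3 ∈ iv K (ix K x.2.2), ¬ sst q.Lm U.2.1 K k x1 x3 →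
    ∑ y ∈ iv k (ix k x3), v' x1 y ⬝ᵥ v' x1 y ≤ lam1 q s r * 2 ^ k

/-- **The bundle of the flow part.** -/
def FD : Bun := fun ι _ _ q n ez F1 F2 F3 _o K x s r U g u v A b C =>
  ∃ (Q1 Q2 Q3 : ℕ → Pt → Prop) (v' : ℤ → ℤ → ι → ℝ),
    FDs q n ez F1 F2 F3 K x s r U g u v A b C Q1 Q2 Q3 v'

/-! ### The leaves -/

/-- near term -/
def LeafN : Prop := PartF FD fN

/-- term of scale `0` -/
def Leaf0 : Prop := PartF FD f0

/-- births -/
def LeafB : Prop := PartF FD fB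

/-- shift error -/
def LeafS : Prop := PartF FD fS

/-- node forms with the averaged slot -/
def LeafM : Prop := PartF FD fM

theorem NTFf_le (l : ℝ) (o : ℤ) (Al : ℕ → Pt → Prop) (K : ℕ) (x : Pt) (u : ℤ → ℤ → ι → ℝ)
    (A : FamA) (b C : FamV ι) (sg : ℕ → Pt → ℝ) :
    NTFf ι l o Al K x u A b C sg ≤ fN ι l o Al K x u A b C sg + (f0 ι l o Al K x u A b C sg +
      (fB ι l o Al K x u A b C sg + 8 / 3 * (fS ι l o Al K x u A b C sg +
        fM ι l o Al K x u A b C sg))) := by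
  have h1 : NTFf ι l o Al K x u A b C sg = TFf ι Al o K (cx K x) sg l u A b C := rfl
  rw [h1, TFf_abel]
  exact ab_le o K (cx K x) (sl Al o K (cx K x) sg l u) A b C fun x0 z x' => RT_top ..

/-- **The flow part from its leaves, any bundle.** -/
theorem partF_NTFf {D : Bun} (HN : PartF D fN) (H0 : PartF D f0) (HB : PartF D fB)
    (HS : PartF D fS) (HM : PartF D fM) : PartF D NTFf := by
  have h1 : PartF D (fun ι _ _ l o Al K x u A b C sg =>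
      fS ι l o Al K x u A b C sg + fM ι l o Al K x u A b C sg) :=
    HS.add HM fun ι _ _ l o Al K x u A b C sg => le_rfl
  have h2 : PartF D (fun ι _ _ l o Al K x u A b C sg =>
      8 / 3 * (fS ι l o Al K x u A b C sg + fM ι l o Al K x u A b C sg)) :=
    PartF.scale (by norm_num : (0 : ℝ) ≤ 8 / 3) h1 fun ι _ _ l o Al K x u A b C sg => le_rfl
  have h3 : PartF D (fun ι _ _ l o Al K x u A b C sg => fB ι l o Al K x u A b C sg +
      8 / 3 * (fS ι l o Al K x u A b C sg + fM ι l o Al K x u A b C sg)) :=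
    HB.add h2 fun ι _ _ l o Al K x u A b C sg => le_rfl
  have h4 : PartF D (fun ι _ _ l o Al K x u A b C sg => f0 ι l o Al K x u A b C sg +
      (fB ι l o Al K x u A b C sg +
        8 / 3 * (fS ι l o Al K x u A b C sg + fM ι l o Al K x u A b C sg))) :=
    H0.add h3 fun ι _ _ l o Al K x u A b C sg => le_rfl
  exact HN.add h4 fun ι _ _ l o Al K x u A b C sg => NTFf_le l o Al K x u A b C sg

/-- **The term of scale `0`.** -/
theorem leaf0 : Leaf0 := by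
  have hz : ∀ (a e0 k8 k3 c d Kt e cP L CD t : ℝ) (n : ℕ) (ez : ℝ) (F1 F2 F3 : ℕ → Pt → ℝ)
      (o : ℤ) (K : ℕ) (x : Pt) (ι : Type) [Fintype ι] [DecidableEq ι] (s r : ℝ) (U : Tri)
      (g : ℤ → ℤ → ℝ) (u v : ℤ → ℤ → ι → ℝ) (A : FamA) (b C : FamV ι) (l : ℝ)
      (Al : ℕ → Pt → Prop) (sg : ℕ → Pt → ℝ),
      FD ι ⟨a, e0, k8, k3, c, d, Kt, e, cP, L, CD, t⟩ n ez F1 F2 F3 o K x s r U g u v A b C →
      f0 ι l o Al K x u A b C sg = 0 := by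
    intro a e0 k8 k3 c d Kt e cP L CD t n ez F1 F2 F3 o K x ι _ _ s r U g u v A b C l Al sg hD
    obtain ⟨Q1, Q2, Q3, v', h⟩ := hD
    unfold f0 q0
    refine sum_eq_zero fun t' _ => sum_eq_zero fun x0 _ => ?_
    have e0 : GA (A x0) (b x0) (C x0) (sl Al o K (cx K x) sg l u x0) 0 0 = fun _ => 0 := by
      funext y
      unfold GA
      rw [h.z0A, zero_mul]
    rw [e0]
    unfold H352.In
    simp
  intro a _ _
  refine ⟨1, one_pos, fun e0 _ _ => ⟨1, one_pos, fun k8 _ _ => ⟨1, one_pos, fun k3 _ _ =>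
    ⟨1, 1, 1, 1, one_pos, one_pos, one_pos, one_pos,
    fun c _ _ d _ _ Kt e cP L _ _ _ _ CD _ => ⟨0, le_rfl, ?_⟩⟩⟩⟩⟩
  intro t ht ht1 n ez F1 F2 F3 h1 h3 h2 o ho K hKn x ι _ _ s r U g u v hs hr hcls A b C hD sg hsg
  rw [hz a e0 k8 k3 c d Kt e cP L CD t n ez F1 F2 F3 o K x ι s r U g u v A b C _ _ sg hD]
  simp

/-- **The flow part of the cut families from its four open leaves.** -/
theorem partF_TF (HN : LeafN) (HB : LeafB) (HS : LeafS) (HM : LeafM) : PartF FD NTFf :=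
  partF_NTFf HN leaf0 HB HS HM

/-- the node forms from the planes of the grids -/
theorem leafM_of (H : PartG FD fun _ι _ _ K M R A b C h j e => FM1 K M R A b C h j e) : LeafM :=
  partF_fM H

/-- the shift error from the planes of the grids -/
theorem leafS_of (H : PartG FD fun _ι _ _ K M R A b C h j e => FS1 K M R A b C h j e) : LeafS :=
  partF_fS H

end

end Vale.Agent.P141.H677.Sk
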