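import Vale.Agent.P141.H677.Fam

/-!
# P141, line (A): the node forms and the Abel integrand are linear in every slot

`nf3_addA / B / C`, `ndI_..`, `ndZ_..`, `ndF_..`, `GA_..` : additivity in the slots
`A`, `b`, `C`; `GA_addR` : in the slot `R`; `GA_vec`, `GA_vecb` : the matrix moved to `C` or `b`.
-/

namespace Vale.Agent.P141.H677

open Finset Matrix
open Vale.Agent.P141.PL (Pt iv hs ix mem_iv)
open Vale.Agent.P141.H420 (Tr)
open Vale.Agent.P141.H483 (hd ze xiT)
open Vale.Agent.P141.H352 (In p)
open Vale.Agent.P141.H103 (qK)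
open Vale.Agent.P141.H576 (sz)

noncomputable section

variable {κ : Type*} [Fintype κ] [DecidableEq κ]

section slots

variable {l : ℝ} {K : ℤ → ℕ → ℤ → Matrix κ κ ℝ} (A A' : ℤ → ℤ → ℝ) (b b' C C' : ℤ → ℤ → κ → ℝ)
  (r : ℝ) (k : ℕ) (m : Pt)

/-! ### The slot vector `q` -/

omit [Fintype κ] [DecidableEq κ] in
theorem qK_addA (z x : ℤ) (j : ℕ) (i : ℤ) :
    qK (fun z y => A z y + A' z y) b z x j i = qK A b z x j i + qK A' b z x j i := by
  unfold H103.qK
  simp only [add_smul, sum_add_distrib, smul_add]

omit [Fintype κ] [DecidableEq κ] in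
theorem qK_addB (z x : ℤ) (j : ℕ) (i : ℤ) :
    qK A (fun x y => b x y + b' x y) z x j i = qK A b z x j i + qK A b' z x j i := by
  unfold H103.qK
  simp only [smul_add, sum_add_distrib]

omit [Fintype κ] [DecidableEq κ] in
theorem qK_smulA (z x : ℤ) (j : ℕ) (i : ℤ) :
    qK (fun z y => r * A z y) b z x j i = r • qK A b z x j i := by
  unfold H103.qK
  simp only [mul_smul, ← smul_sum]
  rw [smul_comm]

omit [Fintype κ] [DecidableEq κ] in
theorem qK_smulB (z x : ℤ) (j : ℕ) (i : ℤ) :
    qK A (fun x y => r • b x y) z x j i = r • qK A b z x j i := by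
  unfold H103.qK
  have e : ∀ y, A z y • (r • b x y) = r • (A z y • b x y) := fun y => smul_comm _ _ _
  simp only [e, ← smul_sum]
  rw [smul_comm]

section hdl

variable {β : Type*} [AddCommGroup β] [Module ℝ β]

theorem hd_add (f h : ℕ → ℤ → β) (k : ℕ) (m : ℤ) :
    hd (fun j i => f j i + h j i) k m = hd f k m + hd h k m := by
  unfold H483.hd
  module

theorem hd_smul (r : ℝ) (f : ℕ → ℤ → β) (k : ℕ) (m : ℤ) :
    hd (fun j i => r • f j i) k m = r • hd f k m := by
  unfold H483.hd
  module

end hdl

/-! ### The node form -/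

omit [DecidableEq κ] in
theorem nf3_addA : nf3 (fun z y => A z y + A' z y) b C k m = nf3 A b C k m + nf3 A' b C k m := by
  unfold nf3
  rw [← mul_add]
  simp only [← sum_add_distrib]
  congr 1
  refine sum_congr rfl fun z _ => sum_congr rfl fun x _ => sum_congr rfl fun y _ => ?_
  ring

omit [DecidableEq κ] in
theorem nf3_addB : nf3 A (fun x y => b x y + b' x y) C k m = nf3 A b C k m + nf3 A b' C k m := by
  unfold nf3
  rw [← mul_add]
  simp only [← sum_add_distrib]
  congr 1
  refine sum_congr rfl fun z _ => sum_congr rfl fun x _ => sum_congr rfl fun y _ => ?_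
  rw [add_dotProduct]
  ring

omit [DecidableEq κ] in
theorem nf3_addC : nf3 A b (fun z x => C z x + C' z x) k m = nf3 A b C k m + nf3 A b C' k m := by
  unfold nf3
  rw [← mul_add]
  simp only [← sum_add_distrib]
  congr 1
  refine sum_congr rfl fun z _ => sum_congr rfl fun x _ => sum_congr rfl fun y _ => ?_
  rw [dotProduct_add]
  ring

/-! ### The increasing part -/

omit [Fintype κ] [DecidableEq κ] in
theorem hd_qK_addA (z x : ℤ) (k : ℕ) (n : ℤ) : hd (qK (fun z y => A z y + A' z y) b z x) k n =
    hd (qK A b z x) k n + hd (qK A' b z x) k n := by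
  unfold H483.hd
  rw [qK_addA, qK_addA]
  module

omit [Fintype κ] [DecidableEq κ] in
theorem hd_qK_addB (z x : ℤ) (k : ℕ) (n : ℤ) : hd (qK A (fun x y => b x y + b' x y) z x) k n =
    hd (qK A b z x) k n + hd (qK A b' z x) k n := by
  unfold H483.hd
  rw [qK_addB, qK_addB]
  module

theorem ndI_addA : ndI l K (fun z y => A z y + A' z y) b C k m =
    ndI l K A b C k m + ndI l K A' b C k m := by
  unfold ndI
  simp only [← sum_add_distrib]
  refine sum_congr rfl fun z _ => sum_congr rfl fun x _ => ?_
  rw [hd_qK_addA, dotProduct_add]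
  ring

theorem ndI_addB : ndI l K A (fun x y => b x y + b' x y) C k m =
    ndI l K A b C k m + ndI l K A b' C k m := by
  unfold ndI
  simp only [← sum_add_distrib]
  refine sum_congr rfl fun z _ => sum_congr rfl fun x _ => ?_
  rw [hd_qK_addB, dotProduct_add]
  ring

theorem ndI_addC : ndI l K A b (fun z x => C z x + C' z x) k m =
    ndI l K A b C k m + ndI l K A b C' k m := by
  unfold ndI ST
  simp only [← sum_add_distrib]
  refine sum_congr rfl fun z _ => sum_congr rfl fun x _ => ?_
  rw [mulVec_add, smul_add, ← mul_add, ← add_dotProduct]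
  congr 2
  module

/-! ### The gap part -/

omit [DecidableEq κ] in
theorem ze_add (K : ℕ → ℤ → Matrix κ κ ℝ) [DecidableEq κ] (q q' : ℕ → ℤ → κ → ℝ) (k : ℕ) (n : ℤ) :
    ze K (fun j i => q j i + q' j i) k n = ze K q k n + ze K q' k n := by
  unfold H483.ze
  rw [hd_add, mulVec_add, mulVec_add]
  module

theorem sz_addA (K : ℕ → ℤ → Matrix κ κ ℝ) (z x : ℤ) (k : ℕ) (n : ℤ) :
    sz l K (qK (fun z y => A z y + A' z y) b z x) k n =
      sz l K (qK A b z x) k n + sz l K (qK A' b z x) k n := by
  have e : qK (fun z y => A z y + A' z y) b z x = fun j i => qK A b z x j i + qK A' b z x j i := by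
    funext j i
    exact qK_addA A A' b z x j i
  unfold H576.sz
  rw [e, ze_add, mulVec_add, smul_add]

theorem sz_addB (K : ℕ → ℤ → Matrix κ κ ℝ) (z x : ℤ) (k : ℕ) (n : ℤ) :
    sz l K (qK A (fun x y => b x y + b' x y) z x) k n =
      sz l K (qK A b z x) k n + sz l K (qK A b' z x) k n := by
  have e : qK A (fun x y => b x y + b' x y) z x = fun j i => qK A b z x j i + qK A b' z x j i := by
    funext j i
    exact qK_addB A b b' z x j i
  unfold H576.sz
  rw [e, ze_add, mulVec_add, smul_add]

theorem ndZ_addA : ndZ l K (fun z y => A z y + A' z y) b C k m =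
    ndZ l K A b C k m + ndZ l K A' b C k m := by
  unfold ndZ
  simp only [← sum_add_distrib]
  refine sum_congr rfl fun z _ => sum_congr rfl fun x _ => ?_
  rw [sz_addA, add_dotProduct]
  ring

theorem ndZ_addB : ndZ l K A (fun x y => b x y + b' x y) C k m =
    ndZ l K A b C k m + ndZ l K A b' C k m := by
  unfold ndZ
  simp only [← sum_add_distrib]
  refine sum_congr rfl fun z _ => sum_congr rfl fun x _ => ?_
  rw [sz_addB, add_dotProduct]
  ring

theorem ndZ_addC : ndZ l K A b (fun z x => C z x + C' z x) k m =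
    ndZ l K A b C k m + ndZ l K A b C' k m := by
  unfold ndZ
  simp only [← sum_add_distrib]
  refine sum_congr rfl fun z _ => sum_congr rfl fun x _ => ?_
  rw [dotProduct_add]
  ring

/-! ### The flow part -/

theorem ndF_addA : ndF l K (fun z y => A z y + A' z y) b C k m =
    ndF l K A b C k m + ndF l K A' b C k m := by
  unfold ndF
  simp only [← sum_add_distrib]
  refine sum_congr rfl fun z _ => sum_congr rfl fun x _ => ?_
  rw [qK_addA, dotProduct_add]
  ring

theorem ndF_addB : ndF l K A (fun x y => b x y + b' x y) C k m =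
    ndF l K A b C k m + ndF l K A b' C k m := by
  unfold ndF
  simp only [← sum_add_distrib]
  refine sum_congr rfl fun z _ => sum_congr rfl fun x _ => ?_
  rw [qK_addB, dotProduct_add]
  ring

theorem ndF_addC : ndF l K A b (fun z x => C z x + C' z x) k m =
    ndF l K A b C k m + ndF l K A b C' k m := by
  unfold ndF H483.xiT
  simp only [← sum_add_distrib]
  refine sum_congr rfl fun z _ => sum_congr rfl fun x _ => ?_
  rw [mulVec_add, mulVec_add, mulVec_add, smul_add, add_dotProduct]
  ring

end slots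

/-! ### The Abel integrand -/

section abel

variable (A A' : ℕ → ℤ → ℤ → ℝ) (b b' C C' : ℕ → ℤ → ℤ → κ → ℝ)
  (R R' : ℕ → ℤ → ℤ → Matrix κ κ ℝ) (i j : ℕ) (y : Pt)

omit [DecidableEq κ] in
theorem GA_addA : GA (fun k z y => A k z y + A' k z y) b C R i j y =
    GA A b C R i j y + GA A' b C R i j y := by
  unfold GA
  ring

omit [DecidableEq κ] in
theorem GA_addB : GA A (fun k x y => b k x y + b' k x y) C R i j y =
    GA A b C R i j y + GA A b' C R i j y := by
  unfold GA
  rw [add_dotProduct]
  ring

omit [DecidableEq κ] in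
theorem GA_addC : GA A b (fun k z x => C k z x + C' k z x) R i j y =
    GA A b C R i j y + GA A b C' R i j y := by
  unfold GA
  rw [mulVec_add, dotProduct_add]
  ring

omit [DecidableEq κ] in
theorem GA_addR : GA A b C (fun k z x => R k z x + R' k z x) i j y =
    GA A b C R i j y + GA A b C R' i j y := by
  unfold GA
  rw [add_mulVec, dotProduct_add]
  ring

omit [DecidableEq κ] in
/-- the integrand with the matrix moved to `C` -/
theorem GA_vec : GA A b C R i j y =
    A j y.2.2 y.2.1 * (b j y.1 y.2.1 ⬝ᵥ (R i y.2.2 y.1 *ᵥ C j y.2.2 y.1)) := rfl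

omit [DecidableEq κ] in
/-- the integrand with the matrix moved to `b` -/
theorem GA_vecb : GA A b C R i j y =
    A j y.2.2 y.2.1 * (((R i y.2.2 y.1)ᵀ *ᵥ b j y.1 y.2.1) ⬝ᵥ C j y.2.2 y.1) := by
  unfold GA
  rw [dotProduct_mulVec, ← mulVec_transpose]

end abel

end

end Vale.Agent.P141.H677
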