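import Vale.Agent.P141.H677.SkelTF
import Vale.Agent.P141.H401.PartF
import Vale.Agent.P141.H747.GridF

/-!
# P141, line (A): the flow part, skeleton, second part

* `Slt`, `av` : any slot at every `x0`, its mean over the cells of a shifted grid;
* `q0`, `qB`, `qN`, `qS`, `qM` : the five functionals for any slot; `.._sum` : sums of slots
  (generations); `ab_le` : the Abel sums of any slot in the five functionals;
* `FS1`, `FM1` : shift error and node forms on one plane of one grid; `qS_le`, `qM_le`;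
* `fN`, `f0`, `fB`, `fS`, `fM` : the functionals in the letters of `H401.PartF`,
  `partF_NF : PartF D fN → PartF D f0 → PartF D fB → PartF D fS → PartF D fM → PartF D NF`;
* `PartG D Φ` : the price of a functional of slots on every plane of every grid,
  `partF_fS`, `partF_fM` : from `PartG`.
-/

namespace Vale.Agent.P141.H677.Sk

open Finset Matrix
open Vale.Agent.P141.PL (Pt iv hs ix mem_iv ix_ix cb mem_cb cx)
open Vale.Agent.P141.PL.H560 (cbs bx0)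
open Vale.Agent.P141.PL.H804 (bx3 Cap)
open Vale.Agent.P141.PL.H315 (Tri)
open Vale.Agent.P141.H352 (In p)
open Vale.Agent.P141.H795 (kp TS E8)
open Vale.Agent.P141.H747 (sft shA shB shC sG)
open Vale.Agent.P141.H401 (StX PartX Bun PartF NF)
open Vale.Agent.P141.H305 (ClsM kapM)

noncomputable section

open scoped Classical

variable {ι : Type} [Fintype ι] [DecidableEq ι]

/-- a slot at every `x0`, time, `z`, `x` -/
abbrev Slt (ι : Type) : Type := ℤ → ℕ → ℤ → ℤ → Matrix ι ι ℝ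

/-- mean over the cell of `z` of scale `k` of the grid shifted by `h`, of the slot at the time `0` -/
def av (R : Slt ι) (h x0 : ℤ) (k : ℕ) (z x : ℤ) : Matrix ι ι ℝ :=
  ((2 : ℝ) ^ k)⁻¹ • ∑ w ∈ iv k (ix k (z - h)), R x0 0 (w + h) x

/-- the term of scale `0` -/
def q0 (K : ℕ) (M : Pt) (R : Slt ι) (A : FamA) (b C : FamV ι) : ℝ :=
  ∑ t ∈ rt M, ∑ x0 ∈ iv K t, |In K M (kp (-x0) 0) (GA (A x0) (b x0) (C x0) (R x0) 0 0)|

/-- the births -/
def qB (K : ℕ) (M : Pt) (R : Slt ι) (A : FamA) (b C : FamV ι) : ℝ :=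
  ∑ t ∈ rt M, ∑ x0 ∈ iv K t, ∑ k ∈ range K, |In K M (kp (-x0) k) (fun y =>
    GA (A x0) (b x0) (C x0) (R x0) k k y - GA (A x0) (b x0) (C x0) (R x0) k (k + 1) y)|

/-- the near term -/
def qN (o : ℤ) (K : ℕ) (M : Pt) (R : Slt ι) (A : FamA) (b C : FamV ι) : ℝ :=
  ∑ t ∈ rt M, ∑ x0 ∈ iv K t, ∑ k ∈ range K,
    |In K M (fun y => p (k + 1) (cP o x0 (k + 1)) y - kp (-x0) (k + 1) y) (fun y =>
      GA (A x0) (b x0) (C x0) (R x0) k (k + 1) y -
        GA (A x0) (b x0) (C x0) (R x0) (k + 1) (k + 1) y)|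

/-- the shift error -/
def qS (K : ℕ) (M : Pt) (R : Slt ι) (A : FamA) (b C : FamV ι) : ℝ :=
  ((8 : ℝ) ^ K)⁻¹ * ∑ s ∈ cb K 0, ∑ t ∈ rt M, ∑ x0 ∈ iv K t, ∑ k ∈ range K,
    TS K M (-x0) (k + 1) s (fun y => GA (A x0) (b x0) (C x0) (R x0) k (k + 1) y -
      GA (A x0) (b x0) (C x0) (av R s.2.2 x0) (k + 1) (k + 1) y)

/-- the node forms with the averaged slot on the shifted grids -/
def qM (K : ℕ) (M : Pt) (R : Slt ι) (A : FamA) (b C : FamV ι) : ℝ :=
  ((8 : ℝ) ^ K)⁻¹ * ∑ s ∈ cb K 0, ∑ t ∈ rt M, ∑ x0 ∈ iv K t, ∑ k ∈ range K,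
    TS K M (-x0) (k + 1) s (GA (A x0) (b x0) (C x0) (av R s.2.2 x0) (k + 1) (k + 1))

/-! ### Sums of slots -/

section lin

variable {G : Type*} (gs : Finset G)

omit [DecidableEq ι] in
theorem GA_sumR (A : ℕ → ℤ → ℤ → ℝ) (b C : ℕ → ℤ → ℤ → ι → ℝ)
    (R : G → ℕ → ℤ → ℤ → Matrix ι ι ℝ) (i j : ℕ) (y : Pt) :
    GA A b C (fun i z w => ∑ g ∈ gs, R g i z w) i j y = ∑ g ∈ gs, GA A b C (R g) i j y := by
  unfold GA
  rw [← mul_sum, sum_mulVec, dotProduct_sum]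

omit [Fintype ι] [DecidableEq ι] in
theorem av_sum (R : G → Slt ι) (h x0 : ℤ) (k : ℕ) (z x : ℤ) :
    av (fun x0 j z x => ∑ g ∈ gs, R g x0 j z x) h x0 k z x = ∑ g ∈ gs, av (R g) h x0 k z x := by
  unfold av
  rw [← smul_sum]
  congr 1
  exact sum_comm

theorem In_sum (N : ℕ) (M : Pt) (κ : Pt → ℝ) (F : G → Pt → ℝ) :
    In N M κ (fun y => ∑ g ∈ gs, F g y) = ∑ g ∈ gs, In N M κ (F g) := by
  unfold H352.In
  simp only [mul_sum]
  rw [sum_comm]

theorem TS_sum_le (N : ℕ) (M : Pt) (c : ℤ) (k : ℕ) (s : Pt) (F : G → Pt → ℝ) :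
    TS N M c k s (fun y => ∑ g ∈ gs, F g y) ≤ ∑ g ∈ gs, TS N M c k s (F g) := by
  unfold H795.TS
  rw [sum_comm (s := gs)]
  refine sum_le_sum fun j _ => ?_
  rw [sum_comm (s := gs)]
  refine sum_le_sum fun e _ => ?_
  rw [sum_comm (s := gs)]
  refine sum_le_sum fun m _ => ?_
  have h : H795.nd k m (H795.tr N M s fun y => ∑ g ∈ gs, F g y) =
      ∑ g ∈ gs, H795.nd k m (H795.tr N M s (F g)) := by
    unfold H795.nd
    rw [← mul_sum, sum_comm]
    congr 1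
    refine sum_congr rfl fun x _ => ?_
    unfold H795.tr
    split_ifs
    · rw [mul_sum]
    · simp
  rw [h]
  exact abs_sum_le_sum_abs _ _

omit [DecidableEq ι] in
theorem q0_sum (K : ℕ) (M : Pt) (R : G → Slt ι) (A : FamA) (b C : FamV ι) :
    q0 K M (fun x0 j z x => ∑ g ∈ gs, R g x0 j z x) A b C ≤ ∑ g ∈ gs, q0 K M (R g) A b C := by
  unfold q0
  rw [sum_comm (s := gs)]
  refine sum_le_sum fun t _ => ?_
  rw [sum_comm (s := gs)]
  refine sum_le_sum fun x0 _ => ?_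
  have e : GA (A x0) (b x0) (C x0) (fun j z x => ∑ g ∈ gs, R g x0 j z x) 0 0 =
      fun y => ∑ g ∈ gs, GA (A x0) (b x0) (C x0) (R g x0) 0 0 y := by
    funext y
    exact GA_sumR gs (A x0) (b x0) (C x0) (fun g => R g x0) 0 0 y
  rw [e, In_sum]
  exact abs_sum_le_sum_abs _ _

omit [DecidableEq ι] in
theorem qB_sum (K : ℕ) (M : Pt) (R : G → Slt ι) (A : FamA) (b C : FamV ι) :
    qB K M (fun x0 j z x => ∑ g ∈ gs, R g x0 j z x) A b C ≤ ∑ g ∈ gs, qB K M (R g) A b C := by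
  unfold qB
  rw [sum_comm (s := gs)]
  refine sum_le_sum fun t _ => ?_
  rw [sum_comm (s := gs)]
  refine sum_le_sum fun x0 _ => ?_
  rw [sum_comm (s := gs)]
  refine sum_le_sum fun k _ => ?_
  have e : (fun y => GA (A x0) (b x0) (C x0) (fun j z x => ∑ g ∈ gs, R g x0 j z x) k k y -
      GA (A x0) (b x0) (C x0) (fun j z x => ∑ g ∈ gs, R g x0 j z x) k (k + 1) y) =
      fun y => ∑ g ∈ gs, (GA (A x0) (b x0) (C x0) (R g x0) k k y -
        GA (A x0) (b x0) (C x0) (R g x0) k (k + 1) y) := by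
    funext y
    rw [sum_sub_distrib]
    congr 1
    · exact GA_sumR gs (A x0) (b x0) (C x0) (fun g => R g x0) k k y
    · exact GA_sumR gs (A x0) (b x0) (C x0) (fun g => R g x0) k (k + 1) y
  rw [e, In_sum]
  exact abs_sum_le_sum_abs _ _

omit [DecidableEq ι] in
theorem qN_sum (o : ℤ) (K : ℕ) (M : Pt) (R : G → Slt ι) (A : FamA) (b C : FamV ι) :
    qN o K M (fun x0 j z x => ∑ g ∈ gs, R g x0 j z x) A b C ≤
      ∑ g ∈ gs, qN o K M (R g) A b C := by
  unfold qN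
  rw [sum_comm (s := gs)]
  refine sum_le_sum fun t _ => ?_
  rw [sum_comm (s := gs)]
  refine sum_le_sum fun x0 _ => ?_
  rw [sum_comm (s := gs)]
  refine sum_le_sum fun k _ => ?_
  have e : (fun y => GA (A x0) (b x0) (C x0) (fun j z x => ∑ g ∈ gs, R g x0 j z x) k (k + 1) y -
      GA (A x0) (b x0) (C x0) (fun j z x => ∑ g ∈ gs, R g x0 j z x) (k + 1) (k + 1) y) =
      fun y => ∑ g ∈ gs, (GA (A x0) (b x0) (C x0) (R g x0) k (k + 1) y -
        GA (A x0) (b x0) (C x0) (R g x0) (k + 1) (k + 1) y) := by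
    funext y
    rw [sum_sub_distrib]
    congr 1
    · exact GA_sumR gs (A x0) (b x0) (C x0) (fun g => R g x0) k (k + 1) y
    · exact GA_sumR gs (A x0) (b x0) (C x0) (fun g => R g x0) (k + 1) (k + 1) y
  rw [e, In_sum]
  exact abs_sum_le_sum_abs _ _

omit [Fintype ι] [DecidableEq ι] in
theorem av_sum' (R : G → Slt ι) (h x0 : ℤ) :
    av (fun x0 j z x => ∑ g ∈ gs, R g x0 j z x) h x0 =
      fun k z x => ∑ g ∈ gs, av (R g) h x0 k z x := by
  funext k z x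
  exact av_sum gs R h x0 k z x

omit [DecidableEq ι] in
theorem qS_sum (K : ℕ) (M : Pt) (R : G → Slt ι) (A : FamA) (b C : FamV ι) :
    qS K M (fun x0 j z x => ∑ g ∈ gs, R g x0 j z x) A b C ≤ ∑ g ∈ gs, qS K M (R g) A b C := by
  unfold qS
  rw [← mul_sum]
  refine mul_le_mul_of_nonneg_left ?_ (by positivity)
  rw [sum_comm (s := gs)]
  refine sum_le_sum fun s _ => ?_
  rw [sum_comm (s := gs)]
  refine sum_le_sum fun t _ => ?_
  rw [sum_comm (s := gs)]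
  refine sum_le_sum fun x0 _ => ?_
  rw [sum_comm (s := gs)]
  refine sum_le_sum fun k _ => ?_
  have e : (fun y => GA (A x0) (b x0) (C x0) (fun j z x => ∑ g ∈ gs, R g x0 j z x) k (k + 1) y -
      GA (A x0) (b x0) (C x0) (av (fun x0 j z x => ∑ g ∈ gs, R g x0 j z x) s.2.2 x0)
        (k + 1) (k + 1) y) =
      fun y => ∑ g ∈ gs, (GA (A x0) (b x0) (C x0) (R g x0) k (k + 1) y -
        GA (A x0) (b x0) (C x0) (av (R g) s.2.2 x0) (k + 1) (k + 1) y) := by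
    funext y
    rw [sum_sub_distrib, av_sum']
    congr 1
    · exact GA_sumR gs (A x0) (b x0) (C x0) (fun g => R g x0) k (k + 1) y
    · exact GA_sumR gs (A x0) (b x0) (C x0) (fun g => av (R g) s.2.2 x0) (k + 1) (k + 1) y
  rw [e]
  exact TS_sum_le ..

omit [DecidableEq ι] in
theorem qM_sum (K : ℕ) (M : Pt) (R : G → Slt ι) (A : FamA) (b C : FamV ι) :
    qM K M (fun x0 j z x => ∑ g ∈ gs, R g x0 j z x) A b C ≤ ∑ g ∈ gs, qM K M (R g) A b C := by
  unfold qM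
  rw [← mul_sum]
  refine mul_le_mul_of_nonneg_left ?_ (by positivity)
  rw [sum_comm (s := gs)]
  refine sum_le_sum fun s _ => ?_
  rw [sum_comm (s := gs)]
  refine sum_le_sum fun t _ => ?_
  rw [sum_comm (s := gs)]
  refine sum_le_sum fun x0 _ => ?_
  rw [sum_comm (s := gs)]
  refine sum_le_sum fun k _ => ?_
  have e : GA (A x0) (b x0) (C x0) (av (fun x0 j z x => ∑ g ∈ gs, R g x0 j z x) s.2.2 x0)
        (k + 1) (k + 1) =
      fun y => ∑ g ∈ gs, GA (A x0) (b x0) (C x0) (av (R g) s.2.2 x0) (k + 1) (k + 1) y := by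
    funext y
    rw [av_sum']
    exact GA_sumR gs (A x0) (b x0) (C x0) (fun g => av (R g) s.2.2 x0) (k + 1) (k + 1) y
  rw [e]
  exact TS_sum_le ..

end lin

/-! ### The decomposition, any slot -/

/-- **The Abel sums of any slot which vanishes at the top.** -/
theorem ab_le (o : ℤ) (K : ℕ) (M : Pt) (R : Slt ι) (A : FamA) (b C : FamV ι)
    (h0 : ∀ x0 z x, R x0 K z x = 0) :
    ∑ t ∈ rt M, ∑ x0 ∈ iv K t, |∑ j ∈ range K, In K M (p (j + 1) (cP o x0 (j + 1))) (fun y =>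
      GA (A x0) (b x0) (C x0) (R x0) j (j + 1) y -
        GA (A x0) (b x0) (C x0) (R x0) (j + 1) (j + 1) y)| ≤
      qN o K M R A b C + (q0 K M R A b C + (qB K M R A b C + 8 / 3 * (qS K M R A b C +
        qM K M R A b C))) := by
  have one : ∀ x0 : ℤ, |∑ j ∈ range K, In K M (p (j + 1) (cP o x0 (j + 1))) (fun y =>
      GA (A x0) (b x0) (C x0) (R x0) j (j + 1) y -
        GA (A x0) (b x0) (C x0) (R x0) (j + 1) (j + 1) y)| ≤
      ∑ k ∈ range K, |In K M (fun y => p (k + 1) (cP o x0 (k + 1)) y - kp (-x0) (k + 1) y)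
        (fun y => GA (A x0) (b x0) (C x0) (R x0) k (k + 1) y -
          GA (A x0) (b x0) (C x0) (R x0) (k + 1) (k + 1) y)| +
      (|In K M (kp (-x0) 0) (GA (A x0) (b x0) (C x0) (R x0) 0 0)| +
      (∑ k ∈ range K, |In K M (kp (-x0) k) (fun y => GA (A x0) (b x0) (C x0) (R x0) k k y -
        GA (A x0) (b x0) (C x0) (R x0) k (k + 1) y)| +
      8 / 3 * (((8 : ℝ) ^ K)⁻¹ * ∑ s ∈ cb K 0, ∑ k ∈ range K,
        (TS K M (-x0) (k + 1) s (fun y => GA (A x0) (b x0) (C x0) (R x0) k (k + 1) y -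
          GA (A x0) (b x0) (C x0) (av R s.2.2 x0) (k + 1) (k + 1) y) +
          TS K M (-x0) (k + 1) s
            (GA (A x0) (b x0) (C x0) (av R s.2.2 x0) (k + 1) (k + 1)))))) := by
    intro x0
    have h1 : ∑ j ∈ range K, In K M (p (j + 1) (cP o x0 (j + 1))) (fun y =>
        GA (A x0) (b x0) (C x0) (R x0) j (j + 1) y -
          GA (A x0) (b x0) (C x0) (R x0) (j + 1) (j + 1) y) =
        ∑ k ∈ range K, In K M (fun y => p (k + 1) (cP o x0 (k + 1)) y - kp (-x0) (k + 1) y)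
          (fun y => GA (A x0) (b x0) (C x0) (R x0) k (k + 1) y -
            GA (A x0) (b x0) (C x0) (R x0) (k + 1) (k + 1) y) +
        ∑ k ∈ range K, In K M (kp (-x0) (k + 1))
          (fun y => GA (A x0) (b x0) (C x0) (R x0) k (k + 1) y -
            GA (A x0) (b x0) (C x0) (R x0) (k + 1) (k + 1) y) := by
      rw [← sum_add_distrib]
      exact sum_congr rfl fun k _ => In_add K M _ _ _
    rw [h1]
    refine (abs_add_le _ _).trans (add_le_add (abs_sum_le_sum_abs _ _) ?_)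
    have h2 := H795.abel_grid K M (-x0) (GA (A x0) (b x0) (C x0) (R x0)) K le_rfl
    have e0 : GA (A x0) (b x0) (C x0) (R x0) K K = fun _ => 0 := by
      funext y
      unfold GA
      rw [h0, zero_mulVec, dotProduct_zero, mul_zero]
    have h3 : |In K M (kp (-x0) K) (GA (A x0) (b x0) (C x0) (R x0) K K)| = 0 := by
      rw [e0]
      unfold H352.In
      simp
    rw [h3, add_zero] at h2
    refine h2.trans ?_
    have h4 : ((8 : ℝ) ^ K)⁻¹ * ∑ s ∈ cb K 0, ∑ k ∈ range K,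
        TS K M (-x0) (k + 1) s (GA (A x0) (b x0) (C x0) (R x0) k (k + 1)) ≤
        ((8 : ℝ) ^ K)⁻¹ * ∑ s ∈ cb K 0, ∑ k ∈ range K,
        (TS K M (-x0) (k + 1) s (fun y => GA (A x0) (b x0) (C x0) (R x0) k (k + 1) y -
          GA (A x0) (b x0) (C x0) (av R s.2.2 x0) (k + 1) (k + 1) y) +
          TS K M (-x0) (k + 1) s
            (GA (A x0) (b x0) (C x0) (av R s.2.2 x0) (k + 1) (k + 1))) := by
      refine mul_le_mul_of_nonneg_left ?_ (by positivity)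
      exact sum_le_sum fun s _ => sum_le_sum fun k _ => TS_add_le ..
    have h5 := mul_le_mul_of_nonneg_left h4 (by norm_num : (0 : ℝ) ≤ 8 / 3)
    linarith
  have h2 := sum_le_sum fun t (_ : t ∈ rt M) => sum_le_sum fun x0 (_ : x0 ∈ iv K t) => one x0
  refine h2.trans (le_of_eq ?_)
  have e4 : ∀ a b c d : ℤ → ℝ, ∑ t ∈ rt M, ∑ x0 ∈ iv K t, (a x0 + (b x0 + (c x0 + d x0))) =
      ∑ t ∈ rt M, ∑ x0 ∈ iv K t, a x0 + (∑ t ∈ rt M, ∑ x0 ∈ iv K t, b x0 +
        (∑ t ∈ rt M, ∑ x0 ∈ iv K t, c x0 + ∑ t ∈ rt M, ∑ x0 ∈ iv K t, d x0)) := by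
    intro a b c d
    simp only [sum_add_distrib]
  have e8 : ∀ (f : ℤ → Pt → ℝ), ∑ t ∈ rt M, ∑ x0 ∈ iv K t, 8 / 3 * (((8 : ℝ) ^ K)⁻¹ *
      ∑ s ∈ cb K 0, f x0 s) = 8 / 3 * (((8 : ℝ) ^ K)⁻¹ * ∑ s ∈ cb K 0, ∑ t ∈ rt M,
        ∑ x0 ∈ iv K t, f x0 s) := by
    intro f
    simp only [← mul_sum]
    congr 2
    rw [sum_comm (s := cb K 0)]
    refine sum_congr rfl fun t _ => ?_
    rw [sum_comm]
  rw [e4, e8]
  unfold qN q0 qB qS qM
  congr 3
  rw [← mul_add, ← sum_add_distrib]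
  congr 2
  refine sum_congr rfl fun s _ => ?_
  simp only [sum_add_distrib]

/-! ### One plane of one grid -/

/-- **The node forms of a family on one plane of one grid**, slot `Q x0 k z x` on `C`. -/
def FF (K : ℕ) (M : Pt) (Q : Slt ι) (A : FamA) (b C : FamV ι) (s : Pt) (j : ℤ) (e : Pt) : ℝ :=
  ∑ t ∈ rt M, ∑ x0 ∈ iv K t, ∑ k ∈ Icc 1 K, ∑ m ∈ sG K M (-x0) s j e k,
    |nf3 (shA K M s (A x0) k) (shB K M s (b x0) k)
      (shC K M s (fun k z x => Q x0 k z x *ᵥ C x0 k z x) k) k m|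

/-- node forms with the averaged slot -/
def FM1 (K : ℕ) (M : Pt) (R : Slt ι) (A : FamA) (b C : FamV ι) (s : Pt) (j : ℤ) (e : Pt) : ℝ :=
  FF K M (av R s.2.2) A b C s j e

/-- node forms of the shift error -/
def FS1 (K : ℕ) (M : Pt) (R : Slt ι) (A : FamA) (b C : FamV ι) (s : Pt) (j : ℤ) (e : Pt) : ℝ :=
  FF K M (fun x0 k z x => R x0 (k - 1) z x - av R s.2.2 x0 k z x) A b C s j e

omit [DecidableEq ι] in
theorem FF_sum {G : Type*} (gs : Finset G) (K : ℕ) (M : Pt) (Q : G → Slt ι) (A : FamA)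
    (b C : FamV ι) (s : Pt) (j : ℤ) (e : Pt) :
    FF K M (fun x0 k z x => ∑ g ∈ gs, Q g x0 k z x) A b C s j e ≤
      ∑ g ∈ gs, FF K M (Q g) A b C s j e := by
  unfold FF
  rw [sum_comm (s := gs)]
  refine sum_le_sum fun t _ => ?_
  rw [sum_comm (s := gs)]
  refine sum_le_sum fun x0 _ => ?_
  rw [sum_comm (s := gs)]
  refine sum_le_sum fun k _ => ?_
  rw [sum_comm (s := gs)]
  refine sum_le_sum fun m _ => ?_
  have h : nf3 (shA K M s (A x0) k) (shB K M s (b x0) k)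
      (shC K M s (fun k z x => (∑ g ∈ gs, Q g x0 k z x) *ᵥ C x0 k z x) k) k m =
      ∑ g ∈ gs, nf3 (shA K M s (A x0) k) (shB K M s (b x0) k)
        (shC K M s (fun k z x => Q g x0 k z x *ᵥ C x0 k z x) k) k m := by
    unfold nf3 shC sft
    rw [← mul_sum]
    congr 1
    rw [sum_comm (s := gs)]
    refine sum_congr rfl fun z _ => ?_
    rw [sum_comm (s := gs)]
    refine sum_congr rfl fun x _ => ?_
    rw [sum_comm (s := gs)]
    refine sum_congr rfl fun y _ => ?_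
    split_ifs
    · beta_reduce
      rw [sum_mulVec, dotProduct_sum, mul_sum, mul_sum]
    · simp
  rw [h]
  exact abs_sum_le_sum_abs _ _

theorem sum_Icc_one (N : ℕ) (f : ℕ → ℝ) : ∑ k ∈ Icc 1 N, f k = ∑ j ∈ range N, f (j + 1) := by
  rw [range_eq_Ico, sum_Ico_add' f 0 N 1]
  rfl

omit [DecidableEq ι] in
/-- **One grid.** -/
theorem sum_TS_FF (K : ℕ) (M s : Pt) (Q : Slt ι) (A : FamA) (b C : FamV ι) (x0 : ℤ) (k : ℕ) :
    TS K M (-x0) k s (GA (A x0) (b x0) (C x0) (Q x0) k k) =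
      ∑ j ∈ Icc (0 : ℤ) 2, ∑ e ∈ E8, ∑ m ∈ sG K M (-x0) s j e k,
        |nf3 (shA K M s (A x0) k) (shB K M s (b x0) k)
          (shC K M s (fun k z x => Q x0 k z x *ᵥ C x0 k z x) k) k m| :=
  H747.TS_forms K M (-x0) k s (A x0 k) (b x0 k) fun z w => Q x0 k z w *ᵥ C x0 k z w

omit [DecidableEq ι] in
theorem sum_FF (K : ℕ) (M s : Pt) (Q : Slt ι) (A : FamA) (b C : FamV ι) :
    ∑ t ∈ rt M, ∑ x0 ∈ iv K t, ∑ k ∈ range K,
      TS K M (-x0) (k + 1) s (GA (A x0) (b x0) (C x0) (Q x0) (k + 1) (k + 1)) =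
      ∑ j ∈ Icc (0 : ℤ) 2, ∑ e ∈ E8, FF K M Q A b C s j e := by
  have h1 : ∀ x0 : ℤ, ∑ k ∈ range K,
      TS K M (-x0) (k + 1) s (GA (A x0) (b x0) (C x0) (Q x0) (k + 1) (k + 1)) =
      ∑ j ∈ Icc (0 : ℤ) 2, ∑ e ∈ E8, ∑ k ∈ Icc 1 K, ∑ m ∈ sG K M (-x0) s j e k,
        |nf3 (shA K M s (A x0) k) (shB K M s (b x0) k)
          (shC K M s (fun k z x => Q x0 k z x *ᵥ C x0 k z x) k) k m| := by
    intro x0
    simp only [sum_TS_FF]
    rw [sum_comm]
    refine sum_congr rfl fun j _ => ?_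
    rw [sum_comm]
    refine sum_congr rfl fun e _ => ?_
    rw [sum_Icc_one]
  simp only [h1]
  unfold FF
  have c3 : ∀ (J : Finset ℤ) (f : ℤ → ℤ → Pt → ℝ),
      ∑ t ∈ rt M, ∑ x0 ∈ iv K t, ∑ j ∈ J, ∑ e ∈ E8, f x0 j e =
      ∑ j ∈ J, ∑ e ∈ E8, ∑ t ∈ rt M, ∑ x0 ∈ iv K t, f x0 j e := by
    intro J f
    have a1 : ∀ t, ∑ x0 ∈ iv K t, ∑ j ∈ J, ∑ e ∈ E8, f x0 j e =
        ∑ j ∈ J, ∑ e ∈ E8, ∑ x0 ∈ iv K t, f x0 j e := by
      intro t
      rw [sum_comm]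
      exact sum_congr rfl fun j _ => sum_comm
    simp only [a1]
    rw [sum_comm]
    exact sum_congr rfl fun j _ => sum_comm
  exact c3 _ _

theorem card_E8 : E8.card = 8 := by
  unfold H795.E8
  rw [card_product, card_product]
  simp

/-- a mean over the grids of a sum over the planes -/
theorem mean_le (K : ℕ) (f : Pt → ℝ) (g : Pt → ℤ → Pt → ℝ) {B : ℝ}
    (hf : ∀ s ∈ cb K 0, f s = ∑ j ∈ Icc (0 : ℤ) 2, ∑ e ∈ E8, g s j e)
    (hg : ∀ s ∈ cb K 0, ∀ j ∈ Icc (0 : ℤ) 2, ∀ e ∈ E8, g s j e ≤ B) :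
    ((8 : ℝ) ^ K)⁻¹ * ∑ s ∈ cb K 0, f s ≤ 24 * B := by
  have h1 : ∀ s ∈ cb K 0, f s ≤ 24 * B := by
    intro s hs
    rw [hf s hs]
    have h2 : ∑ j ∈ Icc (0 : ℤ) 2, ∑ e ∈ E8, g s j e ≤ ∑ _j ∈ Icc (0 : ℤ) 2, ∑ _e ∈ E8, B :=
      sum_le_sum fun j hj => sum_le_sum fun e he => hg s hs j hj e he
    refine h2.trans (le_of_eq ?_)
    rw [sum_const, sum_const, card_E8]
    have : (Icc (0 : ℤ) 2).card = 3 := by simp
    rw [this]
    simp only [nsmul_eq_mul]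
    push_cast
    ring
  have h2 := sum_le_sum h1
  rw [sum_const, PL.card_cb, nsmul_eq_mul] at h2
  have h3 := mul_le_mul_of_nonneg_left h2 (by positivity : (0 : ℝ) ≤ ((8 : ℝ) ^ K)⁻¹)
  refine h3.trans (le_of_eq ?_)
  push_cast
  field_simp

omit [DecidableEq ι] in
/-- **The node forms from one plane of one grid.** -/
theorem qM_le (K : ℕ) (M : Pt) (R : Slt ι) (A : FamA) (b C : FamV ι) {B : ℝ}
    (h : ∀ s ∈ cb K 0, ∀ j ∈ Icc (0 : ℤ) 2, ∀ e ∈ E8, FM1 K M R A b C s j e ≤ B) :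
    qM K M R A b C ≤ 24 * B :=
  mean_le K _ (fun s j e => FM1 K M R A b C s j e)
    (fun s _ => sum_FF K M s (av R s.2.2) A b C) h

omit [DecidableEq ι] in
/-- **The shift error from one plane of one grid.** -/
theorem qS_le (K : ℕ) (M : Pt) (R : Slt ι) (A : FamA) (b C : FamV ι) {B : ℝ}
    (h : ∀ s ∈ cb K 0, ∀ j ∈ Icc (0 : ℤ) 2, ∀ e ∈ E8, FS1 K M R A b C s j e ≤ B) :
    qS K M R A b C ≤ 24 * B := by
  refine mean_le K _ (fun s j e => FS1 K M R A b C s j e) (fun s _ => ?_) h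
  have h1 := sum_FF K M s (fun x0 k z x => R x0 (k - 1) z x - av R s.2.2 x0 k z x) A b C
  refine Eq.trans ?_ h1
  refine sum_congr rfl fun t _ => sum_congr rfl fun x0 _ => sum_congr rfl fun k _ => ?_
  congr 1
  funext y
  unfold GA
  rw [← mul_sub, ← dotProduct_sub, ← sub_mulVec]
  rfl

/-! ### The letters of `H401.PartF` -/

/-- the near term -/
def fN : H401.FunF := fun _ι _ _ l o Al K x u A b C sg =>
  qN o K (cx K x) (sl Al o K (cx K x) sg l u) A b C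

/-- the term of scale `0` -/
def f0 : H401.FunF := fun _ι _ _ l o Al K x u A b C sg =>
  q0 K (cx K x) (sl Al o K (cx K x) sg l u) A b C

/-- the births -/
def fB : H401.FunF := fun _ι _ _ l o Al K x u A b C sg =>
  qB K (cx K x) (sl Al o K (cx K x) sg l u) A b C

/-- the shift error -/
def fS : H401.FunF := fun _ι _ _ l o Al K x u A b C sg =>
  qS K (cx K x) (sl Al o K (cx K x) sg l u) A b C

/-- the node forms -/
def fM : H401.FunF := fun _ι _ _ l o Al K x u A b C sg =>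
  qM K (cx K x) (sl Al o K (cx K x) sg l u) A b C

theorem NF_le (l : ℝ) (o : ℤ) (Al : ℕ → Pt → Prop) (K : ℕ) (x : Pt) (u : ℤ → ℤ → ι → ℝ)
    (A : FamA) (b C : FamV ι) (sg : ℕ → Pt → ℝ) :
    NF ι l o Al K x u A b C sg ≤ fN ι l o Al K x u A b C sg + (f0 ι l o Al K x u A b C sg +
      (fB ι l o Al K x u A b C sg + 8 / 3 * (fS ι l o Al K x u A b C sg +
        fM ι l o Al K x u A b C sg))) := by
  have h1 : NF ι l o Al K x u A b C sg ≤ ∑ t ∈ rt (cx K x), ∑ x0 ∈ iv K t,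
      |∑ j ∈ range K, In K (cx K x) (p (j + 1) (cP o x0 (j + 1))) (fun y =>
        GA (A x0) (b x0) (C x0) (sl Al o K (cx K x) sg l u x0) j (j + 1) y -
          GA (A x0) (b x0) (C x0) (sl Al o K (cx K x) sg l u x0) (j + 1) (j + 1) y)| := by
    unfold H401.NF
    have e : ∀ x0 : ℤ, RA K l (KT l u) (cP o x0)
        (thA (cP o x0) (sN Al o K (cx K x) x0) fun k m => sg k (rv m) * hs k x0) =
        sl Al o K (cx K x) sg l u x0 := by
      intro x0
      funext j z x'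
      exact sl_RA Al o K (cx K x) sg l u x0 j z x'
    simp only [e]
    refine (abs_sum_le_sum_abs _ _).trans (sum_le_sum fun t _ => ?_)
    exact abs_sum_le_sum_abs _ _
  refine h1.trans (ab_le o K (cx K x) _ A b C ?_)
  intro x0 z x'
  exact RT_top ..

/-- a price times a constant -/
theorem PartX.scale {Φ1 Φ : StX} {c : ℝ} (hc : 0 ≤ c) (H : PartX Φ1)
    (h : ∀ (ι : Type) [Fintype ι] [DecidableEq ι] (p : H401.Num) (n : ℕ) (ez : ℝ)
      (F1 F2 F3 : ℕ → Pt → ℝ) (o : ℤ) (K : ℕ) (x : Pt) (s r : ℝ) (U : Tri) (g : ℤ → ℤ → ℝ)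
      (u v : ℤ → ℤ → ι → ℝ) (B : ℝ), Φ1 ι p n ez F1 F2 F3 o K x s r U g u v B →
      Φ ι p n ez F1 F2 F3 o K x s r U g u v (c * B)) : PartX Φ := by
  intro a ha ha1
  obtain ⟨es, hes, H⟩ := H a ha ha1
  refine ⟨es, hes, fun e0 he0 he0' => ?_⟩
  obtain ⟨k8, hk8, H⟩ := H e0 he0 he0'
  refine ⟨k8, hk8, fun k8' hk8' hk8'' => ?_⟩
  obtain ⟨k3, hk3, H⟩ := H k8' hk8' hk8''
  refine ⟨k3, hk3, fun k3' hk3' hk3'' => ?_⟩
  obtain ⟨g1, c1, d1, l1, hg1, hc1, hd1, hl1, H⟩ := H k3' hk3' hk3''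
  refine ⟨g1, c1, d1, l1, hg1, hc1, hd1, hl1,
    fun c' hc' hcc d hd hdd Kt e cP L hK he hcP hL CD hCD => ?_⟩
  obtain ⟨C, hC, H⟩ := H c' hc' hcc d hd hdd Kt e cP L hK he hcP hL CD hCD
  refine ⟨c * C, by positivity, ?_⟩
  intro t ht ht1 n ez F1 F2 F3 h1 h3 h2 o ho K hKn x ι _ _ s r U g u v hs hr hcls
  have k1 := h ι _ n ez F1 F2 F3 o K x s r U g u v _
    (H t ht ht1 n ez F1 F2 F3 h1 h3 h2 o ho K hKn x ι s r U g u v hs hr hcls)
  have e1 : c * C * (t ^ (1 + g1) * s ^ (5 / 4 : ℝ) * √ez * 8 ^ K) * r ^ (-l1) =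
      c * (C * (t ^ (1 + g1) * s ^ (5 / 4 : ℝ) * √ez * 8 ^ K) * r ^ (-l1)) := by ring
  rw [e1]
  exact k1

/-- a functional below a multiple of another one -/
theorem PartF.scale {D : Bun} {T1 T : H401.FunF} {c : ℝ} (hc : 0 ≤ c) (H : PartF D T1)
    (h : ∀ (ι : Type) [Fintype ι] [DecidableEq ι] (l : ℝ) (o : ℤ) (Al : ℕ → Pt → Prop) (K : ℕ)
      (x : Pt) (u : ℤ → ℤ → ι → ℝ) (A : FamA) (b C : FamV ι) (sg : ℕ → Pt → ℝ),
      T ι l o Al K x u A b C sg ≤ c * T1 ι l o Al K x u A b C sg) : PartF D T := by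
  refine PartX.scale hc H ?_
  intro ι _ _ p n ez F1 F2 F3 o K x s r U g u v B h1 A b C hD sg hsg
  exact (h ι _ o _ K x u A b C sg).trans (mul_le_mul_of_nonneg_left (h1 A b C hD sg hsg) hc)

/-- **The flow part from its five parts.** -/
theorem partF_NF {D : Bun} (HN : PartF D fN) (H0 : PartF D f0) (HB : PartF D fB)
    (HS : PartF D fS) (HM : PartF D fM) : PartF D NF := by
  have h1 : PartF D (fun ι _ _ l o Al K x u A b C sg =>
      fS ι l o Al K x u A b C sg + fM ι l o Al K x u A b C sg) :=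
    HS.add HM fun ι _ _ l o Al K x u A b C sg => le_rfl
  have h2 : PartF D (fun ι _ _ l o Al K x u A b C sg =>
      8 / 3 * (fS ι l o Al K x u A b C sg + fM ι l o Al K x u A b C sg)) :=
    PartF.scale (by norm_num : (0 : ℝ) ≤ 8 / 3) h1 fun ι _ _ l o Al K x u A b C sg => le_rfl
  have h3 : PartF D (fun ι _ _ l o Al K x u A b C sg => fB ι l o Al K x u A b C sg +
      8 / 3 * (fS ι l o Al K x u A b C sg + fM ι l o Al K x u A b C sg)) :=
    HB.add h2 fun ι _ _ l o Al K x u A b C sg => le_rfl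
  have h4 : PartF D (fun ι _ _ l o Al K x u A b C sg => f0 ι l o Al K x u A b C sg +
      (fB ι l o Al K x u A b C sg +
        8 / 3 * (fS ι l o Al K x u A b C sg + fM ι l o Al K x u A b C sg))) :=
    H0.add h3 fun ι _ _ l o Al K x u A b C sg => le_rfl
  exact HN.add h4 fun ι _ _ l o Al K x u A b C sg => NF_le l o Al K x u A b C sg

/-- functionals of slots on a plane of a grid -/
abbrev FunG : Type 1 :=
  ∀ (ι : Type) [Fintype ι] [DecidableEq ι], ℕ → Pt → Slt ι → FamA → FamV ι → FamV ι → Pt → ℤ →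
    Pt → ℝ

/-- **The price on every plane of every grid.** -/
def PartG (D : Bun) (T : FunG) : Prop :=
  PartX fun ι _ _ p n ez F1 F2 F3 o K x s r U g u v B =>
    ∀ (A : FamA) (b C : FamV ι), D ι p n ez F1 F2 F3 o K x s r U g u v A b C →
      ∀ sg : ℕ → Pt → ℝ, (∀ k m, |sg k m| ≤ 1) → ∀ h ∈ cb K 0, ∀ j ∈ Icc (0 : ℤ) 2, ∀ e ∈ E8,
        T ι K (cx K x) (sl (p.al U K) o K (cx K x) sg (p.lam s r) u) A b C h j e ≤ B

theorem partF_fM {D : Bun} (H : PartG D fun _ι _ _ K M R A b C h j e => FM1 K M R A b C h j e) :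
    PartF D fM := by
  refine PartX.scale (by norm_num : (0 : ℝ) ≤ 24) H ?_
  intro ι _ _ p n ez F1 F2 F3 o K x s r U g u v B h1 A b C hD sg hsg
  exact qM_le K (cx K x) _ A b C (h1 A b C hD sg hsg)

theorem partF_fS {D : Bun} (H : PartG D fun _ι _ _ K M R A b C h j e => FS1 K M R A b C h j e) :
    PartF D fS := by
  refine PartX.scale (by norm_num : (0 : ℝ) ≤ 24) H ?_
  intro ι _ _ p n ez F1 F2 F3 o K x s r U g u v B h1 A b C hD sg hsg
  exact qS_le K (cx K x) _ A b C (h1 A b C hD sg hsg)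

end

end Vale.Agent.P141.H677.Sk
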