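import Vale.Agent.P141.H677.SlotX

/-!
# P141, line (A): the numbers of one slot from the two raw bounds

* `Raw q C0 C1 A b y e0 κ E D X` : the blind and the signed bound of a number `X`, free truncation
  `L`, free `δ`; `Raw.mono`, `Raw.sum2`;
* `NumR Pr` : the record `NumX`, every field with an own number which satisfies `Pr`;
  `NumR.toX`, `NumR.mono`;
* `RawNum D` : every slot has numbers with the raw bounds.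
-/

namespace Vale.Agent.P141.H677.Sk

open Finset Matrix
open Vale.Agent.P141.PL (Pt iv hs ix mem_iv ix_ix cb mem_cb cx card_iv)
open Vale.Agent.P141.PL.H315 (Tri)
open Vale.Agent.P141.H48 (US ES BSl)
open Vale.Agent.P141.H401 (StX PartX Bun PartF)
open Vale.Agent.P141.H305 (ClsM kapM)
open Vale.Agent.P141.H43 (avv nsq nsq_nonneg)
open Vale.Agent.P141.H460 (GPack)

noncomputable section

open scoped Classical

set_option linter.unusedSectionVars false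

variable {ι : Type} [Fintype ι] [DecidableEq ι]

/-- **The two raw bounds of a number**: blind (class data only) and signed (energy number `E`). -/
structure Raw (q : ℕ) (C0 C1 A b y e0 κ E D X : ℝ) : Prop where
  blind : ∀ L : ℕ, X ≤ D * ((1 + (L : ℝ)) ^ q *
    (b * A * y ^ e0 + (1 + κ) ^ 2 * y ^ (-C0) / 2 ^ L))
  signed : ∀ (L : ℕ) (δ : ℝ), 0 < δ → X ≤ D * ((1 + (L : ℝ)) ^ q *
    (A * δ + y ^ (-C1) * E / δ + A * E + (1 + κ) ^ 2 * y ^ (-C1) * (1 + 1 / δ) / 2 ^ L))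

theorem Raw.mono {q q' : ℕ} {C0 C1 C0' C1' A A' b y e0 κ E D X X' : ℝ}
    (H : Raw q C0 C1 A b y e0 κ E D X) (hq : q ≤ q') (h0 : C0 ≤ C0') (h1 : C1 ≤ C1')
    (hA : A ≤ A') (hA0 : 0 ≤ A) (hb : 0 ≤ b) (hy : 0 < y) (hy1 : y ≤ 1) (hE : 0 ≤ E)
    (hD : 0 ≤ D) (hX : X' ≤ X) : Raw q' C0' C1' A' b y e0 κ E D X' := by
  have e1 : ∀ L : ℕ, (1 + (L : ℝ)) ^ q ≤ (1 + (L : ℝ)) ^ q' := fun L =>
    pow_le_pow_right₀ (by have : (0 : ℝ) ≤ L := Nat.cast_nonneg _; linarith) hq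
  have e2 : y ^ (-C0) ≤ y ^ (-C0') := Real.rpow_le_rpow_of_exponent_ge hy hy1 (by linarith)
  have e3 : y ^ (-C1) ≤ y ^ (-C1') := Real.rpow_le_rpow_of_exponent_ge hy hy1 (by linarith)
  have y0 : 0 < y ^ e0 := Real.rpow_pos_of_pos hy _
  have y1 : 0 < y ^ (-C0) := Real.rpow_pos_of_pos hy _
  have y2 : 0 < y ^ (-C1) := Real.rpow_pos_of_pos hy _
  refine ⟨fun L => hX.trans ((H.blind L).trans ?_), fun L δ hδ => hX.trans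
    ((H.signed L δ hδ).trans ?_)⟩
  · refine mul_le_mul_of_nonneg_left ?_ hD
    refine mul_le_mul (e1 L) ?_ ?_ (by positivity)
    · refine add_le_add ?_ ?_
      · refine mul_le_mul_of_nonneg_right ?_ y0.le
        exact mul_le_mul_of_nonneg_left hA hb
      · refine div_le_div_of_nonneg_right ?_ (by positivity)
        exact mul_le_mul_of_nonneg_left e2 (by positivity)
    · positivity
  · refine mul_le_mul_of_nonneg_left ?_ hD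
    refine mul_le_mul (e1 L) ?_ ?_ (by positivity)
    · refine add_le_add (add_le_add (add_le_add ?_ ?_) ?_) ?_
      · exact mul_le_mul_of_nonneg_right hA hδ.le
      · refine div_le_div_of_nonneg_right ?_ hδ.le
        exact mul_le_mul_of_nonneg_right e3 hE
      · exact mul_le_mul_of_nonneg_right hA hE
      · refine div_le_div_of_nonneg_right ?_ (by positivity)
        refine mul_le_mul_of_nonneg_right ?_ (by positivity)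
        exact mul_le_mul_of_nonneg_left e3 (by positivity)
    · positivity

/-- a multiple of a number -/
theorem Raw.smul {q : ℕ} {C0 C1 A b y e0 κ E D X : ℝ} (H : Raw q C0 C1 A b y e0 κ E D X)
    {a : ℝ} (ha : 0 ≤ a) : Raw q C0 C1 A b y e0 κ E (a * D) (a * X) := by
  refine ⟨fun L => ?_, fun L δ hδ => ?_⟩
  · rw [mul_assoc]
    exact mul_le_mul_of_nonneg_left (H.blind L) ha
  · rw [mul_assoc]
    exact mul_le_mul_of_nonneg_left (H.signed L δ hδ) ha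

/-- the sum of two numbers -/
theorem Raw.add {q : ℕ} {C0 C1 A b y e0 κ E D D' X X' : ℝ} (H : Raw q C0 C1 A b y e0 κ E D X)
    (H' : Raw q C0 C1 A b y e0 κ E D' X') : Raw q C0 C1 A b y e0 κ E (D + D') (X + X') := by
  refine ⟨fun L => ?_, fun L δ hδ => ?_⟩
  · rw [add_mul]
    exact add_le_add (H.blind L) (H'.blind L)
  · rw [add_mul]
    exact add_le_add (H.signed L δ hδ) (H'.signed L δ hδ)

/-- **`NumX` with an own number for every field.** -/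
structure NumR (K : ℕ) (M : Pt) (R : Slt ι) (C : FamV ι) (h : Pt) (Pr : ℝ → Prop) : Prop where
  en : ∃ E : ℤ → ℝ, (∀ x0, 0 ≤ E x0) ∧ Pr (∑ t ∈ rt M, ∑ x0 ∈ iv K t, E x0) ∧
    ∀ t ∈ rt M, ∀ x0 ∈ iv K t, ∀ k ≤ K, ∀ j ≤ K, j ≤ k + 1 →
      ∑ x ∈ iv K M.1, ∑ z ∈ iv K M.2.2, nsq (av R h.2.2 x0 k z x *ᵥ C x0 j z x) ≤ E x0
  q : Pr (∑ t ∈ rt M, ∑ x0 ∈ iv K t, ∑ k ∈ range K, ∑ x ∈ iv K M.1, ∑ z ∈ iv K M.2.2,
    nsq ((av R h.2.2 x0 k z x - av R h.2.2 x0 (k + 1) z x) *ᵥ C x0 (k + 1) z x))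
  q2 : Pr (∑ t ∈ rt M, ∑ x0 ∈ iv K t, ∑ k ∈ range K, ∑ x ∈ iv K M.1, ∑ z ∈ iv K M.2.2,
    nsq ((av R h.2.2 x0 k z x - av R h.2.2 x0 (k + 1) z x) *ᵥ
      (av R h.2.2 x0 (k + 1) z x *ᵥ C x0 (k + 1) z x)))
  af : ∀ (S Q : ℕ → Pt → Prop) (P : ℝ), 0 ≤ P → GPack Q K P →
    (∀ k < K, ∀ y : Pt, S k y → Q k (cx k y)) → ∃ X, Pr X ∧
    ∑ t ∈ rt M, ∑ x0 ∈ iv K t, ∑ k ∈ range K, ∑ x ∈ iv K M.1, ∑ z ∈ iv K M.2.2,
      (if S k (x0, x, z) then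
        nsq (av R h.2.2 x0 k z x *ᵥ C x0 (k + 1) z x) else 0) ≤ (1 + P) * X
  qL : ∀ l : ℕ, Pr (∑ t ∈ rt M, ∑ x0 ∈ iv K t, ∑ k ∈ range (K - l), ∑ x ∈ iv K M.1,
    ∑ z ∈ iv K M.2.2, nsq ((av R h.2.2 x0 (k + l) z x - av R h.2.2 x0 (k + l + 1) z x) *ᵥ
      C x0 k z x))
  q2L : ∀ l : ℕ, Pr (∑ t ∈ rt M, ∑ x0 ∈ iv K t, ∑ k ∈ range (K - l), ∑ x ∈ iv K M.1,
    ∑ z ∈ iv K M.2.2, nsq ((av R h.2.2 x0 (k + l) z x - av R h.2.2 x0 (k + l + 1) z x) *ᵥ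
      (av R h.2.2 x0 (k + l + 1) z x *ᵥ C x0 k z x)))
  afL : ∀ l : ℕ, ∀ (S Q : ℕ → Pt → Prop) (P : ℝ), 0 ≤ P → GPack Q K P →
    (∀ k < K, ∀ y : Pt, S k y → Q k (cx k y)) → ∃ X, Pr X ∧
    ∑ t ∈ rt M, ∑ x0 ∈ iv K t, ∑ k ∈ range (K - l), ∑ x ∈ iv K M.1, ∑ z ∈ iv K M.2.2,
      (if S k (x0, x, z) then
        nsq (av R h.2.2 x0 (k + 1 + l) z x *ᵥ C x0 (k + 1) z x) else 0) ≤ (1 + P) * X

theorem NumR.toX {K : ℕ} {M : Pt} {R : Slt ι} {C : FamV ι} {h : Pt} {Pr : ℝ → Prop} {Y : ℝ}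
    (H : NumR K M R C h Pr) (hY : ∀ X, Pr X → X ≤ Y) : NumX K M R C h Y := by
  obtain ⟨E, h0, h1, h2⟩ := H.en
  refine ⟨⟨E, h0, hY _ h1, h2⟩, hY _ H.q, hY _ H.q2, fun S Q P hP hQ hS => ?_,
    fun l => hY _ (H.qL l), fun l => hY _ (H.q2L l), fun l S Q P hP hQ hS => ?_⟩
  · obtain ⟨X, hX, h3⟩ := H.af S Q P hP hQ hS
    exact h3.trans (mul_le_mul_of_nonneg_left (hY _ hX) (by linarith))
  · obtain ⟨X, hX, h3⟩ := H.afL l S Q P hP hQ hS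
    exact h3.trans (mul_le_mul_of_nonneg_left (hY _ hX) (by linarith))

theorem NumR.mono {K : ℕ} {M : Pt} {R : Slt ι} {C : FamV ι} {h : Pt} {Pr Pr' : ℝ → Prop}
    (H : NumR K M R C h Pr) (hP : ∀ X, Pr X → Pr' X) : NumR K M R C h Pr' := by
  obtain ⟨E, h0, h1, h2⟩ := H.en
  refine ⟨⟨E, h0, hP _ h1, h2⟩, hP _ H.q, hP _ H.q2, fun S Q P hP' hQ hS => ?_,
    fun l => hP _ (H.qL l), fun l => hP _ (H.q2L l), fun l S Q P hP' hQ hS => ?_⟩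
  · obtain ⟨X, hX, h3⟩ := H.af S Q P hP' hQ hS
    exact ⟨X, hP _ hX, h3⟩
  · obtain ⟨X, hX, h3⟩ := H.afL l S Q P hP' hQ hS
    exact ⟨X, hP _ hX, h3⟩

/-- **The raw numbers of every slot.** -/
def RawNum (D : Bun) : Prop :=
  ∀ a : ℝ, 0 < a → a ≤ 1 →
  ∃ es : ℝ, 0 < es ∧ es ≤ 1 ∧ ∀ e0 : ℝ, 0 < e0 → e0 ≤ es →
  ∃ k8s : ℝ, 0 < k8s ∧ ∀ k8 : ℝ, 0 < k8 → k8 ≤ k8s →
  ∃ k3s : ℝ, 0 < k3s ∧ ∀ k3 : ℝ, 0 < k3 → k3 ≤ k3s →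
  ∃ (q : ℕ) (C0 C1 c1 d1 : ℝ), 0 ≤ C0 ∧ 0 ≤ C1 ∧ 0 < c1 ∧ 0 < d1 ∧
  ∀ c : ℝ, 0 ≤ c → c ≤ c1 → ∀ d : ℝ, 0 < d → d ≤ d1 →
  ∀ Kt e cP L : ℝ, 0 < Kt → 1 ≤ e → 0 ≤ cP → 1 ≤ L → ∀ CD : ℝ, 1 ≤ CD → ∃ C : ℝ, 1 ≤ C ∧
  ∀ t : ℝ, 0 < t → t ≤ 1 → ∀ (n : ℕ) (ez : ℝ) (F1 F2 F3 : ℕ → Pt → ℝ),
    US n (Kt * t ^ (1 - c)) e cP F1 → US n (Kt * t ^ (1 - c)) e cP F3 → ES n ez cP F2 →
  ∀ o : ℤ, o = 1 ∨ o = -1 → ∀ K ≤ n, ∀ (x : Pt) (ι : Type) [Fintype ι] [DecidableEq ι]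
    (s r : ℝ) (U : Tri) (g : ℤ → ℤ → ℝ) (u v : ℤ → ℤ → ι → ℝ), 0 < s → 1 ≤ r →
    ClsM K x s r (L * t ^ (2 - c) * √s) (kapM L t a s r) U g u v →
    ∀ (A : FamA) (b' C' : FamV ι),
      D ι ⟨a, e0, k8, k3, c, d, Kt, e, cP, L, CD, t⟩ n ez F1 F2 F3 o K x s r U g u v A b' C' →
    ∀ (R : Slt ι) (κ E : ℝ), 1 ≤ κ → 0 < E → E ≤ L + 3780000 →
      SlotN ((⟨a, e0, k8, k3, c, d, Kt, e, cP, L, CD, t⟩ : H401.Num).al U K) o K (cx K x)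
        ((⟨a, e0, k8, k3, c, d, Kt, e, cP, L, CD, t⟩ : H401.Num).lam s r) u R κ E →
    ∀ h ∈ cb K 0, NumR K (cx K x) R C' h
      (Raw q C0 C1 C (t ^ (-c)) (t / r) e0 κ E (ez * s * 8 ^ K))

end

end Vale.Agent.P141.H677.Sk
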