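import Vale.Agent.P141.H677.SlotF
import Vale.Agent.P141.H204.FibD

/-!
# P141, line (A): the raw numbers of every slot at the data of the flow part, one record per field

* `SDat` : the data of one slot of the bundle `FDU`;
* `RawField Ψ` : one field of `NumR` at all these data, numbers `q0`, `C0`, `C1` and an expression
  `Af` of the class constants (`t := 1`);
* `FEn`, `FQ`, `FQ2`, `FAf`, `FQL`, `FQ2L`, `FAfL` : the seven fields;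
* `rawNum_FDU`, `slotNum_FDU`.
-/

namespace Vale.Agent.P141.H677.Sk

open Finset Matrix
open Vale.Agent.P141.PL (Pt iv hs ix mem_iv ix_ix cb mem_cb cx card_iv)
open Vale.Agent.P141.PL.H315 (Tri)
open Vale.Agent.P141.H48 (US ES BSl)
open Vale.Agent.P141.H401 (StX PartX Bun PartF FibU FibP)
open Vale.Agent.P141.H305 (ClsM kapM)
open Vale.Agent.P141.H43 (avv nsq nsq_nonneg)
open Vale.Agent.P141.H460 (GPack)
open Vale.Agent.P141.H204.Fib (WF FDU)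

noncomputable section

open scoped Classical

set_option linter.unusedSectionVars false

/-- the class constants, without the time -/
def cst (q : H401.Num) : H401.Num := { q with t := 1 }

/-- **The data of one slot.** -/
structure SDat {ι : Type} [Fintype ι] [DecidableEq ι] (q : H401.Num) (n : ℕ) (ez : ℝ)
    (F1 F2 F3 : ℕ → Pt → ℝ) (o : ℤ) (K : ℕ) (x : Pt) (s r : ℝ) (U : Tri) (g : ℤ → ℤ → ℝ)
    (u v : ℤ → ℤ → ι → ℝ) (A : FamA) (b C : FamV ι) (R : Slt ι) (κ E : ℝ) : Prop where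
  a0 : 0 < q.a
  a1 : q.a ≤ 1
  e00 : 0 < q.e0
  e01 : q.e0 ≤ 1
  c0 : 0 ≤ q.c
  c1 : q.c ≤ 1
  d0 : 0 < q.d
  d1 : q.d ≤ 1
  Kt0 : 0 < q.Kt
  e1 : 1 ≤ q.e
  cP0 : 0 ≤ q.cP
  L1 : 1 ≤ q.L
  CD1 : 1 ≤ q.CD
  t0 : 0 < q.t
  t1 : q.t ≤ 1
  hF1 : US n (q.Kt * q.t ^ (1 - q.c)) q.e q.cP F1
  hF3 : US n (q.Kt * q.t ^ (1 - q.c)) q.e q.cP F3
  hF2 : ES n ez q.cP F2
  ho : o = 1 ∨ o = -1
  hK : K ≤ n
  s0 : 0 < s
  r1 : 1 ≤ r
  cls : ClsM K x s r (q.L * q.t ^ (2 - q.c) * √s) (kapM q.L q.t q.a s r) U g u v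
  fu : FibU q K x s r U u
  fp : FibP q K x s r U v
  dat : FD ι q n ez F1 F2 F3 o K x s r U g u v A b C
  κ1 : 1 ≤ κ
  E0 : 0 < E
  EL : E ≤ q.L + 3780000
  slt : SlotN (q.al U K) o K (cx K x) (q.lam s r) u R κ E

/-- statements about a slot and a family, with a property of numbers -/
abbrev FldT : Type 1 :=
  ∀ (ι : Type) [Fintype ι] [DecidableEq ι], ℕ → Pt → Slt ι → FamV ι → Pt → (ℝ → Prop) → Prop

/-- monotone in the property -/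
def MonoF (Ψ : FldT) : Prop :=
  ∀ (ι : Type) [Fintype ι] [DecidableEq ι] (K : ℕ) (M : Pt) (R : Slt ι) (C : FamV ι) (h : Pt)
    (Pr Pr' : ℝ → Prop), (∀ X, Pr X → Pr' X) → Ψ ι K M R C h Pr → Ψ ι K M R C h Pr'

/-- **One field at all the data.** -/
def RawField (Ψ : FldT) : Prop :=
  ∃ (q0 : ℕ) (C0 C1 : ℝ) (Af : H401.Num → ℝ), ∀ (ι : Type) [Fintype ι] [DecidableEq ι]
    (q : H401.Num) (n : ℕ) (ez : ℝ) (F1 F2 F3 : ℕ → Pt → ℝ) (o : ℤ) (K : ℕ) (x : Pt) (s r : ℝ)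
    (U : Tri) (g : ℤ → ℤ → ℝ) (u v : ℤ → ℤ → ι → ℝ) (A : FamA) (b C : FamV ι) (R : Slt ι)
    (κ E : ℝ), SDat q n ez F1 F2 F3 o K x s r U g u v A b C R κ E → ∀ h ∈ cb K 0,
    Ψ ι K (cx K x) R C h
      (Raw q0 C0 C1 (Af (cst q)) (q.t ^ (-q.c)) (q.t / r) q.e0 κ E (ez * s * 8 ^ K))

/-! ### The seven fields -/

/-- energy -/
def FEn : FldT := fun _ι _ _ K M R C h Pr =>
  ∃ E : ℤ → ℝ, (∀ x0, 0 ≤ E x0) ∧ Pr (∑ t ∈ rt M, ∑ x0 ∈ iv K t, E x0) ∧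
    ∀ t ∈ rt M, ∀ x0 ∈ iv K t, ∀ k ≤ K, ∀ j ≤ K, j ≤ k + 1 →
      ∑ x ∈ iv K M.1, ∑ z ∈ iv K M.2.2, nsq (av R h.2.2 x0 k z x *ᵥ C x0 j z x) ≤ E x0

/-- moves -/
def FQ : FldT := fun _ι _ _ K M R C h Pr =>
  Pr (∑ t ∈ rt M, ∑ x0 ∈ iv K t, ∑ k ∈ range K, ∑ x ∈ iv K M.1, ∑ z ∈ iv K M.2.2,
    nsq ((av R h.2.2 x0 k z x - av R h.2.2 x0 (k + 1) z x) *ᵥ C x0 (k + 1) z x))

/-- products -/
def FQ2 : FldT := fun _ι _ _ K M R C h Pr =>
  Pr (∑ t ∈ rt M, ∑ x0 ∈ iv K t, ∑ k ∈ range K, ∑ x ∈ iv K M.1, ∑ z ∈ iv K M.2.2,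
    nsq ((av R h.2.2 x0 k z x - av R h.2.2 x0 (k + 1) z x) *ᵥ
      (av R h.2.2 x0 (k + 1) z x *ᵥ C x0 (k + 1) z x)))

/-- points over a packed family -/
def FAf : FldT := fun _ι _ _ K M R C h Pr =>
  ∀ (S Q : ℕ → Pt → Prop) (P : ℝ), 0 ≤ P → GPack Q K P →
    (∀ k < K, ∀ y : Pt, S k y → Q k (cx k y)) → ∃ X, Pr X ∧
    ∑ t ∈ rt M, ∑ x0 ∈ iv K t, ∑ k ∈ range K, ∑ x ∈ iv K M.1, ∑ z ∈ iv K M.2.2,
      (if S k (x0, x, z) then
        nsq (av R h.2.2 x0 k z x *ᵥ C x0 (k + 1) z x) else 0) ≤ (1 + P) * X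

/-- moves, every lag -/
def FQL : FldT := fun _ι _ _ K M R C h Pr =>
  ∀ l : ℕ, Pr (∑ t ∈ rt M, ∑ x0 ∈ iv K t, ∑ k ∈ range (K - l), ∑ x ∈ iv K M.1,
    ∑ z ∈ iv K M.2.2, nsq ((av R h.2.2 x0 (k + l) z x - av R h.2.2 x0 (k + l + 1) z x) *ᵥ
      C x0 k z x))

/-- products, every lag -/
def FQ2L : FldT := fun _ι _ _ K M R C h Pr =>
  ∀ l : ℕ, Pr (∑ t ∈ rt M, ∑ x0 ∈ iv K t, ∑ k ∈ range (K - l), ∑ x ∈ iv K M.1,
    ∑ z ∈ iv K M.2.2, nsq ((av R h.2.2 x0 (k + l) z x - av R h.2.2 x0 (k + l + 1) z x) *ᵥ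
      (av R h.2.2 x0 (k + l + 1) z x *ᵥ C x0 k z x)))

/-- points over a packed family, every lag -/
def FAfL : FldT := fun _ι _ _ K M R C h Pr =>
  ∀ l : ℕ, ∀ (S Q : ℕ → Pt → Prop) (P : ℝ), 0 ≤ P → GPack Q K P →
    (∀ k < K, ∀ y : Pt, S k y → Q k (cx k y)) → ∃ X, Pr X ∧
    ∑ t ∈ rt M, ∑ x0 ∈ iv K t, ∑ k ∈ range (K - l), ∑ x ∈ iv K M.1, ∑ z ∈ iv K M.2.2,
      (if S k (x0, x, z) then
        nsq (av R h.2.2 x0 (k + 1 + l) z x *ᵥ C x0 (k + 1) z x) else 0) ≤ (1 + P) * X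

theorem mono_FEn : MonoF FEn := by
  rintro ι _ _ K M R C h Pr Pr' hP ⟨E, h0, h1, h2⟩
  exact ⟨E, h0, hP _ h1, h2⟩

theorem mono_FQ : MonoF FQ := fun _ _ _ _ _ _ _ _ _ _ hP H => hP _ H

theorem mono_FQ2 : MonoF FQ2 := fun _ _ _ _ _ _ _ _ _ _ hP H => hP _ H

theorem mono_FQL : MonoF FQL := fun _ _ _ _ _ _ _ _ _ _ hP H l => hP _ (H l)

theorem mono_FQ2L : MonoF FQ2L := fun _ _ _ _ _ _ _ _ _ _ hP H l => hP _ (H l)

theorem mono_FAf : MonoF FAf := by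
  intro ι _ _ K M R C h Pr Pr' hP H S Q P h0 hQ hS
  obtain ⟨X, hX, h1⟩ := H S Q P h0 hQ hS
  exact ⟨X, hP _ hX, h1⟩

theorem mono_FAfL : MonoF FAfL := by
  intro ι _ _ K M R C h Pr Pr' hP H l S Q P h0 hQ hS
  obtain ⟨X, hX, h1⟩ := H l S Q P h0 hQ hS
  exact ⟨X, hP _ hX, h1⟩

/-- the constant may grow from any value -/
theorem Raw.up {q : ℕ} {C0 C1 A A' b y e0 κ E D X : ℝ} (H : Raw q C0 C1 A b y e0 κ E D X)
    (hA : A ≤ A') (hb : 0 ≤ b) (hy : 0 < y) (hE : 0 ≤ E) (hD : 0 ≤ D) :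
    Raw q C0 C1 A' b y e0 κ E D X := by
  have y0 : 0 < y ^ e0 := Real.rpow_pos_of_pos hy _
  refine ⟨fun L => (H.blind L).trans ?_, fun L δ hδ => (H.signed L δ hδ).trans ?_⟩
  · refine mul_le_mul_of_nonneg_left (mul_le_mul_of_nonneg_left ?_ (by positivity)) hD
    refine add_le_add ?_ le_rfl
    exact mul_le_mul_of_nonneg_right (mul_le_mul_of_nonneg_left hA hb) y0.le
  · refine mul_le_mul_of_nonneg_left (mul_le_mul_of_nonneg_left ?_ (by positivity)) hD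
    refine add_le_add (add_le_add (add_le_add ?_ le_rfl) ?_) le_rfl
    · exact mul_le_mul_of_nonneg_right hA hδ.le
    · exact mul_le_mul_of_nonneg_right hA hE

/-- two fields at once -/
theorem RawField.and {Ψ1 Ψ2 : FldT} (m1 : MonoF Ψ1) (m2 : MonoF Ψ2) (H1 : RawField Ψ1)
    (H2 : RawField Ψ2) :
    RawField fun ι _ _ K M R C h Pr => Ψ1 ι K M R C h Pr ∧ Ψ2 ι K M R C h Pr := by
  obtain ⟨q1, C01, C11, A1, H1⟩ := H1
  obtain ⟨q2, C02, C12, A2, H2⟩ := H2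
  refine ⟨max q1 q2, max C01 C02, max C11 C12, fun p => max 0 (max (A1 p) (A2 p)), ?_⟩
  intro ι _ _ q n ez F1 F2 F3 o K x s r U g u v A b C R κ E hS h hh
  have hr0 : 0 < r := by linarith [hS.r1]
  have hy : 0 < q.t / r := div_pos hS.t0 hr0
  have hy1 : q.t / r ≤ 1 := by
    rw [div_le_one hr0]
    linarith [hS.t1, hS.r1]
  have hb : 0 ≤ q.t ^ (-q.c) := Real.rpow_nonneg hS.t0.le _
  have hez : 0 ≤ ez := hS.hF2.1
  have hs0 : 0 ≤ s := hS.s0.le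
  have hD0 : 0 ≤ ez * s * 8 ^ K := by positivity
  refine ⟨m1 ι K (cx K x) R C h _ _ (fun X hX => ?_)
    (H1 ι q n ez F1 F2 F3 o K x s r U g u v A b C R κ E hS h hh),
    m2 ι K (cx K x) R C h _ _ (fun X hX => ?_)
    (H2 ι q n ez F1 F2 F3 o K x s r U g u v A b C R κ E hS h hh)⟩
  · exact (hX.up (A' := max 0 (max (A1 (cst q)) (A2 (cst q))))
      ((le_max_left _ _).trans (le_max_right _ _)) hb hy hS.E0.le hD0).mono (le_max_left _ _)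
      (le_max_left _ _) (le_max_left _ _) le_rfl (le_max_left _ _) hb hy hy1 hS.E0.le hD0 le_rfl
  · exact (hX.up (A' := max 0 (max (A1 (cst q)) (A2 (cst q))))
      ((le_max_right _ _).trans (le_max_right _ _)) hb hy hS.E0.le hD0).mono (le_max_right _ _)
      (le_max_right _ _) (le_max_right _ _) le_rfl (le_max_left _ _) hb hy hy1 hS.E0.le hD0 le_rfl

theorem MonoF.and {Ψ1 Ψ2 : FldT} (m1 : MonoF Ψ1) (m2 : MonoF Ψ2) :
    MonoF fun ι _ _ K M R C h Pr => Ψ1 ι K M R C h Pr ∧ Ψ2 ι K M R C h Pr :=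
  fun ι _ _ K M R C h Pr Pr' hP H =>
    ⟨m1 ι K M R C h Pr Pr' hP H.1, m2 ι K M R C h Pr Pr' hP H.2⟩

/-- **The raw numbers from the seven fields.** -/
theorem rawNum_FDU (en : RawField FEn) (q : RawField FQ) (q2 : RawField FQ2)
    (af : RawField FAf) (qL : RawField FQL) (q2L : RawField FQ2L) (afL : RawField FAfL) :
    RawNum FDU := by
  obtain ⟨q0, C0, C1, Af, H⟩ := RawField.and mono_FEn (mono_FQ.and (mono_FQ2.and
    (mono_FAf.and (mono_FQL.and (mono_FQ2L.and mono_FAfL))))) en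
    (RawField.and mono_FQ (mono_FQ2.and (mono_FAf.and (mono_FQL.and (mono_FQ2L.and mono_FAfL)))) q
    (RawField.and mono_FQ2 (mono_FAf.and (mono_FQL.and (mono_FQ2L.and mono_FAfL))) q2
    (RawField.and mono_FAf (mono_FQL.and (mono_FQ2L.and mono_FAfL)) af
    (RawField.and mono_FQL (mono_FQ2L.and mono_FAfL) qL
    (RawField.and mono_FQ2L mono_FAfL q2L afL)))))
  intro a ha ha1
  refine ⟨1, one_pos, le_rfl, fun e0 he0 he0' => ⟨1, one_pos, fun k8 hk8 hk8' =>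
    ⟨1, one_pos, fun k3 hk3 hk3' => ⟨q0, max C0 0, max C1 0, 1, 1, le_max_right _ _,
      le_max_right _ _, one_pos, one_pos, ?_⟩⟩⟩⟩
  intro c hc hcc d hd hdd Kt e cP L hKt he hcP hL CD hCD
  refine ⟨max 1 (Af ⟨a, e0, k8, k3, c, d, Kt, e, cP, L, CD, 1⟩), le_max_left _ _, ?_⟩
  intro t ht ht1 n ez F1 F2 F3 h1 h3 h2 o ho K hKn x ι _ _ s r U g u v hs hr hcls A b' C' hD
    R κ E hκ hE hEL hsl h hh
  obtain ⟨fu, fp, hFD⟩ := hD
  have hS : SDat ⟨a, e0, k8, k3, c, d, Kt, e, cP, L, CD, t⟩ n ez F1 F2 F3 o K x s r U g u v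
      A b' C' R κ E :=
    ⟨ha, ha1, he0, he0', hc, hcc, hd, hdd, hKt, he, hcP, hL, hCD, ht, ht1, h1, h3, h2, ho, hKn,
      hs, hr, hcls, fu, fp, hFD, hκ, hE, hEL, hsl⟩
  obtain ⟨f1, f2, f3, f4, f5, f6, f7⟩ := H ι _ n ez F1 F2 F3 o K x s r U g u v A b' C' R κ E hS
    h hh
  have hr0 : 0 < r := by linarith
  have hy : 0 < t / r := div_pos ht hr0
  have hy1 : t / r ≤ 1 := by
    rw [div_le_one hr0]
    linarith
  have hb : 0 ≤ t ^ (-c) := Real.rpow_nonneg ht.le _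
  have hez : 0 ≤ ez := h2.1
  have hD0 : 0 ≤ ez * s * 8 ^ K := by positivity
  have N : NumR K (cx K x) R C' h (Raw q0 C0 C1 (Af ⟨a, e0, k8, k3, c, d, Kt, e, cP, L, CD, 1⟩)
      (t ^ (-c)) (t / r) e0 κ E (ez * s * 8 ^ K)) := ⟨f1, f2, f3, f4, f5, f6, f7⟩
  refine N.mono fun X hX => ?_
  exact (hX.up (le_max_right 1 _) hb hy hE.le hD0).mono le_rfl (le_max_left _ _)
    (le_max_left _ _) le_rfl (zero_le_one.trans (le_max_left _ _)) hb hy hy1 hE.le hD0 le_rfl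

/-- **The numbers of every slot from the seven fields.** -/
theorem slotNum_FDU (en : RawField FEn) (q : RawField FQ) (q2 : RawField FQ2)
    (af : RawField FAf) (qL : RawField FQL) (q2L : RawField FQ2L) (afL : RawField FAfL) :
    SlotNum FDU :=
  slotNum_of_raw (rawNum_FDU en q q2 af qL q2L afL)

end

end Vale.Agent.P141.H677.Sk
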