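import Vale.Agent.P141.H677.Fam2
import Vale.Agent.P141.H795.KFact
import Vale.Agent.P141.H352.NearP
import Vale.Agent.P141.H205.SPath
import Vale.Agent.P141.H958.PairsE
import Vale.Agent.P141.H43.MidR

/-!
# P141, line (A): the flow part, skeleton

Families at every `x0`: `A x0 k z y`, `b x0 k x y`, `C x0 k z x = φ x0 k z x • v x z`
(`z = x3`, `y = x2`, `x = x1`); slot `RT` of `FlowG` (tree of the full `u`).

* `TFf` : the flow part of a family, arbitrary node signs; `TFf_abel` : as Abel sums;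
* `P0`, `PB`, `PN`, `PS`, `PM` : term of scale `0`, births, near term, shift error, node forms with
  the averaged slot on the shifted grids; `TFf_le : TFf ≤ PN + (P0 + (PB + 8 / 3 (PS + PM)))`;
* `FD` : data of a family at one class; `PriceF T` : the price of a functional of families;
* `priceF_TF` : the assembly.
-/

namespace Vale.Agent.P141.H677.Sk

open Finset Matrix
open Vale.Agent.P141.PL (Pt iv hs ix mem_iv ix_ix cb mem_cb cx)
open Vale.Agent.P141.PL.H560 (cbs bx0)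
open Vale.Agent.P141.PL.H804 (bx3 Cap)
open Vale.Agent.P141.H352 (In p)
open Vale.Agent.P141.H795 (kp TS)
open Vale.Agent.P141.H958 (Aff s4 own4)
open Vale.Agent.P141.H205 (GQ)

noncomputable section

open scoped Classical

/-- scalar families at every `x0` -/
abbrev FamA : Type := ℤ → ℕ → ℤ → ℤ → ℝ

/-- vector families at every `x0` -/
abbrev FamV (ι : Type) : Type := ℤ → ℕ → ℤ → ℤ → ι → ℝ

variable {ι : Type} [Fintype ι] [DecidableEq ι]

/-- the slot at `x0`, order `z`, `x` -/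
def sl (Al : ℕ → Pt → Prop) (o : ℤ) (K : ℕ) (M : Pt) (sg : ℕ → Pt → ℝ) (l : ℝ)
    (u : ℤ → ℤ → ι → ℝ) (x0 : ℤ) (j : ℕ) (z x : ℤ) : Matrix ι ι ℝ :=
  RT Al o K M sg l u j x0 z x

/-- the slot of scale `k` on the grid shifted by `h` in `x3` : mean over the shifted cell of `z` of
the slot at the time `0` -/
def sl' (Al : ℕ → Pt → Prop) (o : ℤ) (K : ℕ) (M : Pt) (sg : ℕ → Pt → ℝ) (l : ℝ)
    (u : ℤ → ℤ → ι → ℝ) (h x0 : ℤ) (k : ℕ) (z x : ℤ) : Matrix ι ι ℝ :=
  ((2 : ℝ) ^ k)⁻¹ • ∑ w ∈ iv k (ix k (z - h)), RT Al o K M sg l u 0 x0 (w + h) x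

/-- slot at the time `a`, families at the time `b'` -/
def GS (Al : ℕ → Pt → Prop) (o : ℤ) (K : ℕ) (M : Pt) (sg : ℕ → Pt → ℝ) (l : ℝ)
    (u : ℤ → ℤ → ι → ℝ) (A : FamA) (b C : FamV ι) (x0 : ℤ) (a b' : ℕ) (y : Pt) : ℝ :=
  GA (A x0) (b x0) (C x0) (sl Al o K M sg l u x0) a b' y

/-- the same with the averaged slot of the grid `h`, everything of scale `k` -/
def GR (Al : ℕ → Pt → Prop) (o : ℤ) (K : ℕ) (M : Pt) (sg : ℕ → Pt → ℝ) (l : ℝ)
    (u : ℤ → ℤ → ι → ℝ) (A : FamA) (b C : FamV ι) (h x0 : ℤ) (k : ℕ) (y : Pt) : ℝ :=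
  GA (A x0) (b x0) (C x0) (sl' Al o K M sg l u h x0) k k y

/-- a functional of families at the data of one class -/
abbrev FunF : Type 1 :=
  ∀ (ι : Type) [Fintype ι] [DecidableEq ι], (ℕ → Pt → Prop) → ℤ → ℕ → Pt → (ℕ → Pt → ℝ) → ℝ →
    (ℤ → ℤ → ι → ℝ) → FamA → FamV ι → FamV ι → ℝ

/-- **The flow part of families**, any signs `sg` of the nodes. -/
def TFf : FunF := fun _ _ _ Al o K M sg l u A b C =>
  ∑ t ∈ rt M, ∑ x0 ∈ iv K t, |∑ k ∈ Icc 1 K, ∑ m ∈ sN Al o K M x0 k,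
    sg k (rv m) * hs k x0 * ndF l (KT l u) (A x0 k) (b x0 k) (C x0 k) k m|

/-- the term of scale `0` -/
def P0 : FunF := fun _ _ _ Al o K M sg l u A b C =>
  ∑ t ∈ rt M, ∑ x0 ∈ iv K t, |In K M (kp (-x0) 0) (GS Al o K M sg l u A b C x0 0 0)|

/-- the births -/
def PB : FunF := fun _ _ _ Al o K M sg l u A b C =>
  ∑ t ∈ rt M, ∑ x0 ∈ iv K t, ∑ k ∈ range K, |In K M (kp (-x0) k) (fun y =>
    GS Al o K M sg l u A b C x0 k k y - GS Al o K M sg l u A b C x0 k (k + 1) y)|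

/-- the near term -/
def PN : FunF := fun _ _ _ Al o K M sg l u A b C =>
  ∑ t ∈ rt M, ∑ x0 ∈ iv K t, ∑ k ∈ range K,
    |In K M (fun y => p (k + 1) (cP o x0 (k + 1)) y - kp (-x0) (k + 1) y) (fun y =>
      GS Al o K M sg l u A b C x0 k (k + 1) y - GS Al o K M sg l u A b C x0 (k + 1) (k + 1) y)|

/-- the shift error -/
def PS : FunF := fun _ _ _ Al o K M sg l u A b C =>
  ((8 : ℝ) ^ K)⁻¹ * ∑ s ∈ cb K 0, ∑ t ∈ rt M, ∑ x0 ∈ iv K t, ∑ k ∈ range K,
    TS K M (-x0) (k + 1) s (fun y => GS Al o K M sg l u A b C x0 k (k + 1) y -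
      GR Al o K M sg l u A b C s.2.2 x0 (k + 1) y)

/-- the node forms with the averaged slot on the shifted grids -/
def PM : FunF := fun _ _ _ Al o K M sg l u A b C =>
  ((8 : ℝ) ^ K)⁻¹ * ∑ s ∈ cb K 0, ∑ t ∈ rt M, ∑ x0 ∈ iv K t, ∑ k ∈ range K,
    TS K M (-x0) (k + 1) s (GR Al o K M sg l u A b C s.2.2 x0 (k + 1))

/-! ### The decomposition -/

theorem sl_RA (Al : ℕ → Pt → Prop) (o : ℤ) (K : ℕ) (M : Pt) (sg : ℕ → Pt → ℝ) (l : ℝ)
    (u : ℤ → ℤ → ι → ℝ) (x0 : ℤ) (j : ℕ) (z x : ℤ) :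
    RA K l (KT l u) (cP o x0) (thA (cP o x0) (sN Al o K M x0) fun k m => sg k (rv m) * hs k x0)
      j z x = sl Al o K M sg l u x0 j z x := by
  unfold RA sl RT
  refine sum_congr rfl fun i _ => ?_
  have e : thA (cP o x0) (sN Al o K M x0) (fun k m => sg k (rv m) * hs k x0) (i + 1) z x =
      thN Al o K M sg x0 z x (i + 1) := by
    have e2 : ((ix (i + 1) z, my (cP o x0) z x (i + 1), ix (i + 1) x) : Pt) =
        nd3 o x0 z x (i + 1) := rfl
    unfold thA thN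
    rw [e2]
    split_ifs
    · ring
    · rfl
  rw [e]
  rfl

/-- **The flow part as Abel sums.** -/
theorem TFf_abel (Al : ℕ → Pt → Prop) (o : ℤ) (K : ℕ) (M : Pt) (sg : ℕ → Pt → ℝ) (l : ℝ)
    (u : ℤ → ℤ → ι → ℝ) (A : FamA) (b C : FamV ι) :
    TFf ι Al o K M sg l u A b C = ∑ t ∈ rt M, ∑ x0 ∈ iv K t, |∑ j ∈ range K,
      In K M (p (j + 1) (cP o x0 (j + 1))) (fun y =>
        GS Al o K M sg l u A b C x0 j (j + 1) y - GS Al o K M sg l u A b C x0 (j + 1) (j + 1) y)| := by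
  unfold TFf
  refine sum_congr rfl fun t _ => sum_congr rfl fun x0 _ => ?_
  congr 1
  rw [abel_fam l (KT l u) K M (cP o x0) (sN Al o K M x0) (fun k m => sg k (rv m) * hs k x0) (A x0)
    (b x0) (C x0) fun k _ => sN_sub ..]
  have e : ∀ j, RA K l (KT l u) (cP o x0)
      (thA (cP o x0) (sN Al o K M x0) fun k m => sg k (rv m) * hs k x0) j =
      sl Al o K M sg l u x0 j := by
    intro j
    funext z x
    exact sl_RA Al o K M sg l u x0 j z x
  have e' : RA K l (KT l u) (cP o x0)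
      (thA (cP o x0) (sN Al o K M x0) fun k m => sg k (rv m) * hs k x0) =
      sl Al o K M sg l u x0 := funext e
  rw [e']
  rfl

theorem In_add (N : ℕ) (M : Pt) (κ κ' F : Pt → ℝ) :
    In N M κ F = In N M (fun x => κ x - κ' x) F + In N M κ' F := by
  have h := H352.In_ksub N M κ κ' F
  linarith

theorem GS_top (Al : ℕ → Pt → Prop) (o : ℤ) (K : ℕ) (M : Pt) (sg : ℕ → Pt → ℝ) (l : ℝ)
    (u : ℤ → ℤ → ι → ℝ) (A : FamA) (b C : FamV ι) (x0 : ℤ) (b' : ℕ) :
    GS Al o K M sg l u A b C x0 K b' = fun _ => 0 := by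
  funext y
  unfold GS GA sl
  rw [RT_top, zero_mulVec, dotProduct_zero, mul_zero]

theorem TS_add_le (N : ℕ) (M : Pt) (c : ℤ) (k : ℕ) (s : Pt) (F G : Pt → ℝ) :
    TS N M c k s F ≤ TS N M c k s (fun x => F x - G x) + TS N M c k s G := by
  unfold H795.TS
  rw [← sum_add_distrib]
  refine sum_le_sum fun j _ => ?_
  rw [← sum_add_distrib]
  refine sum_le_sum fun e _ => ?_
  rw [← sum_add_distrib]
  refine sum_le_sum fun m _ => ?_
  have h : H795.nd k m (H795.tr N M s F) =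
      H795.nd k m (H795.tr N M s fun x => F x - G x) + H795.nd k m (H795.tr N M s G) := by
    unfold H795.nd
    rw [← mul_add, ← sum_add_distrib]
    congr 1
    refine sum_congr rfl fun x _ => ?_
    unfold H795.tr
    split_ifs
    · ring
    · ring
  rw [h]
  exact abs_add_le _ _

/-- **The flow part in five parts.** -/
theorem TFf_le (Al : ℕ → Pt → Prop) (o : ℤ) (K : ℕ) (M : Pt) (sg : ℕ → Pt → ℝ) (l : ℝ)
    (u : ℤ → ℤ → ι → ℝ) (A : FamA) (b C : FamV ι) :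
    TFf ι Al o K M sg l u A b C ≤ PN ι Al o K M sg l u A b C + (P0 ι Al o K M sg l u A b C +
      (PB ι Al o K M sg l u A b C + 8 / 3 * (PS ι Al o K M sg l u A b C +
        PM ι Al o K M sg l u A b C))) := by
  rw [TFf_abel]
  -- one point
  have one : ∀ x0 : ℤ, |∑ j ∈ range K, In K M (p (j + 1) (cP o x0 (j + 1))) (fun y =>
      GS Al o K M sg l u A b C x0 j (j + 1) y - GS Al o K M sg l u A b C x0 (j + 1) (j + 1) y)| ≤
      ∑ k ∈ range K, |In K M (fun y => p (k + 1) (cP o x0 (k + 1)) y - kp (-x0) (k + 1) y)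
        (fun y => GS Al o K M sg l u A b C x0 k (k + 1) y -
          GS Al o K M sg l u A b C x0 (k + 1) (k + 1) y)| +
      (|In K M (kp (-x0) 0) (GS Al o K M sg l u A b C x0 0 0)| +
      (∑ k ∈ range K, |In K M (kp (-x0) k) (fun y => GS Al o K M sg l u A b C x0 k k y -
        GS Al o K M sg l u A b C x0 k (k + 1) y)| +
      8 / 3 * (((8 : ℝ) ^ K)⁻¹ * ∑ s ∈ cb K 0, ∑ k ∈ range K,
        (TS K M (-x0) (k + 1) s (fun y => GS Al o K M sg l u A b C x0 k (k + 1) y -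
          GR Al o K M sg l u A b C s.2.2 x0 (k + 1) y) +
          TS K M (-x0) (k + 1) s (GR Al o K M sg l u A b C s.2.2 x0 (k + 1)))))) := by
    intro x0
    have h1 : ∑ j ∈ range K, In K M (p (j + 1) (cP o x0 (j + 1))) (fun y =>
        GS Al o K M sg l u A b C x0 j (j + 1) y -
          GS Al o K M sg l u A b C x0 (j + 1) (j + 1) y) =
        ∑ k ∈ range K, In K M (fun y => p (k + 1) (cP o x0 (k + 1)) y - kp (-x0) (k + 1) y)
          (fun y => GS Al o K M sg l u A b C x0 k (k + 1) y -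
            GS Al o K M sg l u A b C x0 (k + 1) (k + 1) y) +
        ∑ k ∈ range K, In K M (kp (-x0) (k + 1))
          (fun y => GS Al o K M sg l u A b C x0 k (k + 1) y -
            GS Al o K M sg l u A b C x0 (k + 1) (k + 1) y) := by
      rw [← sum_add_distrib]
      exact sum_congr rfl fun k _ => In_add K M _ _ _
    rw [h1]
    refine (abs_add_le _ _).trans (add_le_add (abs_sum_le_sum_abs _ _) ?_)
    have h2 := H795.abel_grid K M (-x0) (GS Al o K M sg l u A b C x0) K le_rfl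
    have h3 : |In K M (kp (-x0) K) (GS Al o K M sg l u A b C x0 K K)| = 0 := by
      rw [GS_top]
      unfold H352.In
      simp
    rw [h3, add_zero] at h2
    refine h2.trans ?_
    have h4 : ((8 : ℝ) ^ K)⁻¹ * ∑ s ∈ cb K 0, ∑ k ∈ range K,
        TS K M (-x0) (k + 1) s (GS Al o K M sg l u A b C x0 k (k + 1)) ≤
        ((8 : ℝ) ^ K)⁻¹ * ∑ s ∈ cb K 0, ∑ k ∈ range K,
        (TS K M (-x0) (k + 1) s (fun y => GS Al o K M sg l u A b C x0 k (k + 1) y -
          GR Al o K M sg l u A b C s.2.2 x0 (k + 1) y) +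
          TS K M (-x0) (k + 1) s (GR Al o K M sg l u A b C s.2.2 x0 (k + 1))) := by
      refine mul_le_mul_of_nonneg_left ?_ (by positivity)
      exact sum_le_sum fun s _ => sum_le_sum fun k _ => TS_add_le ..
    have h5 := mul_le_mul_of_nonneg_left h4 (by norm_num : (0 : ℝ) ≤ 8 / 3)
    linarith
  have h2 := sum_le_sum fun t (_ : t ∈ rt M) => sum_le_sum fun x0 (_ : x0 ∈ iv K t) => one x0
  refine h2.trans (le_of_eq ?_)
  have e4 : ∀ a b c d : ℤ → ℝ, ∑ t ∈ rt M, ∑ x0 ∈ iv K t, (a x0 + (b x0 + (c x0 + d x0))) =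
      ∑ t ∈ rt M, ∑ x0 ∈ iv K t, a x0 + (∑ t ∈ rt M, ∑ x0 ∈ iv K t, b x0 +
        (∑ t ∈ rt M, ∑ x0 ∈ iv K t, c x0 + ∑ t ∈ rt M, ∑ x0 ∈ iv K t, d x0)) := by
    intro a b c d
    simp only [sum_add_distrib]
  have e8 : ∀ (f : ℤ → Pt → ℝ), ∑ t ∈ rt M, ∑ x0 ∈ iv K t, 8 / 3 * (((8 : ℝ) ^ K)⁻¹ *
      ∑ s ∈ cb K 0, f x0 s) = 8 / 3 * (((8 : ℝ) ^ K)⁻¹ * ∑ s ∈ cb K 0, ∑ t ∈ rt M,
        ∑ x0 ∈ iv K t, f x0 s) := by
    intro f
    simp only [← mul_sum]
    congr 2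
    rw [sum_comm (s := cb K 0)]
    refine sum_congr rfl fun t _ => ?_
    rw [sum_comm]
  rw [e4, e8]
  unfold PN P0 PB PS PM
  congr 3
  rw [← mul_add, ← sum_add_distrib]
  congr 2
  refine sum_congr rfl fun s _ => ?_
  simp only [sum_add_distrib]

end

end Vale.Agent.P141.H677.Sk
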