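import Vale.Agent.P141.H939.PriceB
import Vale.Agent.P141.H782.AffS

/-!
# P141, line (A): the numbers of one slot of the flow part on one shifted grid

* `NumX K M R C h X` : the numbers of a slot `R` against a family `C` on the grid shifted by `h`
  (letters of `H483.num_e`, `num_q`, `num_q2`, `num_a`, original coordinates, slot `av R h.2.2`),
  all at most `X`;
* `SlotNum` : every slot `SlotN` has these numbers with a power of the logarithms, a power `θ` of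
  the energy number `E` and the gain `(t / r) ^ (e0 / 2)`.
-/

namespace Vale.Agent.P141.H677.Sk

open Finset Matrix
open Vale.Agent.P141.PL (Pt iv hs ix mem_iv ix_ix cb mem_cb cx card_iv)
open Vale.Agent.P141.PL.H315 (Tri)
open Vale.Agent.P141.H48 (US ES BSl)
open Vale.Agent.P141.H401 (StX PartX Bun PartF)
open Vale.Agent.P141.H305 (ClsM kapM)
open Vale.Agent.P141.H43 (avv nsq nsq_nonneg)
open Vale.Agent.P141.H460 (GPack)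
open Vale.Agent.P141.H782 (sq)

noncomputable section

open scoped Classical

set_option linter.unusedSectionVars false

variable {ι : Type} [Fintype ι] [DecidableEq ι]

/-- **The numbers of a slot on one shifted grid**, summed over `x₀` in the three roots.  Fields `en`,
`q`, `q2`, `af` : hub `x₃`; `en`, `qL`, `q2L`, `afL` : hub `x₁`, every lag `l`. -/
structure NumX (K : ℕ) (M : Pt) (R : Slt ι) (C : FamV ι) (h : Pt) (X : ℝ) : Prop where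
  /-- energy, one number for every `x₀`, every scale, every time up to `k + 1` -/
  en : ∃ E : ℤ → ℝ, (∀ x0, 0 ≤ E x0) ∧ (∑ t ∈ rt M, ∑ x0 ∈ iv K t, E x0 ≤ X) ∧
    ∀ t ∈ rt M, ∀ x0 ∈ iv K t, ∀ k ≤ K, ∀ j ≤ K, j ≤ k + 1 →
      ∑ x ∈ iv K M.1, ∑ z ∈ iv K M.2.2, nsq (av R h.2.2 x0 k z x *ᵥ C x0 j z x) ≤ E x0
  /-- the moves, time `k + 1` -/
  q : ∑ t ∈ rt M, ∑ x0 ∈ iv K t, ∑ k ∈ range K, ∑ x ∈ iv K M.1, ∑ z ∈ iv K M.2.2,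
    nsq ((av R h.2.2 x0 k z x - av R h.2.2 x0 (k + 1) z x) *ᵥ C x0 (k + 1) z x) ≤ X
  /-- the products, time `k + 1` -/
  q2 : ∑ t ∈ rt M, ∑ x0 ∈ iv K t, ∑ k ∈ range K, ∑ x ∈ iv K M.1, ∑ z ∈ iv K M.2.2,
    nsq ((av R h.2.2 x0 k z x - av R h.2.2 x0 (k + 1) z x) *ᵥ
      (av R h.2.2 x0 (k + 1) z x *ᵥ C x0 (k + 1) z x)) ≤ X
  /-- the points over a packed family of cubes, time `k + 1`, slot of scale `k` -/
  af : ∀ (S Q : ℕ → Pt → Prop) (P : ℝ), 0 ≤ P → GPack Q K P →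
    (∀ k < K, ∀ y : Pt, S k y → Q k (cx k y)) →
    ∑ t ∈ rt M, ∑ x0 ∈ iv K t, ∑ k ∈ range K, ∑ x ∈ iv K M.1, ∑ z ∈ iv K M.2.2,
      (if S k (x0, x, z) then
        nsq (av R h.2.2 x0 k z x *ᵥ C x0 (k + 1) z x) else 0) ≤ (1 + P) * X
  /-- the moves of lag `l`, time `k` -/
  qL : ∀ l : ℕ, ∑ t ∈ rt M, ∑ x0 ∈ iv K t, ∑ k ∈ range (K - l), ∑ x ∈ iv K M.1,
    ∑ z ∈ iv K M.2.2, nsq ((av R h.2.2 x0 (k + l) z x - av R h.2.2 x0 (k + l + 1) z x) *ᵥ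
      C x0 k z x) ≤ X
  /-- the products of lag `l`, time `k` -/
  q2L : ∀ l : ℕ, ∑ t ∈ rt M, ∑ x0 ∈ iv K t, ∑ k ∈ range (K - l), ∑ x ∈ iv K M.1,
    ∑ z ∈ iv K M.2.2, nsq ((av R h.2.2 x0 (k + l) z x - av R h.2.2 x0 (k + l + 1) z x) *ᵥ
      (av R h.2.2 x0 (k + l + 1) z x *ᵥ C x0 k z x)) ≤ X
  /-- the points over a packed family of cubes, time `k + 1`, slot of scale `k + 1 + l` -/
  afL : ∀ l : ℕ, ∀ (S Q : ℕ → Pt → Prop) (P : ℝ), 0 ≤ P → GPack Q K P →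
    (∀ k < K, ∀ y : Pt, S k y → Q k (cx k y)) →
    ∑ t ∈ rt M, ∑ x0 ∈ iv K t, ∑ k ∈ range (K - l), ∑ x ∈ iv K M.1, ∑ z ∈ iv K M.2.2,
      (if S k (x0, x, z) then
        nsq (av R h.2.2 x0 (k + 1 + l) z x *ᵥ C x0 (k + 1) z x) else 0) ≤ (1 + P) * X

theorem NumX.mono {K : ℕ} {M : Pt} {R : Slt ι} {C : FamV ι} {h : Pt} {X Y : ℝ}
    (H : NumX K M R C h X) (hXY : X ≤ Y) : NumX K M R C h Y := by
  obtain ⟨E, h0, h1, h2⟩ := H.en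
  exact ⟨⟨E, h0, h1.trans hXY, h2⟩, H.q.trans hXY, H.q2.trans hXY,
    fun S Q P hP hQ hS => (H.af S Q P hP hQ hS).trans
      (mul_le_mul_of_nonneg_left hXY (by linarith)),
    fun l => (H.qL l).trans hXY, fun l => (H.q2L l).trans hXY,
    fun l S Q P hP hQ hS => (H.afL l S Q P hP hQ hS).trans
      (mul_le_mul_of_nonneg_left hXY (by linarith))⟩

/-- the squares of the shifted grid which meet a packed family of squares -/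
theorem NumX.af_sq {K : ℕ} {M : Pt} {R : Slt ι} {C : FamV ι} {h : Pt} {X : ℝ}
    (H : NumX K M R C h X) {Q : ℕ → Pt → Prop} {P : ℝ} (hP : 0 ≤ P) (hQ : GPack Q K P) :
    ∑ t ∈ rt M, ∑ x0 ∈ iv K t, ∑ k ∈ range K, ∑ x ∈ iv K M.1, ∑ z ∈ iv K M.2.2,
      (if sq Q h.1 h.2.2 k (x0, x, z) then
        nsq (av R h.2.2 x0 k z x *ᵥ C x0 (k + 1) z x) else 0) ≤ (1 + 81 * P) * X :=
  H.af (sq Q h.1 h.2.2) (H782.nb Q) (81 * P) (by positivity) (H782.nb_pack hQ)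
    fun _ _ _ hk => H782.sq_nb hk

/-- the mean over the shifted cell in the letters of `H841.Lay` -/
theorem av_Rs {K : ℕ} {o : ℤ} {l : ℝ} {u : ℤ → ℤ → ι → ℝ} {R : Slt ι}
    {s : ℤ → ℕ → ℤ → ℤ → ℝ}
    (hR : ∀ x0 j z x1, R x0 j z x1 = H841.Rm (MT l (KT l u x1)) o x1 (s x1) K j x0 z)
    (h x0 : ℤ) (k : ℕ) (z x : ℤ) :
    av R h x0 k z x = H841.Rs (MT l (KT l u x)) o x (s x) K h k x0 (ix k (z - h)) := by
  unfold av H841.Rs H43.avv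
  simp only [hR]

/-- **The numbers of every slot.** -/
def SlotNum (D : Bun) : Prop :=
  ∀ a : ℝ, 0 < a → a ≤ 1 →
  ∃ es : ℝ, 0 < es ∧ es ≤ 1 ∧ ∀ e0 : ℝ, 0 < e0 → e0 ≤ es →
  ∃ k8s : ℝ, 0 < k8s ∧ ∀ k8 : ℝ, 0 < k8 → k8 ≤ k8s →
  ∃ k3s : ℝ, 0 < k3s ∧ ∀ k3 : ℝ, 0 < k3 → k3 ≤ k3s →
  ∃ (p : ℕ) (θ b c1 d1 : ℝ), 0 < θ ∧ 0 ≤ b ∧ 0 < c1 ∧ 0 < d1 ∧
  ∀ c : ℝ, 0 ≤ c → c ≤ c1 → ∀ d : ℝ, 0 < d → d ≤ d1 →
  ∀ Kt e cP L : ℝ, 0 < Kt → 1 ≤ e → 0 ≤ cP → 1 ≤ L → ∀ CD : ℝ, 1 ≤ CD → ∃ C : ℝ, 0 ≤ C ∧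
  ∀ t : ℝ, 0 < t → t ≤ 1 → ∀ (n : ℕ) (ez : ℝ) (F1 F2 F3 : ℕ → Pt → ℝ),
    US n (Kt * t ^ (1 - c)) e cP F1 → US n (Kt * t ^ (1 - c)) e cP F3 → ES n ez cP F2 →
  ∀ o : ℤ, o = 1 ∨ o = -1 → ∀ K ≤ n, ∀ (x : Pt) (ι : Type) [Fintype ι] [DecidableEq ι]
    (s r : ℝ) (U : Tri) (g : ℤ → ℤ → ℝ) (u v : ℤ → ℤ → ι → ℝ), 0 < s → 1 ≤ r →
    ClsM K x s r (L * t ^ (2 - c) * √s) (kapM L t a s r) U g u v →
    ∀ (A : FamA) (b' C' : FamV ι),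
      D ι ⟨a, e0, k8, k3, c, d, Kt, e, cP, L, CD, t⟩ n ez F1 F2 F3 o K x s r U g u v A b' C' →
    ∀ (R : Slt ι) (κ E : ℝ), 1 ≤ κ → 0 < E → E ≤ L + 3780000 →
      SlotN ((⟨a, e0, k8, k3, c, d, Kt, e, cP, L, CD, t⟩ : H401.Num).al U K) o K (cx K x)
        ((⟨a, e0, k8, k3, c, d, Kt, e, cP, L, CD, t⟩ : H401.Num).lam s r) u R κ E →
    ∀ h ∈ cb K 0, NumX K (cx K x) R C' h
      (C * ((1 + Real.log κ + Real.log (r / t)) ^ p * E ^ θ *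
        ((t / r) ^ (e0 / 2) * t ^ (-(b * (c + d))) * (ez * s) * 8 ^ K)))

end

end Vale.Agent.P141.H677.Sk
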