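import Vale.Agent.P141.H677.RawFD

/-!
# P141, line (A): the raw bounds with a constant in front

* `exists_L0` : `c (1 + L)^q ≤ 2^L` for some `L`;
* `Raw.absorb` : a factor of the unit `D` goes into the constant `A`;
* `RawFieldC Ψ` : `RawField` with the unit `Bf (cst q) * (ez * s * 8 ^ K)`; `RawFieldC.toR`.
-/

namespace Vale.Agent.P141.H677.Sk

open Finset Matrix
open Vale.Agent.P141.PL (Pt iv cb cx)
open Vale.Agent.P141.PL.H315 (Tri)

noncomputable section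

open scoped Classical

set_option linter.unusedSectionVars false

theorem exists_L0 (q : ℕ) (c : ℝ) : ∃ L : ℕ, c * (1 + (L : ℝ)) ^ q ≤ 2 ^ L := by
  have h1 := tendsto_pow_const_div_const_pow_of_one_lt q (r := (2 : ℝ)) (by norm_num)
  have h2 : Filter.Tendsto (fun n : ℕ => (2 * |c|) * (((n : ℝ)) ^ q / 2 ^ n)) Filter.atTop
      (nhds ((2 * |c|) * 0)) := h1.const_mul _
  rw [mul_zero] at h2
  have h3 := (Filter.tendsto_add_atTop_iff_nat 1).2 h2
  obtain ⟨L, hL⟩ := ((h3.eventually (gt_mem_nhds one_pos))).exists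
  refine ⟨L, ?_⟩
  have e1 : (((L + 1 : ℕ) : ℝ)) = 1 + (L : ℝ) := by push_cast; ring
  rw [e1] at hL
  have h4 : (0 : ℝ) < 2 ^ L := by positivity
  have h5 : 0 ≤ (1 + (L : ℝ)) ^ q := by positivity
  have h6 : 2 * |c| * ((1 + (L : ℝ)) ^ q / 2 ^ (L + 1)) = |c| * (1 + (L : ℝ)) ^ q / 2 ^ L := by
    rw [pow_succ]
    field_simp
  rw [h6, div_lt_one h4] at hL
  exact (mul_le_mul_of_nonneg_right (le_abs_self c) h5).trans hL.le

/-- **A factor of the unit goes into the constant.** -/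
theorem Raw.absorb {q : ℕ} {C0 C1 A b y e0 κ E c D X : ℝ}
    (H : Raw q C0 C1 A b y e0 κ E (c * D) X) (hc : 1 ≤ c) (hA : 0 ≤ A) (hb : 0 ≤ b) (hy : 0 < y)
    (hE : 0 ≤ E) (hD : 0 ≤ D) {L0 : ℕ} (hL0 : c * (1 + (L0 : ℝ)) ^ q ≤ 2 ^ L0) :
    Raw q C0 C1 ((2 ^ L0) ^ 2 * A) b y e0 κ E D X := by
  have y0 : 0 < y ^ e0 := Real.rpow_pos_of_pos hy _
  have y1 : 0 < y ^ (-C0) := Real.rpow_pos_of_pos hy _
  have y2 : 0 < y ^ (-C1) := Real.rpow_pos_of_pos hy _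
  have hc0 : 0 ≤ c := by linarith
  set B : ℝ := 2 ^ L0 with hB
  have hB1 : 1 ≤ B := one_le_pow₀ (by norm_num)
  have hBB : B ≤ B ^ 2 := by nlinarith
  have key : ∀ L : ℕ, c * (1 + ((L + L0 : ℕ) : ℝ)) ^ q ≤ (1 + (L : ℝ)) ^ q * B := by
    intro L
    have h1 : (1 + ((L + L0 : ℕ) : ℝ)) ^ q ≤ ((1 + (L : ℝ)) * (1 + (L0 : ℝ))) ^ q := by
      refine pow_le_pow_left₀ (by positivity) ?_ q
      push_cast
      have : (0 : ℝ) ≤ (L : ℝ) * L0 := by positivity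
      nlinarith
    calc c * (1 + ((L + L0 : ℕ) : ℝ)) ^ q ≤ c * ((1 + (L : ℝ)) * (1 + (L0 : ℝ))) ^ q :=
          mul_le_mul_of_nonneg_left h1 hc0
      _ = (1 + (L : ℝ)) ^ q * (c * (1 + (L0 : ℝ)) ^ q) := by rw [mul_pow]; ring
      _ ≤ _ := mul_le_mul_of_nonneg_left hL0 (by positivity)
  have e2 : ∀ L : ℕ, (2 : ℝ) ^ (L + L0) = 2 ^ L * B := fun L => by rw [pow_add]
  refine ⟨fun L => ?_, fun L δ hδ => ?_⟩
  · refine (H.blind (L + L0)).trans ?_
    rw [e2]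
    have i0 : 0 ≤ b * A * y ^ e0 + (1 + κ) ^ 2 * y ^ (-C0) / (2 ^ L * B) := by positivity
    calc c * D * ((1 + ((L + L0 : ℕ) : ℝ)) ^ q *
          (b * A * y ^ e0 + (1 + κ) ^ 2 * y ^ (-C0) / (2 ^ L * B)))
        = D * ((c * (1 + ((L + L0 : ℕ) : ℝ)) ^ q) *
          (b * A * y ^ e0 + (1 + κ) ^ 2 * y ^ (-C0) / (2 ^ L * B))) := by ring
      _ ≤ D * (((1 + (L : ℝ)) ^ q * B) *
          (b * A * y ^ e0 + (1 + κ) ^ 2 * y ^ (-C0) / (2 ^ L * B))) :=
          mul_le_mul_of_nonneg_left (mul_le_mul_of_nonneg_right (key L) i0) hD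
      _ = D * ((1 + (L : ℝ)) ^ q * (B * (b * A * y ^ e0) + (1 + κ) ^ 2 * y ^ (-C0) / 2 ^ L)) := by
          field_simp
      _ ≤ _ := by
          refine mul_le_mul_of_nonneg_left (mul_le_mul_of_nonneg_left ?_ (by positivity)) hD
          refine add_le_add ?_ le_rfl
          have h7 : 0 ≤ b * A * y ^ e0 := by positivity
          calc B * (b * A * y ^ e0) ≤ B ^ 2 * (b * A * y ^ e0) :=
                mul_le_mul_of_nonneg_right hBB h7
            _ = _ := by ring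
  · have hδ' : 0 < B * δ := by positivity
    refine (H.signed (L + L0) (B * δ) hδ').trans ?_
    rw [e2]
    have i0 : 0 ≤ A * (B * δ) + y ^ (-C1) * E / (B * δ) + A * E +
        (1 + κ) ^ 2 * y ^ (-C1) * (1 + 1 / (B * δ)) / (2 ^ L * B) := by positivity
    calc c * D * ((1 + ((L + L0 : ℕ) : ℝ)) ^ q * (A * (B * δ) + y ^ (-C1) * E / (B * δ) + A * E +
          (1 + κ) ^ 2 * y ^ (-C1) * (1 + 1 / (B * δ)) / (2 ^ L * B)))
        = D * ((c * (1 + ((L + L0 : ℕ) : ℝ)) ^ q) * (A * (B * δ) + y ^ (-C1) * E / (B * δ) +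
          A * E + (1 + κ) ^ 2 * y ^ (-C1) * (1 + 1 / (B * δ)) / (2 ^ L * B))) := by ring
      _ ≤ D * (((1 + (L : ℝ)) ^ q * B) * (A * (B * δ) + y ^ (-C1) * E / (B * δ) +
          A * E + (1 + κ) ^ 2 * y ^ (-C1) * (1 + 1 / (B * δ)) / (2 ^ L * B))) :=
          mul_le_mul_of_nonneg_left (mul_le_mul_of_nonneg_right (key L) i0) hD
      _ = D * ((1 + (L : ℝ)) ^ q * (B ^ 2 * A * δ + y ^ (-C1) * E / δ + B * (A * E) +
          (1 + κ) ^ 2 * y ^ (-C1) * (1 + 1 / (B * δ)) / 2 ^ L)) := by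
          field_simp
      _ ≤ _ := by
          refine mul_le_mul_of_nonneg_left (mul_le_mul_of_nonneg_left ?_ (by positivity)) hD
          refine add_le_add (add_le_add le_rfl ?_) ?_
          · calc B * (A * E) ≤ B ^ 2 * (A * E) :=
                  mul_le_mul_of_nonneg_right hBB (mul_nonneg hA hE)
              _ = _ := by ring
          · refine div_le_div_of_nonneg_right ?_ (by positivity)
            refine mul_le_mul_of_nonneg_left ?_ (by positivity)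
            refine add_le_add le_rfl ?_
            exact one_div_le_one_div_of_le hδ (by nlinarith)

/-- **`RawField` with a constant in front.** -/
def RawFieldC (Ψ : FldT) : Prop :=
  ∃ (q0 : ℕ) (C0 C1 : ℝ) (Af Bf : H401.Num → ℝ), ∀ (ι : Type) [Fintype ι] [DecidableEq ι]
    (q : H401.Num) (n : ℕ) (ez : ℝ) (F1 F2 F3 : ℕ → Pt → ℝ) (o : ℤ) (K : ℕ) (x : Pt) (s r : ℝ)
    (U : Tri) (g : ℤ → ℤ → ℝ) (u v : ℤ → ℤ → ι → ℝ) (A : FamA) (b C : FamV ι) (R : Slt ι)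
    (κ E : ℝ), SDat q n ez F1 F2 F3 o K x s r U g u v A b C R κ E → ∀ h ∈ cb K 0,
    0 ≤ Bf (cst q) ∧ Ψ ι K (cx K x) R C h
      (Raw q0 C0 C1 (Af (cst q)) (q.t ^ (-q.c)) (q.t / r) q.e0 κ E
        (Bf (cst q) * (ez * s * 8 ^ K)))

theorem RawFieldC.toR {Ψ : FldT} (m : MonoF Ψ) (H : RawFieldC Ψ) : RawField Ψ := by
  obtain ⟨q0, C0, C1, Af, Bf, H⟩ := H
  choose L0 hL0 using fun c : ℝ => exists_L0 q0 c
  refine ⟨q0, C0, C1, fun p => (2 ^ L0 (max 1 (Bf p))) ^ 2 * max 0 (Af p), ?_⟩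
  intro ι _ _ q n ez F1 F2 F3 o K x s r U g u v A b C R κ E hS h hh
  have hr0 : 0 < r := by linarith [hS.r1]
  have hy : 0 < q.t / r := div_pos hS.t0 hr0
  have hb : 0 ≤ q.t ^ (-q.c) := Real.rpow_nonneg hS.t0.le _
  have hez : 0 ≤ ez := hS.hF2.1
  have hs0 : 0 ≤ s := hS.s0.le
  have hD0 : 0 ≤ ez * s * 8 ^ K := by positivity
  obtain ⟨hB, HΨ⟩ := H ι q n ez F1 F2 F3 o K x s r U g u v A b C R κ E hS h hh
  refine m ι K (cx K x) R C h _ _ (fun X hX => ?_) HΨ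
  have hX1 := hX.up (A' := max 0 (Af (cst q))) (le_max_right _ _) hb hy hS.E0.le
    (mul_nonneg hB hD0)
  have hX2 : Raw q0 C0 C1 (max 0 (Af (cst q))) (q.t ^ (-q.c)) (q.t / r) q.e0 κ E
      (max 1 (Bf (cst q)) * (ez * s * 8 ^ K)) X := by
    have y0 : 0 < (q.t / r) ^ q.e0 := Real.rpow_pos_of_pos hy _
    have y1 : 0 < (q.t / r) ^ (-C0) := Real.rpow_pos_of_pos hy _
    have y2 : 0 < (q.t / r) ^ (-C1) := Real.rpow_pos_of_pos hy _
    have hE0 := hS.E0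
    have hm : 0 ≤ max 0 (Af (cst q)) := le_max_left _ _
    have hBm : Bf (cst q) * (ez * s * 8 ^ K) ≤ max 1 (Bf (cst q)) * (ez * s * 8 ^ K) :=
      mul_le_mul_of_nonneg_right (le_max_right _ _) hD0
    exact ⟨fun L => (hX1.blind L).trans (mul_le_mul_of_nonneg_right hBm (by positivity)),
      fun L δ hδ => (hX1.signed L δ hδ).trans (mul_le_mul_of_nonneg_right hBm (by positivity))⟩
  exact hX2.absorb (le_max_left _ _) (le_max_left _ _) hb hy hS.E0.le hD0 (hL0 _)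

/-- **The numbers of every slot from the seven fields**, constants in front allowed. -/
theorem slotNum_FDU' (en : RawFieldC FEn) (q : RawFieldC FQ) (q2 : RawFieldC FQ2)
    (af : RawFieldC FAf) (qL : RawFieldC FQL) (q2L : RawFieldC FQ2L) (afL : RawFieldC FAfL) :
    SlotNum H204.Fib.FDU :=
  slotNum_FDU (en.toR mono_FEn) (q.toR mono_FQ) (q2.toR mono_FQ2) (af.toR mono_FAf)
    (qL.toR mono_FQL) (q2L.toR mono_FQ2L) (afL.toR mono_FAfL)

end

end Vale.Agent.P141.H677.Sk
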