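import Vale.Agent.P141.H136.Scal3
import Vale.Agent.P141.H572.CE0
import Vale.Agent.P141.H483.Chain
import Vale.Agent.P141.H971.Cen

/-!
# P141, line (A), T7a: from `cosF` to the three pieces

Coordinates of the label space, the tree data of the label matrices, the splitting of a node and
of the cost of a centre function.
-/

namespace Vale.Agent.P141.H677

open Finset Matrix
open Vale.Agent.P141.PL (Pt loc prd iv hs ix)
open Vale.Agent.P141.PL.H560 (cbs bx0)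
open Vale.Agent.P141.H572 (cosF)
open Vale.Agent.P141.H971 (Cen)
open Vale.Agent.P141.H420 (Tr)
open Vale.Agent.P141.H483 (hd ze xiT)
open Vale.Agent.P141.H922 (n2)
open Vale.Agent.P141.H834 (gf)
open Vale.Agent.P141.PL.H315 (avg)

noncomputable section

/-! ### Coordinates -/

section coord

variable {V : Type*} [NormedAddCommGroup V] [InnerProductSpace ℝ V] [FiniteDimensional ℝ V]

/-- labels of a finite dimensional space -/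
abbrev Lab (V : Type*) [NormedAddCommGroup V] [InnerProductSpace ℝ V] : Type :=
  Fin (Module.finrank ℝ V)

/-- coordinates in an orthonormal basis -/
def cv (w : V) : Lab V → ℝ := fun i => (stdOrthonormalBasis ℝ V).repr w i

theorem inner_cv (a b : V) : inner ℝ a b = cv a ⬝ᵥ cv b := by
  rw [← (stdOrthonormalBasis ℝ V).repr.inner_map_map a b]
  simp only [PiLp.inner_apply, dotProduct, cv]
  refine sum_congr rfl fun i _ => ?_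
  simp [mul_comm]

theorem norm_cv (a : V) : ‖a‖ ^ 2 = cv a ⬝ᵥ cv a := by
  rw [← inner_cv, real_inner_self_eq_norm_sq]

/-- every vector of coordinates comes from a vector -/
theorem cv_surj (w : Lab V → ℝ) : ∃ a : V, cv a = w :=
  ⟨(stdOrthonormalBasis ℝ V).repr.symm (WithLp.toLp 2 w), by
    funext i
    simp [cv]⟩

theorem comp_eq (g : ℤ × ℤ → ℝ) (u v : ℤ → ℤ → V) (y : ℤ × ℤ × ℤ) :
    H136.comp g u v y = g y.2 * (cv (u y.1 y.2.1) ⬝ᵥ cv (v y.1 y.2.2)) := by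
  unfold H136.comp
  rw [inner_cv]

end coord

/-! ### Means on the dyadic tree -/

section mean

variable {β : Type*} [AddCommGroup β] [Module ℝ β]

/-- the mean over the cell `(j, i)` -/
def mT (f : ℤ → β) (j : ℕ) (i : ℤ) : β := ((2 : ℝ) ^ j)⁻¹ • ∑ x ∈ iv j i, f x

omit [Module ℝ β] in
theorem sum_halves (k : ℕ) (m : ℤ) (f : ℤ → β) :
    ∑ x ∈ iv (k + 1) m, f x = ∑ x ∈ iv k (2 * m), f x + ∑ x ∈ iv k (2 * m + 1), f x := by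
  rw [H971.iv_succ, sum_union (H971.disj_halves k m)]

theorem mT_succ (f : ℤ → β) (k : ℕ) (m : ℤ) :
    mT f (k + 1) m = (1 / 2 : ℝ) • (mT f k (2 * m) + mT f k (2 * m + 1)) := by
  unfold mT
  rw [sum_halves, pow_succ, mul_inv, ← smul_add, smul_smul]
  norm_num [mul_comm]

theorem hs_left {k : ℕ} {m x : ℤ} (hx : x ∈ iv k (2 * m)) : hs (k + 1) x = 1 := by
  rw [PL.mem_iv] at hx
  unfold PL.hs
  rw [Nat.add_sub_cancel, hx, if_pos (by omega)]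

theorem hs_right {k : ℕ} {m x : ℤ} (hx : x ∈ iv k (2 * m + 1)) : hs (k + 1) x = -1 := by
  rw [PL.mem_iv] at hx
  unfold PL.hs
  rw [Nat.add_sub_cancel, hx, if_neg (by omega)]

/-- the Haar mean is the half difference of the children -/
theorem mT_hs (f : ℤ → β) {k : ℕ} (hk : 1 ≤ k) (m : ℤ) :
    mT (fun x => hs k x • f x) k m = hd (mT f) k m := by
  obtain ⟨k, rfl⟩ : ∃ j, k = j + 1 := ⟨k - 1, by omega⟩
  unfold H483.hd
  rw [Nat.add_sub_cancel]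
  unfold mT
  rw [sum_halves, sum_congr rfl fun x hx => by rw [hs_left hx, one_smul],
    sum_congr (s₁ := iv k (2 * m + 1)) rfl fun x hx => by rw [hs_right hx, neg_one_smul],
    sum_neg_distrib, ← sub_eq_add_neg, pow_succ, mul_inv, ← smul_sub, smul_smul]
  norm_num [mul_comm]

end mean

/-! ### Tree data -/

variable {ι : Type*} [Fintype ι] [DecidableEq ι]

/-- label matrix of the row `x1` on the `x2`-cell `(k, m)` -/
def GT (u : ℤ → ℤ → ι → ℝ) (x1 : ℤ) (k : ℕ) (m : ℤ) : Matrix ι ι ℝ :=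
  mT (fun x2 => vecMulVec (u x1 x2) (u x1 x2)) k m

omit [DecidableEq ι] in
theorem GT_form (u : ℤ → ℤ → ι → ℝ) (x1 : ℤ) (k : ℕ) (m : ℤ) (w : ι → ℝ) :
    w ⬝ᵥ GT u x1 k m *ᵥ w = ((2 : ℝ) ^ k)⁻¹ * ∑ x2 ∈ iv k m, (u x1 x2 ⬝ᵥ w) ^ 2 := by
  unfold GT mT
  rw [smul_mulVec, dotProduct_smul, smul_eq_mul, sum_mulVec, dotProduct_sum]
  congr 1
  refine sum_congr rfl fun x _ => ?_
  rw [vecMulVec_mulVec, op_smul_eq_smul, dotProduct_smul, smul_eq_mul, sq, dotProduct_comm w]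

omit [DecidableEq ι] in
theorem GT_trace (u : ℤ → ℤ → ι → ℝ) (x1 : ℤ) (k : ℕ) (m : ℤ) :
    (GT u x1 k m).trace = ((2 : ℝ) ^ k)⁻¹ * ∑ x2 ∈ iv k m, u x1 x2 ⬝ᵥ u x1 x2 := by
  unfold GT mT
  rw [trace_smul, smul_eq_mul, trace_sum]
  simp only [trace_vecMulVec]

omit [DecidableEq ι] in
theorem GT_psd (u : ℤ → ℤ → ι → ℝ) (x1 : ℤ) (k : ℕ) (m : ℤ) : (GT u x1 k m).PosSemidef := by
  unfold GT mT
  refine PosSemidef.smul ?_ (by positivity)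
  refine posSemidef_sum _ fun x _ => ?_
  have h := posSemidef_vecMulVec_self_star (u x1 x)
  simpa using h

theorem exists_K {l : ℝ} (hl : 0 < l) (u : ℤ → ℤ → ι → ℝ) (x1 : ℤ) (k : ℕ) (m : ℤ) :
    ∃ K : Matrix ι ι ℝ, K.PosDef ∧ K * K = l • (1 : Matrix ι ι ℝ) + GT u x1 k m :=
  H186.exists_sqrt ((PosDef.one.smul hl).add_posSemidef (GT_psd u x1 k m))

open scoped Classical in
/-- the square root of `l + GT` -/
def KT (l : ℝ) (u : ℤ → ℤ → ι → ℝ) (x1 : ℤ) (k : ℕ) (m : ℤ) : Matrix ι ι ℝ :=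
  if h : ∃ K : Matrix ι ι ℝ, K.PosDef ∧ K * K = l • (1 : Matrix ι ι ℝ) + GT u x1 k m then
    Classical.choose h else 1

theorem KT_spec {l : ℝ} (hl : 0 < l) (u : ℤ → ℤ → ι → ℝ) (x1 : ℤ) (k : ℕ) (m : ℤ) :
    (KT l u x1 k m).PosDef ∧
      KT l u x1 k m * KT l u x1 k m = l • (1 : Matrix ι ι ℝ) + GT u x1 k m := by
  have h := exists_K hl u x1 k m
  unfold KT
  rw [dif_pos h]
  exact Classical.choose_spec h

/-- **The tree of the label matrices.** -/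
theorem tr_T {l : ℝ} (hl : 0 < l) (n : ℕ) (u : ℤ → ℤ → ι → ℝ) (x1 : ℤ) :
    Tr l n (GT u x1) (KT l u x1) where
  l_pos := hl
  psG k m := GT_psd u x1 k m
  pdK k m := (KT_spec hl u x1 k m).1
  sq k m := (KT_spec hl u x1 k m).2
  mean k _ m := mT_succ _ k m

/-! ### The averages `q` -/

/-- the label vector of the `x2`-cell `(j, i)` at the points `x0, x1, x3` -/
def qT (g : ℤ × ℤ → ℝ) (F1 F3 : Pt → ℝ) (u : ℤ → ℤ → ι → ℝ) (x0 x1 x3 : ℤ) (j : ℕ) (i : ℤ) :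
    ι → ℝ :=
  mT (fun x2 => (g (x2, x3) * F1 (x0, x2, x3) * F3 (x0, x1, x2)) • u x1 x2) j i

omit [Fintype ι] [DecidableEq ι] in
theorem qT_succ (g : ℤ × ℤ → ℝ) (F1 F3 : Pt → ℝ) (u : ℤ → ℤ → ι → ℝ) (x0 x1 x3 : ℤ) (j : ℕ)
    (i : ℤ) : qT g F1 F3 u x0 x1 x3 (j + 1) i =
      (1 / 2 : ℝ) • (qT g F1 F3 u x0 x1 x3 j (2 * i) + qT g F1 F3 u x0 x1 x3 j (2 * i + 1)) :=
  mT_succ _ j i

/-- the soft target `√l K⁻¹ w` at the cell `(k, m)` -/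
def ST (l : ℝ) (K : ℕ → ℤ → Matrix ι ι ℝ) (w : ι → ℝ) (k : ℕ) (m : ℤ) : ι → ℝ :=
  √l • ((K k m)⁻¹ *ᵥ w)

/-- algebra of one node -/
theorem three {l : ℝ} {K D : Matrix ι ι ℝ} (hK : K.IsHermitian) (hD : D.IsHermitian)
    (v q dq : ι → ℝ) :
    v ⬝ᵥ dq = (v - √l • (K⁻¹ *ᵥ v)) ⬝ᵥ dq + v ⬝ᵥ (√l • (K⁻¹ *ᵥ (dq - D *ᵥ (K⁻¹ *ᵥ q)))) +
      (√l • (K⁻¹ *ᵥ (D *ᵥ (K⁻¹ *ᵥ v)))) ⬝ᵥ q := by
  have hKi : (K⁻¹).IsHermitian := hK.inv
  have e1 : v ⬝ᵥ K⁻¹ *ᵥ dq = (K⁻¹ *ᵥ v) ⬝ᵥ dq := by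
    rw [H186.form_comm hKi, dotProduct_comm]
  have e2 : v ⬝ᵥ K⁻¹ *ᵥ (D *ᵥ (K⁻¹ *ᵥ q)) = (K⁻¹ *ᵥ (D *ᵥ (K⁻¹ *ᵥ v))) ⬝ᵥ q := by
    rw [H186.form_comm hKi v, dotProduct_comm (D *ᵥ (K⁻¹ *ᵥ q)), H186.form_comm hD,
      dotProduct_comm (K⁻¹ *ᵥ q), H186.form_comm hKi, dotProduct_comm q]
  rw [sub_dotProduct, smul_dotProduct, smul_dotProduct, dotProduct_smul, mulVec_sub, dotProduct_sub,
    e1, e2]
  simp only [smul_eq_mul]
  ring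

theorem hd_herm {l : ℝ} {n : ℕ} {G K : ℕ → ℤ → Matrix ι ι ℝ} (h : Tr l n G K) (k : ℕ) (m : ℤ) :
    (hd K k m).IsHermitian := by
  unfold H483.hd
  have h1 := (h.pdK (k - 1) (2 * m)).isHermitian
  have h2 := (h.pdK (k - 1) (2 * m + 1)).isHermitian
  unfold Matrix.IsHermitian at *
  rw [conjTranspose_smul, conjTranspose_sub, h1, h2]
  simp

/-! ### One node -/

/-- the sum over the three free variables of a node, weight `F2` and the three signs -/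
def nodeS (o : ℤ) (k : ℕ) (m : Pt) (F2 : Pt → ℝ) (Φ : ℤ → ℤ → ℤ → ℝ) : ℝ :=
  ∑ x0 ∈ iv k (bx0 o m).1, ∑ x1 ∈ iv k m.1, ∑ x3 ∈ iv k m.2.2,
    hs k x0 * hs k x1 * hs k x3 * (F2 (x0, x1, x3) * Φ x0 x1 x3)

omit [Fintype ι] [DecidableEq ι] in
theorem nodeS_add (o : ℤ) (k : ℕ) (m : Pt) (F2 : Pt → ℝ) (Φ Ψ : ℤ → ℤ → ℤ → ℝ) :
    nodeS o k m F2 (fun x0 x1 x3 => Φ x0 x1 x3 + Ψ x0 x1 x3) =
      nodeS o k m F2 Φ + nodeS o k m F2 Ψ := by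
  unfold nodeS
  simp only [← sum_add_distrib]
  refine sum_congr rfl fun x0 _ => sum_congr rfl fun x1 _ => sum_congr rfl fun x3 _ => ?_
  ring

omit [DecidableEq ι] in
/-- the node of a centre function in the letters `q` -/
theorem loc_eq (o : ℤ) {k : ℕ} (hk : 1 ≤ k) (m : Pt) (g : ℤ × ℤ → ℝ) (u v : ℤ → ℤ → ι → ℝ)
    (F1 F2 F3 : Pt → ℝ) :
    ((2 : ℝ) ^ k)⁻¹ * loc k (bx0 o m) (fun y => g y.2 * (u y.1 y.2.1 ⬝ᵥ v y.1 y.2.2)) F1 F2 F3 =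
      nodeS o k m F2 fun x0 x1 x3 => v x1 x3 ⬝ᵥ hd (qT g F1 F3 u x0 x1 x3) k m.2.1 := by
  unfold PL.loc nodeS
  rw [mul_sum]
  refine sum_congr rfl fun x0 _ => ?_
  rw [mul_sum]
  refine sum_congr rfl fun x1 _ => ?_
  rw [show (bx0 o m).2.2.2 = m.2.2 from rfl, show (bx0 o m).2.2.1 = m.2.1 from rfl, sum_comm,
    mul_sum]
  refine sum_congr rfl fun x3 _ => ?_
  have h1 : hd (qT g F1 F3 u x0 x1 x3) k m.2.1 = mT (fun x2 => hs k x2 •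
      ((g (x2, x3) * F1 (x0, x2, x3) * F3 (x0, x1, x2)) • u x1 x2)) k m.2.1 := by
    rw [mT_hs _ hk]
    rfl
  beta_reduce
  rw [h1]
  unfold mT
  rw [dotProduct_smul, dotProduct_sum, smul_eq_mul]
  simp only [mul_sum]
  refine sum_congr rfl fun x2 _ => ?_
  rw [dotProduct_smul, dotProduct_smul, smul_eq_mul, smul_eq_mul, dotProduct_comm (v x1 x3)]
  unfold PL.prd
  ring

/-- increasing part -/
def fI (l : ℝ) (g : ℤ × ℤ → ℝ) (u v : ℤ → ℤ → ι → ℝ) (F1 F3 : Pt → ℝ) (k : ℕ) (m2 : ℤ)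
    (x0 x1 x3 : ℤ) : ℝ :=
  (v x1 x3 - ST l (KT l u x1) (v x1 x3) k m2) ⬝ᵥ hd (qT g F1 F3 u x0 x1 x3) k m2

/-- gap part -/
def fZ (l : ℝ) (g : ℤ × ℤ → ℝ) (u v : ℤ → ℤ → ι → ℝ) (F1 F3 : Pt → ℝ) (k : ℕ) (m2 : ℤ)
    (x0 x1 x3 : ℤ) : ℝ :=
  v x1 x3 ⬝ᵥ ST l (KT l u x1) (ze (KT l u x1) (qT g F1 F3 u x0 x1 x3) k m2) k m2

/-- flow part -/
def fF (l : ℝ) (g : ℤ × ℤ → ℝ) (u v : ℤ → ℤ → ι → ℝ) (F1 F3 : Pt → ℝ) (k : ℕ) (m2 : ℤ)
    (x0 x1 x3 : ℤ) : ℝ :=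
  xiT l (KT l u x1) (v x1 x3) k m2 ⬝ᵥ qT g F1 F3 u x0 x1 x3 k m2

/-- **A node is the sum of three parts.** -/
theorem node_split {l : ℝ} (hl : 0 < l) (o : ℤ) {k : ℕ} (hk : 1 ≤ k) (m : Pt) (g : ℤ × ℤ → ℝ)
    (u v : ℤ → ℤ → ι → ℝ) (F1 F2 F3 : Pt → ℝ) :
    ((2 : ℝ) ^ k)⁻¹ * loc k (bx0 o m) (fun y => g y.2 * (u y.1 y.2.1 ⬝ᵥ v y.1 y.2.2)) F1 F2 F3 =
      nodeS o k m F2 (fI l g u v F1 F3 k m.2.1) + nodeS o k m F2 (fZ l g u v F1 F3 k m.2.1) +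
        nodeS o k m F2 (fF l g u v F1 F3 k m.2.1) := by
  rw [loc_eq o hk, ← nodeS_add, ← nodeS_add]
  unfold nodeS
  refine sum_congr rfl fun x0 _ => sum_congr rfl fun x1 _ => sum_congr rfl fun x3 _ => ?_
  have hT := tr_T hl k u x1
  have h := three (l := l) (hT.pdK k m.2.1).isHermitian (hd_herm hT k m.2.1) (v x1 x3)
    (qT g F1 F3 u x0 x1 x3 k m.2.1) (hd (qT g F1 F3 u x0 x1 x3) k m.2.1)
  beta_reduce
  rw [h]
  rfl

/-! ### The cost -/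

/-- sign of the node in `{-1, 0, 1}` -/
def sgN (o : ℤ) (g : ℤ × ℤ → ℝ) (u v : ℤ → ℤ → ι → ℝ) (F1 F2 F3 : ℕ → Pt → ℝ) (k : ℕ) (m : Pt) :
    ℝ :=
  SignType.sign (loc k (bx0 o m) (fun y => g y.2 * (u y.1 y.2.1 ⬝ᵥ v y.1 y.2.2)) (F1 k) (F2 k)
    (F3 k))

omit [DecidableEq ι] in
theorem abs_sgN_le (o : ℤ) (g : ℤ × ℤ → ℝ) (u v : ℤ → ℤ → ι → ℝ) (F1 F2 F3 : ℕ → Pt → ℝ) (k : ℕ)
    (m : Pt) : |sgN o g u v F1 F2 F3 k m| ≤ 1 := by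
  unfold sgN
  rcases lt_trichotomy (loc k (bx0 o m) (fun y => g y.2 * (u y.1 y.2.1 ⬝ᵥ v y.1 y.2.2)) (F1 k)
    (F2 k) (F3 k)) 0 with h | h | h
  · rw [sign_neg h]; simp
  · rw [h]; simp
  · rw [sign_pos h]; simp

/-- the sum over the nodes of the root cube -/
def nodes (K : ℕ) (x : Pt) (f : ℕ → Pt → ℝ) : ℝ :=
  ∑ k ∈ Icc 1 K, ∑ m ∈ cbs K (PL.cx K x) k, f k m

theorem nodes_add (K : ℕ) (x : Pt) (f g : ℕ → Pt → ℝ) :
    nodes K x (fun k m => f k m + g k m) = nodes K x f + nodes K x g := by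
  unfold nodes
  simp only [← sum_add_distrib]

/-- **The cost in three parts with the signs of the nodes.** -/
theorem cosF_eq {l : ℝ} (hl : 0 < l) (o : ℤ) (K : ℕ) (x : Pt) (g : ℤ × ℤ → ℝ)
    (u v : ℤ → ℤ → ι → ℝ) (F1 F2 F3 : ℕ → Pt → ℝ) :
    cosF o K x (fun y => g y.2 * (u y.1 y.2.1 ⬝ᵥ v y.1 y.2.2)) (fun k _ => F1 k)
        (fun k _ => F2 k) (fun k _ => F3 k) =
      nodes K x (fun k m => sgN o g u v F1 F2 F3 k m *
        nodeS o k m (F2 k) (fI l g u v (F1 k) (F3 k) k m.2.1)) +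
      nodes K x (fun k m => sgN o g u v F1 F2 F3 k m *
        nodeS o k m (F2 k) (fZ l g u v (F1 k) (F3 k) k m.2.1)) +
      nodes K x (fun k m => sgN o g u v F1 F2 F3 k m *
        nodeS o k m (F2 k) (fF l g u v (F1 k) (F3 k) k m.2.1)) := by
  rw [← nodes_add, ← nodes_add]
  unfold H572.cosF nodes
  refine sum_congr rfl fun k hk => ?_
  rw [mul_sum]
  refine sum_congr rfl fun m _ => ?_
  have hk1 := (mem_Icc.1 hk).1
  beta_reduce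
  rw [← mul_add, ← mul_add, ← node_split hl o hk1 m g u v (F1 k) (F2 k) (F3 k)]
  unfold sgN
  rw [mul_left_comm, sign_mul_self]

/-- **The cost in three parts.** -/
theorem cosF_split {l : ℝ} (hl : 0 < l) (o : ℤ) (K : ℕ) (x : Pt) (g : ℤ × ℤ → ℝ)
    (u v : ℤ → ℤ → ι → ℝ) (F1 F2 F3 : ℕ → Pt → ℝ) :
    cosF o K x (fun y => g y.2 * (u y.1 y.2.1 ⬝ᵥ v y.1 y.2.2)) (fun k _ => F1 k)
        (fun k _ => F2 k) (fun k _ => F3 k) ≤
      nodes K x (fun k m => |nodeS o k m (F2 k) (fI l g u v (F1 k) (F3 k) k m.2.1)|) +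
      nodes K x (fun k m => |nodeS o k m (F2 k) (fZ l g u v (F1 k) (F3 k) k m.2.1)|) +
      |nodes K x (fun k m => sgN o g u v F1 F2 F3 k m *
        nodeS o k m (F2 k) (fF l g u v (F1 k) (F3 k) k m.2.1))| := by
  rw [cosF_eq hl]
  have h : ∀ f : ℕ → Pt → ℝ, nodes K x (fun k m => sgN o g u v F1 F2 F3 k m * f k m) ≤
      nodes K x (fun k m => |f k m|) := by
    intro f
    unfold nodes
    refine sum_le_sum fun k _ => sum_le_sum fun m _ => (le_abs_self _).trans ?_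
    rw [abs_mul]
    exact mul_le_of_le_one_left (abs_nonneg _) (abs_sgN_le ..)
  exact add_le_add (add_le_add (h _) (h _)) (le_abs_self _)

/-! ### Centre data in coordinates -/

/-- `Cen` in coordinates -/
structure CenC (A B C : Finset ℤ) (h p e P : ℝ) (a : ℤ → ℤ → ℝ) (u v : ℤ → ℤ → ι → ℝ) : Prop where
  a_le : ∀ x ∈ A, ∀ y ∈ B, |a x y| ≤ h
  a_n2 : n2 (A ×ˢ B) (gf a) ≤ p
  a_row : ∀ x ∈ A, (avg B fun y => a x y ^ 2) ≤ h * p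
  u_le : ∀ z ∈ C, ∀ x ∈ A, u z x ⬝ᵥ u z x ≤ h ^ 2 * e
  v_le : ∀ z ∈ C, ∀ y ∈ B, v z y ⬝ᵥ v z y ≤ h ^ 2 * e
  u_en : (avg C fun z => avg A fun x => u z x ⬝ᵥ u z x) ≤ e * p ^ 2
  v_en : (avg C fun z => avg B fun y => v z y ⬝ᵥ v z y) ≤ e * p ^ 2
  u_col : ∀ x ∈ A, (avg C fun z => u z x ⬝ᵥ u z x) ≤ e * (h * p)
  u_pot : ∀ z ∈ C, ∀ w : ι → ℝ, (avg A fun x => (u z x ⬝ᵥ w) ^ 2) ≤ P * (w ⬝ᵥ w)
  v_pot : ∀ z ∈ C, ∀ w : ι → ℝ, (avg B fun y => (v z y ⬝ᵥ w) ^ 2) ≤ P * (w ⬝ᵥ w)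

section coord

variable {V : Type*} [NormedAddCommGroup V] [InnerProductSpace ℝ V] [FiniteDimensional ℝ V]

theorem cen_coord {A B C : Finset ℤ} {h p e P : ℝ} {a : ℤ → ℤ → ℝ} {u v : ℤ → ℤ → V}
    (H : Cen A B C h p e P a u v) :
    CenC A B C h p e P a (fun z x => cv (u z x)) (fun z y => cv (v z y)) where
  a_le := H.a_le
  a_n2 := H.a_n2
  a_row := H.a_row
  u_le z hz x hx := by rw [← norm_cv]; exact H.u_le z hz x hx
  v_le z hz x hx := by rw [← norm_cv]; exact H.v_le z hz x hx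
  u_en := by simp only [← norm_cv]; exact H.u_en
  v_en := by simp only [← norm_cv]; exact H.v_en
  u_col x hx := by simp only [← norm_cv]; exact H.u_col x hx
  u_pot z hz w := by
    obtain ⟨b, rfl⟩ := cv_surj (V := V) w
    simp only [← norm_cv, ← inner_cv]
    exact H.u_pot z hz b
  v_pot z hz w := by
    obtain ⟨b, rfl⟩ := cv_surj (V := V) w
    simp only [← norm_cv, ← inner_cv]
    exact H.v_pot z hz b

theorem comp_coord (g : ℤ → ℤ → ℝ) (u v : ℤ → ℤ → V) :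
    H136.comp (fun p => g p.1 p.2) u v = fun y => (fun p : ℤ × ℤ => g p.1 p.2) y.2 *
      ((fun z x => cv (u z x)) y.1 y.2.1 ⬝ᵥ (fun z x => cv (v z x)) y.1 y.2.2) := by
  funext y
  exact comp_eq _ u v y

end coord

theorem avg_iv (k : ℕ) (m : ℤ) (f : ℤ → ℝ) : avg (iv k m) f = ((2 : ℝ) ^ k)⁻¹ * ∑ x ∈ iv k m, f x := by
  unfold PL.H315.avg
  rw [PL.card_iv]
  push_cast
  rfl

omit [DecidableEq ι] in
/-- the top potential of `u` -/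
theorem CenC.GT_le {K : ℕ} {m : ℤ} {B C : Finset ℤ} {h p e P : ℝ} {a : ℤ → ℤ → ℝ}
    {u v : ℤ → ℤ → ι → ℝ} (H : CenC (iv K m) B C h p e P a u v) {x1 : ℤ} (hx : x1 ∈ C)
    (w : ι → ℝ) : w ⬝ᵥ GT u x1 K m *ᵥ w ≤ P * (w ⬝ᵥ w) := by
  rw [GT_form, ← avg_iv]
  exact H.u_pot x1 hx w

omit [DecidableEq ι] in
/-- the top mass of `u` -/
theorem CenC.GT_tr {K : ℕ} {m : ℤ} {B C : Finset ℤ} {h p e P : ℝ} {a : ℤ → ℤ → ℝ}
    {u v : ℤ → ℤ → ι → ℝ} (H : CenC (iv K m) B C h p e P a u v) :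
    (avg C fun x1 => (GT u x1 K m).trace) ≤ e * p ^ 2 := by
  simp only [GT_trace, ← avg_iv]
  exact H.u_en

end

end Vale.Agent.P141.H677
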