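import Vale.Agent.P141.H677.Split
import Vale.Agent.P141.H579.Rest
import Vale.Agent.P141.H576.GlueW
import Vale.Agent.P141.H352.Flow

/-!
# P141, line (A), T7b: alive costs, the sum over `x0` and the gap piece

`cosA_split` : the cost of the alive nodes in three parts; `swap0` : the nodes over the cells of
`x0` become, at fixed `x0`, nodes on the planes `o - 2 - ix k x0` (order `(x3, x2, x1)`);
`gapZ_le` : the gap piece in the letters of `H576.WZ`.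
-/

namespace Vale.Agent.P141.H677

open Finset Matrix
open Vale.Agent.P141.PL (Pt loc prd iv hs ix mem_iv ix_ix)
open Vale.Agent.P141.PL.H560 (cbs bx0)
open Vale.Agent.P141.PL.H317 (crn)
open Vale.Agent.P141.PL.H804 (bx3)
open Vale.Agent.P141.PL.H588 (Pl)
open Vale.Agent.P141.H579 (cosA)
open Vale.Agent.P141.H420 (Tr)
open Vale.Agent.P141.H483 (hd ze xiT)
open Vale.Agent.P141.H103 (qK)

noncomputable section

open scoped Classical

/-! ### Alive nodes -/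

/-- the sum over the alive nodes of the root cube -/
def nodesA (A : ℕ → Pt → Prop) (K : ℕ) (x : Pt) (f : ℕ → Pt → ℝ) : ℝ :=
  ∑ k ∈ Icc 1 K, ∑ m ∈ cbs K (PL.cx K x) k with A k (crn k m), f k m

theorem nodesA_add (A : ℕ → Pt → Prop) (K : ℕ) (x : Pt) (f g : ℕ → Pt → ℝ) :
    nodesA A K x (fun k m => f k m + g k m) = nodesA A K x f + nodesA A K x g := by
  unfold nodesA
  simp only [← sum_add_distrib]

theorem nodesA_mono {A : ℕ → Pt → Prop} {K : ℕ} {x : Pt} {f g : ℕ → Pt → ℝ}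
    (h : ∀ k ∈ Icc 1 K, ∀ m ∈ cbs K (PL.cx K x) k, A k (crn k m) → f k m ≤ g k m) :
    nodesA A K x f ≤ nodesA A K x g := by
  unfold nodesA
  refine sum_le_sum fun k hk => sum_le_sum fun m hm => ?_
  rw [mem_filter] at hm
  exact h k hk m hm.1 hm.2

variable {ι : Type*} [Fintype ι] [DecidableEq ι]

/-- **The cost of the alive nodes in three parts with the signs of the nodes.** -/
theorem cosA_eq {l : ℝ} (hl : 0 < l) (A : ℕ → Pt → Prop) (o : ℤ) (K : ℕ) (x : Pt) (g : ℤ × ℤ → ℝ)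
    (u v : ℤ → ℤ → ι → ℝ) (F1 F2 F3 : ℕ → Pt → ℝ) :
    cosA A o K x (fun y => g y.2 * (u y.1 y.2.1 ⬝ᵥ v y.1 y.2.2)) (fun k _ => F1 k)
        (fun k _ => F2 k) (fun k _ => F3 k) =
      nodesA A K x (fun k m => sgN o g u v F1 F2 F3 k m *
        nodeS o k m (F2 k) (fI l g u v (F1 k) (F3 k) k m.2.1)) +
      nodesA A K x (fun k m => sgN o g u v F1 F2 F3 k m *
        nodeS o k m (F2 k) (fZ l g u v (F1 k) (F3 k) k m.2.1)) +
      nodesA A K x (fun k m => sgN o g u v F1 F2 F3 k m *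
        nodeS o k m (F2 k) (fF l g u v (F1 k) (F3 k) k m.2.1)) := by
  rw [← nodesA_add, ← nodesA_add]
  unfold H579.cosA nodesA
  refine sum_congr rfl fun k hk => ?_
  rw [mul_sum]
  refine sum_congr rfl fun m _ => ?_
  have hk1 := (mem_Icc.1 hk).1
  beta_reduce
  rw [← mul_add, ← mul_add, ← node_split hl o hk1 m g u v (F1 k) (F2 k) (F3 k)]
  unfold sgN
  rw [mul_left_comm, sign_mul_self]

/-- **The cost of the alive nodes in three parts.** -/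
theorem cosA_split {l : ℝ} (hl : 0 < l) (A : ℕ → Pt → Prop) (o : ℤ) (K : ℕ) (x : Pt)
    (g : ℤ × ℤ → ℝ) (u v : ℤ → ℤ → ι → ℝ) (F1 F2 F3 : ℕ → Pt → ℝ) :
    cosA A o K x (fun y => g y.2 * (u y.1 y.2.1 ⬝ᵥ v y.1 y.2.2)) (fun k _ => F1 k)
        (fun k _ => F2 k) (fun k _ => F3 k) ≤
      nodesA A K x (fun k m => |nodeS o k m (F2 k) (fI l g u v (F1 k) (F3 k) k m.2.1)|) +
      nodesA A K x (fun k m => |nodeS o k m (F2 k) (fZ l g u v (F1 k) (F3 k) k m.2.1)|) +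
      |nodesA A K x (fun k m => sgN o g u v F1 F2 F3 k m *
        nodeS o k m (F2 k) (fF l g u v (F1 k) (F3 k) k m.2.1))| := by
  rw [cosA_eq hl]
  have h : ∀ f : ℕ → Pt → ℝ, nodesA A K x (fun k m => sgN o g u v F1 F2 F3 k m * f k m) ≤
      nodesA A K x (fun k m => |f k m|) := by
    intro f
    refine nodesA_mono fun k _ m _ _ => (le_abs_self _).trans ?_
    rw [abs_mul]
    exact mul_le_of_le_one_left (abs_nonneg _) (abs_sgN_le ..)
  exact add_le_add (add_le_add (h _) (h _)) (le_abs_self _)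

/-! ### The sum over `x0` -/

/-- the order `(x3, x2, x1)` -/
def rv (m : Pt) : Pt := (m.2.2, m.2.1, m.1)

theorem rv_rv (m : Pt) : rv (rv m) = m := rfl

/-- the planes at the point `x0` -/
def cP (o x0 : ℤ) (k : ℕ) : ℤ := o - 2 - ix k x0

theorem cP_pl {o : ℤ} (ho : o = 1 ∨ o = -1) (x0 : ℤ) : Pl (cP o x0) := H352.Pl_tie ho x0

theorem cP_ix (o : ℤ) {k : ℕ} {x y : ℤ} (h : ix k x = ix k y) : cP o x k = cP o y k := by
  unfold cP
  rw [h]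

/-- the alive nodes at the point `x0`, in the order `(x3, x2, x1)` -/
def sN (A : ℕ → Pt → Prop) (o : ℤ) (K : ℕ) (M : Pt) (x0 : ℤ) (k : ℕ) : Finset Pt :=
  (bx3 K (rv M) k (cP o x0 k)).filter fun m => A k (crn k (rv m))

theorem sN_sub (A : ℕ → Pt → Prop) (o : ℤ) (K : ℕ) (M : Pt) (x0 : ℤ) (k : ℕ) :
    sN A o K M x0 k ⊆ bx3 K (rv M) k (cP o x0 k) := filter_subset _ _

theorem mem_sN {A : ℕ → Pt → Prop} {o : ℤ} {K : ℕ} {M : Pt} {x0 : ℤ} {k : ℕ} {m : Pt} :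
    m ∈ sN A o K M x0 k ↔ rv m ∈ cbs K M k ∧ x0 ∈ iv k (bx0 o (rv m)).1 ∧ A k (crn k (rv m)) := by
  unfold sN bx3 cbs cP bx0 rv
  simp only [mem_filter, mem_product, mem_iv]
  constructor
  · rintro ⟨⟨⟨h1, h2, h3⟩, h4⟩, h5⟩
    exact ⟨⟨h3, h2, h1⟩, by linarith, h5⟩
  · rintro ⟨⟨h3, h2, h1⟩, h4, h5⟩
    exact ⟨⟨⟨h1, h2, h3⟩, by linarith⟩, h5⟩

/-- the cells of scale `K` of the points `x0` -/
def rt (M : Pt) : Finset ℤ :=
  Icc (-(M.1 + M.2.1 + M.2.2) - 3) (-(M.1 + M.2.1 + M.2.2) - 1)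

theorem iv_rt {o : ℤ} (ho : o = 1 ∨ o = -1) {k K : ℕ} (hk : k ≤ K) {M m : Pt}
    (hm : m ∈ cbs K M k) {x0 : ℤ} (hx : x0 ∈ iv k (bx0 o m).1) : ix K x0 ∈ rt M := by
  unfold cbs at hm
  simp only [mem_product, PL.iv, mem_Ico] at hm
  obtain ⟨h1, h2, h3⟩ := hm
  rw [mem_iv] at hx
  unfold bx0 at hx
  simp only at hx
  have e : ix K x0 = ix (K - k) (ix k x0) := by rw [ix_ix, Nat.add_sub_cancel' hk]
  rw [e, hx]
  unfold rt
  rw [mem_Icc]
  set a : ℤ := 2 ^ (K - k) with ha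
  have ha1 : 1 ≤ a := one_le_pow₀ (by norm_num)
  have hix : ∀ z : ℤ, ix (K - k) z = z / a := fun z => rfl
  rw [hix]
  constructor
  · rw [Int.le_ediv_iff_mul_le (by linarith)]
    rcases ho with rfl | rfl <;> nlinarith
  · have : (o - 2 - (m.1 + m.2.1 + m.2.2)) / a < -(M.1 + M.2.1 + M.2.2) := by
      rw [Int.ediv_lt_iff_lt_mul (by linarith)]
      rcases ho with rfl | rfl <;> nlinarith
    linarith

/-- **The nodes at fixed `x0`.** -/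
theorem swap0 {o : ℤ} (ho : o = 1 ∨ o = -1) (A : ℕ → Pt → Prop) (K : ℕ) (x : Pt)
    (f : ℤ → ℕ → Pt → ℝ) :
    nodesA A K x (fun k m => ∑ x0 ∈ iv k (bx0 o m).1, f x0 k m) =
      ∑ t ∈ rt (PL.cx K x), ∑ x0 ∈ iv K t, ∑ k ∈ Icc 1 K, ∑ m ∈ sN A o K (PL.cx K x) x0 k,
        f x0 k (rv m) := by
  have e1 : ∀ g : ℤ → ℝ, ∑ t ∈ rt (PL.cx K x), ∑ x0 ∈ iv K t, g x0 =
      ∑ x0 ∈ (rt (PL.cx K x)).biUnion (iv K), g x0 := by
    intro g
    rw [sum_biUnion]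
    intro t _ t' _ h
    change Disjoint (iv K t) (iv K t')
    rw [disjoint_left]
    intro y hy hy'
    rw [mem_iv] at hy hy'
    exact h (hy.symm.trans hy')
  rw [e1, sum_comm]
  unfold nodesA
  refine sum_congr rfl fun k hk => ?_
  have hk2 := (mem_Icc.1 hk).2
  have e2 : ∀ x0 : ℤ, ∑ m ∈ sN A o K (PL.cx K x) x0 k, f x0 k (rv m) =
      ∑ m ∈ cbs K (PL.cx K x) k with A k (crn k m),
        if x0 ∈ iv k (bx0 o m).1 then f x0 k m else 0 := by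
    intro x0
    rw [← sum_filter, filter_filter]
    refine sum_nbij' rv rv (fun m hm => ?_) (fun m hm => ?_) (fun _ _ => rfl) (fun _ _ => rfl)
      fun _ _ => rfl
    · rw [mem_sN] at hm
      rw [mem_filter]
      exact ⟨hm.1, hm.2.2, hm.2.1⟩
    · rw [mem_filter] at hm
      rw [mem_sN, rv_rv]
      exact ⟨hm.1, hm.2.2, hm.2.1⟩
  rw [sum_congr rfl fun x0 _ => e2 x0, sum_comm]
  refine sum_congr rfl fun m hm => ?_
  rw [mem_filter] at hm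
  rw [← sum_filter]
  refine sum_congr ?_ fun _ _ => rfl
  ext x0
  rw [mem_filter, mem_biUnion]
  constructor
  · intro h
    exact ⟨⟨ix K x0, iv_rt ho hk2 hm.1 h, (mem_iv).2 rfl⟩, h⟩
  · exact fun h => h.2

omit [Fintype ι] [DecidableEq ι] in
theorem abs_nodeS_le (o : ℤ) (k : ℕ) (m : Pt) (F2 : Pt → ℝ) (Φ : ℤ → ℤ → ℤ → ℝ) :
    |nodeS o k m F2 Φ| ≤ ∑ x0 ∈ iv k (bx0 o m).1,
      |∑ x3 ∈ iv k m.2.2, ∑ x1 ∈ iv k m.1, hs k x3 * hs k x1 * (F2 (x0, x1, x3) * Φ x0 x1 x3)| := by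
  unfold nodeS
  refine (abs_sum_le_sum_abs _ _).trans (sum_le_sum fun x0 _ => le_of_eq ?_)
  have e : ∑ x1 ∈ iv k m.1, ∑ x3 ∈ iv k m.2.2,
      hs k x0 * hs k x1 * hs k x3 * (F2 (x0, x1, x3) * Φ x0 x1 x3) =
      hs k x0 * ∑ x3 ∈ iv k m.2.2, ∑ x1 ∈ iv k m.1,
        hs k x3 * hs k x1 * (F2 (x0, x1, x3) * Φ x0 x1 x3) := by
    rw [sum_comm]
    simp only [mul_sum]
    refine sum_congr rfl fun x3 _ => sum_congr rfl fun x1 _ => ?_
    ring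
  rw [e, abs_mul, PL.abs_hs, one_mul]

/-! ### The gap piece in the letters of `H576.WZ` -/

/-- the matrices `A` at the point `x0`: rows `x3`, columns `x2` -/
def fA (g : ℤ × ℤ → ℝ) (F1 : ℕ → Pt → ℝ) (x0 : ℤ) (k : ℕ) (z y : ℤ) : ℝ :=
  g (y, z) * F1 k (x0, y, z)

/-- the vectors `b` at the point `x0`: rows `x1`, columns `x2` -/
def fb (u : ℤ → ℤ → ι → ℝ) (F3 : ℕ → Pt → ℝ) (x0 : ℤ) (k : ℕ) (x y : ℤ) : ι → ℝ :=
  F3 k (x0, x, y) • u x y

/-- the vectors `C` at the point `x0`: rows `x3`, columns `x1` -/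
def fC (v : ℤ → ℤ → ι → ℝ) (F2 : ℕ → Pt → ℝ) (x0 : ℤ) (k : ℕ) (z x : ℤ) : ι → ℝ :=
  F2 k (x0, x, z) • v x z

omit [Fintype ι] [DecidableEq ι] in
theorem qT_qK (g : ℤ × ℤ → ℝ) (F1 F3 : ℕ → Pt → ℝ) (u : ℤ → ℤ → ι → ℝ) (x0 x1 x3 : ℤ) (k : ℕ) :
    qT g (F1 k) (F3 k) u x0 x1 x3 = qK (fA g F1 x0 k) (fb u F3 x0 k) x3 x1 := by
  funext j i
  unfold qT mT H103.qK fA fb
  simp only [smul_smul]

/-- **The gap piece.** -/
theorem gapZ_le {o : ℤ} (ho : o = 1 ∨ o = -1) (l : ℝ) {L : ℕ} {e : ι → ℤ}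
    (he : Function.Injective e) (hm : ∀ i, e i ∈ H958.lbs L) (A : ℕ → Pt → Prop) (K : ℕ)
    (x : Pt) (g : ℤ × ℤ → ℝ) (u v : ℤ → ℤ → ι → ℝ) (F1 F2 F3 : ℕ → Pt → ℝ) :
    nodesA A K x (fun k m => |nodeS o k m (F2 k) (fZ l g u v (F1 k) (F3 k) k m.2.1)|) ≤
      ∑ t ∈ rt (PL.cx K x), ∑ x0 ∈ iv K t, ∑ k ∈ Icc 1 K, ∑ m ∈ sN A o K (PL.cx K x) x0 k,
        |(2 ^ (k + L) : ℝ)⁻¹ *
          (H576.WZ L l e (fA g F1 x0) (fb u F3 x0) (KT l u) (k + L) m * PL.H588.hd (k + L) *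
          PL.H804.bl (k + L) (H958.encR L fun lab z x => H338.cu e (fC v F2 x0 k z x) lab)
            m.1 m.2.2).trace| := by
  refine (nodesA_mono fun k _ m _ _ => abs_nodeS_le o k m (F2 k) _).trans (le_of_eq ?_)
  rw [swap0 ho A K x fun x0 k m => |∑ x3 ∈ iv k m.2.2, ∑ x1 ∈ iv k m.1, hs k x3 * hs k x1 *
    (F2 k (x0, x1, x3) * fZ l g u v (F1 k) (F3 k) k m.2.1 x0 x1 x3)|]
  refine sum_congr rfl fun t _ => sum_congr rfl fun x0 _ => sum_congr rfl fun k hk =>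
    sum_congr rfl fun m _ => ?_
  rw [H576.WZ_form he hm (mem_Icc.1 hk).1]
  congr 1
  unfold rv
  refine sum_congr rfl fun x3 _ => sum_congr rfl fun x1 _ => ?_
  congr 1
  unfold fZ ST H576.sz fC
  rw [qT_qK]
  simp only [dotProduct_smul, smul_dotProduct, smul_eq_mul]
  rw [dotProduct_comm]

end

end Vale.Agent.P141.H677
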