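import Vale.Agent.P141.H677.FDb
import Vale.Agent.P141.H540.GenRA
import Vale.Agent.P141.H582.GenSum
import Vale.Agent.P141.H186.ClosX
import Vale.Agent.P141.H576.GapN

/-!
# P141, line (A): the node forms of the flow part, sum over the generations of the slot

* `SlotN` : a slot with node signs, a cap `κ` and an energy number `E`;
* `slotN_RG` : the generations of `H540.RG` at class data;
* `PriceM` : the price of a functional on every plane of every grid for every slot `SlotN`, with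
  `(1 + log κ + log (r / t)) ^ p * E ^ θ`;
* `leafM_of_price : PriceM FD FM1 → LeafM`.
-/

namespace Vale.Agent.P141.H677.Sk

open Finset Matrix
open Vale.Agent.P141.PL (Pt iv hs ix mem_iv ix_ix cb mem_cb cx card_iv)
open Vale.Agent.P141.PL.H315 (Tri avg)
open Vale.Agent.P141.H48 (US ES BSl sst)
open Vale.Agent.P141.H795 (E8)
open Vale.Agent.P141.H401 (StX PartX Bun PartF)
open Vale.Agent.P141.H305 (ClsM kapM Cls)
open Vale.Agent.P141.H43 (nsq nsq_nonneg)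
open Vale.Agent.P141.H540 (RG)

noncomputable section

open scoped Classical

set_option linter.unusedSectionVars false

variable {ι : Type} [Fintype ι] [DecidableEq ι]

/-- **A slot with node signs, a cap `κ` and an energy number `E`.** -/
structure SlotN (Al : ℕ → Pt → Prop) (o : ℤ) (K : ℕ) (M : Pt) (l : ℝ) (u : ℤ → ℤ → ι → ℝ)
    (R : Slt ι) (κ E : ℝ) : Prop where
  sgn : ∃ s : ℤ → ℕ → ℤ → ℤ → ℝ, (∀ x1 k a b, |s x1 k a b| ≤ 1) ∧
    (∀ x1 k a b, ((b, o - 2 - a - ix k x1 - b, ix k x1) : Pt) ∉ sN Al o K M (2 ^ k * a) k →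
      s x1 k a b = 0) ∧
    ∀ x0 j z x1, R x0 j z x1 = H841.Rm (MT l (KT l u x1)) o x1 (s x1) K j x0 z
  symm : ∀ x0, ∀ j ≤ K, ∀ z x1, (R x0 j z x1)ᵀ = R x0 j z x1
  cap : ∀ x0, ∀ j ≤ K, ∀ z x1 w, nsq (R x0 j z x1 *ᵥ w) ≤ κ ^ 2 * nsq w
  en : ∀ (T : Finset ℤ) (z : ℤ), ∀ x1 ∈ iv K M.1, ∀ w,
    ∑ t ∈ T, ∑ x0 ∈ iv K t, nsq (R x0 0 z x1 *ᵥ w) ≤ 2 ^ K * (E * nsq w)

/-- the caps of the generations -/
def kg (t r : ℝ) (g : ℕ) : ℝ := (r / t) * 2 ^ g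

/-- the energy numbers of the generations, `m = P / (2 l)` -/
def eg (m t r : ℝ) : ℕ → ℝ
  | 0 => m
  | g + 1 => 3780000 * (r / t) ^ 2 / (kg t r g) ^ 6

/-- the slot of the generation `g` -/
def Rg (Al : ℕ → Pt → Prop) (o : ℤ) (K : ℕ) (M : Pt) (sg : ℕ → Pt → ℝ) (l : ℝ)
    (u : ℤ → ℤ → ι → ℝ) (κ : ℕ → ℝ) (g : ℕ) : Slt ι :=
  fun x0 j z x => RG Al o K M sg l u κ g j x0 z x

theorem Rg_sum (Al : ℕ → Pt → Prop) (o : ℤ) (K : ℕ) (M : Pt) (sg : ℕ → Pt → ℝ) (l : ℝ)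
    (u : ℤ → ℤ → ι → ℝ) (κ : ℕ → ℝ) :
    sl Al o K M sg l u = fun x0 j z x => ∑ g ∈ range (K + 1), Rg Al o K M sg l u κ g x0 j z x := by
  funext x0 j z x
  exact (H540.RG_sum j x0 z x).symm

theorem mean_cell (K : ℕ) (p : ℤ) (f : ℤ → ℝ) :
    ((2 : ℝ) ^ K)⁻¹ * ∑ y ∈ iv K p, f y = avg (iv K p) f := by
  unfold avg
  rw [card_iv]
  push_cast
  rfl

/-- **The generations at class data.** -/
theorem slotN_RG {K : ℕ} {x : Pt} {s r P κ0 : ℝ} {U : Tri} {g : ℤ → ℤ → ℝ}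
    {u v : ℤ → ℤ → ι → ℝ} (C : ClsM K x s r P κ0 U g u v) {t l : ℝ} (ht : 0 < t) (ht1 : t ≤ 1)
    (hr : 1 ≤ r) (hs : 0 < s) (hl : 0 < l) (hlr : r * √s ≤ l * (r / t) ^ 2)
    {Al : ℕ → Pt → Prop} {o : ℤ} (ho : o = 1 ∨ o = -1) {sg : ℕ → Pt → ℝ}
    (hsg : ∀ k m, |sg k m| ≤ 1) (j : ℕ) :
    SlotN Al o K (cx K x) l u (Rg Al o K (cx K x) sg l u (kg t r) j) (kg t r j + 1)
      (eg (P / (2 * l)) t r j) := by
  have hr0 : 0 < r := by linarith
  have hρ : 0 < r / t := div_pos hr0 ht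
  have hκ : ∀ g, 0 < kg t r g := fun g => by unfold kg; positivity
  refine ⟨⟨fun x1 => H540.sgn Al o K (cx K x) sg l u (kg t r) j x1, ?_, ?_, ?_⟩, ?_, ?_, ?_⟩
  · intro x1 k a b
    exact H540.sgn_le hsg j x1 k a b
  · intro x1 k a b h
    exact H540.sgn_off j x1 k a b h
  · intro x0 j' z x1
    rfl
  · intro x0 j' hj' z x1
    exact H540.RG_symm hl j hj' x0 z x1
  · intro x0 j' hj' z x1 w
    exact H540.RG_cap hl ho hsg hκ j hj' x0 z x1 w
  · intro T z x1 hx1 w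
    have hx : x1 ∈ PL.H315.iv K x.1 := by
      rw [H769.iv_pt]
      exact hx1
    cases j with
    | zero =>
      refine (H540.RG_end hl hsg 0 T z x1 w).trans ?_
      refine mul_le_mul_of_nonneg_left ?_ (by positivity)
      have h1 : w ⬝ᵥ GT u x1 K (cx K x).2.1 *ᵥ w ≤ P * (w ⬝ᵥ w) := by
        rw [GT_form, mean_cell]
        have h2 := C.u_pot x1 hx w
        rw [H769.iv_pt] at h2
        exact h2
      have h3 : nsq w = w ⬝ᵥ w := rfl
      rw [h3]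
      unfold eg
      have h4 := mul_le_mul_of_nonneg_left h1 (by positivity : (0 : ℝ) ≤ (2 * l)⁻¹)
      refine h4.trans (le_of_eq ?_)
      field_simp
    | succ j =>
      refine (H540.RG_next hl ho hsg hκ j T z x1 w).trans ?_
      have h1 : (GT u x1 K (cx K x).2.1).trace ≤ r * √s := by
        rw [GT_trace, mean_cell]
        have h2 := C.u_row x1 hx
        rw [H769.iv_pt] at h2
        exact h2
      have h2 : (2 * l)⁻¹ * (GT u x1 K (cx K x).2.1).trace ≤ (r / t) ^ 2 / 2 := by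
        have h3 := mul_le_mul_of_nonneg_left (h1.trans hlr)
          (by positivity : (0 : ℝ) ≤ (2 * l)⁻¹)
        refine h3.trans (le_of_eq ?_)
        field_simp
      have h6 : (0 : ℝ) < kg t r j ^ 6 := pow_pos (hκ j) 6
      have h5 : 3 * nsq w * (2520000 * (2 ^ K * ((2 * l)⁻¹ *
          (GT u x1 K (cx K x).2.1).trace)) / kg t r j ^ 6) ≤
          3 * nsq w * (2520000 * (2 ^ K * ((r / t) ^ 2 / 2)) / kg t r j ^ 6) := by
        refine mul_le_mul_of_nonneg_left ?_ (mul_nonneg (by norm_num) (nsq_nonneg w))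
        refine div_le_div_of_nonneg_right ?_ h6.le
        refine mul_le_mul_of_nonneg_left ?_ (by norm_num)
        exact mul_le_mul_of_nonneg_left h2 (by positivity)
      refine h5.trans (le_of_eq ?_)
      unfold eg
      ring

/-- **The price of a functional of slots on every plane of every grid**, slots `SlotN` with cap
`κ ≥ 1` and energy `E > 0`: logarithm to a power `p`, power `θ` of `E`, loss `w` in `r / t` with
`2 w < e0 θ`, loss `b` in `c + d`. -/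
def PriceM (D : Bun) (T : FunG) : Prop :=
  ∀ a : ℝ, 0 < a → a ≤ 1 →
  ∃ es : ℝ, 0 < es ∧ es ≤ 1 ∧ ∀ e0 : ℝ, 0 < e0 → e0 ≤ es →
  ∃ k8s : ℝ, 0 < k8s ∧ ∀ k8 : ℝ, 0 < k8 → k8 ≤ k8s →
  ∃ k3s : ℝ, 0 < k3s ∧ ∀ k3 : ℝ, 0 < k3 → k3 ≤ k3s →
  ∃ (p : ℕ) (θ w b c1 d1 : ℝ), 0 < θ ∧ 2 * w < e0 * θ ∧ 0 ≤ b ∧ 0 < c1 ∧ 0 < d1 ∧
  ∀ c : ℝ, 0 ≤ c → c ≤ c1 → ∀ d : ℝ, 0 < d → d ≤ d1 →
  ∀ Kt e cP L : ℝ, 0 < Kt → 1 ≤ e → 0 ≤ cP → 1 ≤ L → ∀ CD : ℝ, 1 ≤ CD → ∃ C : ℝ, 0 ≤ C ∧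
  ∀ t : ℝ, 0 < t → t ≤ 1 → ∀ (n : ℕ) (ez : ℝ) (F1 F2 F3 : ℕ → Pt → ℝ),
    US n (Kt * t ^ (1 - c)) e cP F1 → US n (Kt * t ^ (1 - c)) e cP F3 → ES n ez cP F2 →
  ∀ o : ℤ, o = 1 ∨ o = -1 → ∀ K ≤ n, ∀ (x : Pt) (ι : Type) [Fintype ι] [DecidableEq ι]
    (s r : ℝ) (U : Tri) (g : ℤ → ℤ → ℝ) (u v : ℤ → ℤ → ι → ℝ), 0 < s → 1 ≤ r →
    ClsM K x s r (L * t ^ (2 - c) * √s) (kapM L t a s r) U g u v →
    ∀ (A : FamA) (b' C' : FamV ι),
      D ι ⟨a, e0, k8, k3, c, d, Kt, e, cP, L, CD, t⟩ n ez F1 F2 F3 o K x s r U g u v A b' C' →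
    ∀ (R : Slt ι) (κ E : ℝ), 1 ≤ κ → 0 < E →
      SlotN ((⟨a, e0, k8, k3, c, d, Kt, e, cP, L, CD, t⟩ : H401.Num).al U K) o K (cx K x)
        ((⟨a, e0, k8, k3, c, d, Kt, e, cP, L, CD, t⟩ : H401.Num).lam s r) u R κ E →
    ∀ h ∈ cb K 0, ∀ j ∈ Icc (0 : ℤ) 2, ∀ q ∈ E8, T ι K (cx K x) R A b' C' h j q ≤
      C * ((1 + Real.log κ + Real.log (r / t)) ^ p * E ^ θ *
        (t * (r / t) ^ w * t ^ (-(b * (c + d))) * s ^ (5 / 4 : ℝ) * √ez * 8 ^ K))

/-- subadditive in the slot -/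
def SubT (T : FunG) : Prop :=
  ∀ (ι : Type) [Fintype ι] [DecidableEq ι] (K : ℕ) (M : Pt) (gs : Finset ℕ) (R : ℕ → Slt ι)
    (A : FamA) (b C : FamV ι) (h : Pt) (j : ℤ) (q : Pt),
    T ι K M (fun x0 j z x => ∑ g ∈ gs, R g x0 j z x) A b C h j q ≤
      ∑ g ∈ gs, T ι K M (R g) A b C h j q

theorem subT_FM1 : SubT fun _ι _ _ K M R A b C h j e => FM1 K M R A b C h j e := by
  intro ι _ _ K M gs R A b C h j q
  beta_reduce
  unfold FM1
  have e : av (fun x0 j z x => ∑ g ∈ gs, R g x0 j z x) h.2.2 =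
      fun x0 k z x => ∑ g ∈ gs, av (R g) h.2.2 x0 k z x := by
    funext x0
    exact av_sum' gs R h.2.2 x0
  rw [e]
  exact FF_sum gs K M (fun g => av (R g) h.2.2) A b C h j q

theorem lam_row {q : H401.Num} {s r : ℝ} (ht : 0 < q.t) (ht1 : q.t ≤ 1) (he : 0 < q.e0)
    (hs : 0 < s) (hr : 1 ≤ r) (he1 : q.e0 ≤ 1) : r * √s ≤ q.lam s r * (r / q.t) ^ 2 := by
  have hr0 : 0 < r := by linarith
  unfold H401.Num.lam
  have h1 : (1 : ℝ) ≤ q.t ^ (-q.e0) := Real.one_le_rpow_of_pos_of_le_one_of_nonpos ht ht1 (by linarith)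
  have h2 : (1 : ℝ) ≤ r ^ q.e0 := Real.one_le_rpow hr he.le
  have e1 : q.t ^ (2 - q.e0) = q.t ^ 2 * q.t ^ (-q.e0) := by
    rw [show (2 : ℝ) - q.e0 = 2 + -q.e0 by ring, Real.rpow_add ht]
    norm_num
  have e2 : q.t ^ (2 - q.e0) * √s * r ^ q.e0 * (r / q.t) ^ 2 =
      (q.t ^ (-q.e0) * r ^ q.e0 * r) * (r * √s) := by
    rw [e1]
    field_simp
  rw [e2]
  have h3 : (1 : ℝ) ≤ q.t ^ (-q.e0) * r ^ q.e0 * r := by
    have h4 : (1 : ℝ) ≤ q.t ^ (-q.e0) * r ^ q.e0 := by nlinarith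
    nlinarith
  exact le_mul_of_one_le_left (by positivity) h3

theorem m_eq {q : H401.Num} {s r : ℝ} (ht : 0 < q.t) (hs : 0 < s) (hr : 1 ≤ r) :
    q.L * q.t ^ (2 - q.c) * √s / (2 * q.lam s r) =
      q.L / 2 * (q.t ^ (-q.c) * (q.t / r) ^ q.e0) := by
  have hr0 : 0 < r := by linarith
  have hS : 0 < √s := Real.sqrt_pos.2 hs
  have h1 : 0 < q.t ^ (2 - q.e0) := Real.rpow_pos_of_pos ht _
  have h2 : 0 < r ^ q.e0 := Real.rpow_pos_of_pos hr0 _
  unfold H401.Num.lam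
  rw [Real.div_rpow ht.le hr0.le]
  have e1 : q.t ^ (2 - q.c) = q.t ^ (-q.c) * (q.t ^ (2 - q.e0) * q.t ^ q.e0) := by
    rw [← Real.rpow_add ht, ← Real.rpow_add ht]
    congr 1
    ring
  rw [e1]
  field_simp

/-- **The price on every plane, all the generations.** -/
theorem partG_of_price {D : Bun} {T : FunG} (hT : SubT T) (H : PriceM D T) : PartG D T := by
  refine H186.ClosX.partX_of_gain (Φ := fun ι _ _ p n ez F1 F2 F3 o K x s r U g u v B =>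
    ∀ (A : FamA) (b C : FamV ι), D ι p n ez F1 F2 F3 o K x s r U g u v A b C →
      ∀ sg : ℕ → Pt → ℝ, (∀ k m, |sg k m| ≤ 1) → ∀ h ∈ cb K 0, ∀ j ∈ Icc (0 : ℤ) 2, ∀ e ∈ E8,
        T ι K (cx K x) (sl (p.al U K) o K (cx K x) sg (p.lam s r) u) A b C h j e ≤ B) ?_ ?_
  · intro ι _ _ p n ez F1 F2 F3 o K x s r U g u v B B' hB h A b C hD sg hsg h' hh j hj e he
    exact (h A b C hD sg hsg h' hh j hj e he).trans hB
  intro a ha ha1
  obtain ⟨es, hes, hes1, H⟩ := H a ha ha1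
  refine ⟨es, hes, fun e0 he0 he0' => ?_⟩
  obtain ⟨k8s, hk8s, H⟩ := H e0 he0 he0'
  refine ⟨k8s, hk8s, fun k8 hk8 hk8' => ?_⟩
  obtain ⟨k3s, hk3s, H⟩ := H k8 hk8 hk8'
  refine ⟨k3s, hk3s, fun k3 hk3 hk3' => ?_⟩
  obtain ⟨p, θ, w, b, c1, d1, hθ, hw, hb, hc1, hd1, H⟩ := H k3 hk3 hk3'
  have he01 : e0 ≤ 1 := he0'.trans hes1
  refine ⟨e0 * θ / 2 - w, b, min c1 (e0 / 4), d1, by linarith, hb, lt_min hc1 (by linarith), hd1,
    fun c hc hcc d hd hdd Kt e cP L hK he hcP hL CD hCD => ?_⟩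
  obtain ⟨C, hC, H⟩ := H c hc (hcc.trans (min_le_left _ _)) d hd hdd Kt e cP L hK he hcP hL CD hCD
  obtain ⟨C2, hC2, H2⟩ := H582.gen_price p hθ he0 he01 (A := 1) (B := 2) (C0 := 3780000)
    (Lc := L / 2) le_rfl (by norm_num) (by norm_num) (by linarith)
  refine ⟨C * C2, by positivity, ?_⟩
  intro t ht ht1 n ez F1 F2 F3 h1 h3 h2 o ho K hKn x ι _ _ s r U g u v hs hr hcls A b' C' hD sg
    hsg h hh j hj q hq
  have hr0 : 0 < r := by linarith
  have hρ : 1 ≤ r / t := by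
    rw [le_div_iff₀ ht]
    linarith
  have hρ0 : 0 < r / t := by linarith
  set N : H401.Num := ⟨a, e0, k8, k3, c, d, Kt, e, cP, L, CD, t⟩ with hN
  have hl : 0 < N.lam s r := H401.Num.lam_pos (p := N) ht hs hr
  have hm := m_eq (q := N) ht hs hr
  have hlr := lam_row (q := N) ht ht1 he0 hs hr he01
  rw [Rg_sum _ _ _ _ _ _ _ (kg t r)]
  refine (hT ι K (cx K x) (range (K + 1)) _ A b' C' h j q).trans ?_
  have hκ1 : ∀ g, 1 ≤ kg t r g := fun g => by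
    unfold kg
    have : (1 : ℝ) ≤ 2 ^ g := one_le_pow₀ (by norm_num)
    nlinarith
  have hE : ∀ g', 0 < eg (L / 2 * (t ^ (-c) * (t / r) ^ e0)) t r g' := by
    intro g'
    cases g' with
    | zero =>
      unfold eg
      have : 0 < (t / r) ^ e0 := Real.rpow_pos_of_pos (div_pos ht hr0) _
      have h4 : 0 < t ^ (-c) := Real.rpow_pos_of_pos ht _
      have : 0 < L := by linarith
      positivity
    | succ g' =>
      unfold eg
      have : 0 < kg t r g' := by linarith [hκ1 g']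
      positivity
  have hone : ∀ g' ∈ range (K + 1), T ι K (cx K x)
      (Rg (N.al U K) o K (cx K x) sg (N.lam s r) u (kg t r) g') A b' C' h j q ≤
      C * (t * (r / t) ^ w * t ^ (-(b * (c + d))) * s ^ (5 / 4 : ℝ) * √ez * 8 ^ K) *
        ((1 + Real.log (kg t r g' + 1) + Real.log (r / t)) ^ p *
          eg (L / 2 * (t ^ (-c) * (t / r) ^ e0)) t r g' ^ θ) := by
    intro g' _
    have hsl := slotN_RG hcls ht ht1 hr hs hl hlr (Al := N.al U K) ho hsg g'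
    have e5 : L * t ^ (2 - c) * √s / (2 * N.lam s r) = L / 2 * (t ^ (-c) * (t / r) ^ e0) := hm
    rw [e5] at hsl
    have h6 := H t ht ht1 n ez F1 F2 F3 h1 h3 h2 o ho K hKn x ι s r U g u v hs hr hcls A b' C' hD
      _ _ _ (by linarith [hκ1 g']) (hE g') hsl h hh j hj q hq
    refine h6.trans (le_of_eq ?_)
    ring
  refine (sum_le_sum hone).trans ?_
  rw [← mul_sum]
  have h7 := H2 c hc (hcc.trans (min_le_right _ _)) t ht ht1 r hr
    (eg (L / 2 * (t ^ (-c) * (t / r) ^ e0)) t r)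
    (fun g' => 1 + Real.log (kg t r g' + 1) + Real.log (r / t)) (fun g' => (hE g').le)
    (fun g' => ?_) (fun g' => ?_) (le_of_eq rfl) (fun g' => ?_) K
  · have h8 : 0 ≤ C * (t * (r / t) ^ w * t ^ (-(b * (c + d))) * s ^ (5 / 4 : ℝ) * √ez * 8 ^ K) := by
      have : 0 ≤ √ez := Real.sqrt_nonneg _
      positivity
    refine (mul_le_mul_of_nonneg_left h7 h8).trans (le_of_eq ?_)
    have e6 : (r / t) ^ w = (t / r) ^ (-w) := by
      rw [Real.rpow_neg (by positivity), ← Real.inv_rpow (by positivity), inv_div]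
    have e7 : t ^ (e0 * θ / 2) * r ^ (-(e0 * θ / 2)) = (t / r) ^ (e0 * θ / 2) := by
      rw [Real.div_rpow ht.le hr0.le, Real.rpow_neg hr0.le]
      rfl
    have e8 : (t / r) ^ (e0 * θ / 2 - w) = (t / r) ^ (-w) * (t / r) ^ (e0 * θ / 2) := by
      rw [← Real.rpow_add (div_pos ht hr0)]
      congr 1
      ring
    rw [e6, e7, e8]
    ring
  · have h9 := hκ1 g'
    have h10 := Real.log_nonneg (by linarith : (1 : ℝ) ≤ kg t r g' + 1)
    have h11 := Real.log_nonneg hρ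
    linarith
  · have h9 := hκ1 g'
    have h12 : kg t r g' + 1 ≤ (r / t) * 2 ^ (g' + 1) := by
      unfold kg at h9 ⊢
      rw [pow_succ]
      linarith
    have h13 : Real.log (kg t r g' + 1) ≤ Real.log (r / t) + (g' + 1) := by
      refine (Real.log_le_log (by linarith) h12).trans ?_
      rw [Real.log_mul hρ0.ne' (by positivity), Real.log_pow]
      have h14 : Real.log 2 ≤ 1 := by
        have := Real.log_two_lt_d9
        linarith
      have h15 : (0 : ℝ) ≤ ((g' + 1 : ℕ) : ℝ) := by positivity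
      have h16 : ((g' + 1 : ℕ) : ℝ) * Real.log 2 ≤ ((g' + 1 : ℕ) : ℝ) * 1 :=
        mul_le_mul_of_nonneg_left h14 h15
      push_cast at h16 ⊢
      linarith
    have h17 : (0 : ℝ) ≤ (g' : ℝ) := Nat.cast_nonneg _
    linarith
  · show 3780000 * (r / t) ^ 2 / (kg t r g') ^ 6 ≤ 3780000 * (r / t) ^ 2 / ((r / t) ^ (1 : ℝ) * 2 ^ g') ^ 6
    rw [Real.rpow_one]
    rfl

/-- **The node forms of the flow part from the price for one slot.** -/
theorem leafM_of_price (H : PriceM FD fun _ι _ _ K M R A b C h j e => FM1 K M R A b C h j e) :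
    LeafM :=
  leafM_of (partG_of_price subT_FM1 H)

end

end Vale.Agent.P141.H677.Sk
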