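import Vale.Agent.P141.H224.EnRaw
import Vale.Agent.P141.H124.AfRaw
import Vale.Agent.P141.H795.FldQ
import Vale.Agent.P141.H690.Q2F
import Vale.Agent.P141.H690.Q2L
import Vale.Agent.P141.H627.FldQL
import Vale.Agent.P141.H677.RawC

/-!
# P141, line (A): the numbers of a slot at the data of the flow part
-/

namespace Vale.Agent.P141.H677.Sk

/-- four of the seven fields are closed -/
theorem slotNum_of_three (en : RawFieldC FEn) (af : RawFieldC FAf) (afL : RawFieldC FAfL) :
    SlotNum H204.Fib.FDU :=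
  slotNum_FDU (en.toR mono_FEn) H795.FQ.fld_q H690.Q2F.fld_q2 (af.toR mono_FAf)
    (H627.fld_qL.toR mono_FQL) H690.Q2F.fld_q2L (afL.toR mono_FAfL)

/-- **The numbers of every slot**, no hypotheses. -/
theorem slotNum : SlotNum H204.Fib.FDU :=
  slotNum_FDU H224.fld_en H795.FQ.fld_q H690.Q2F.fld_q2 H124.fld_af
    (H627.fld_qL.toR mono_FQL) H690.Q2F.fld_q2L H124.fld_afL

end Vale.Agent.P141.H677.Sk
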