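import Vale.Agent.P141.H677.Glue
import Vale.Agent.P141.H305.TopDefs
import Vale.Agent.P141.H483.MoveB

/-!
# P141, line (A), T7c: the flow piece as an Abel sum, and the cost of a row class in three parts

* `MT` : the matrix of the flow `√l K⁻¹ dK K⁻¹`; `thN` : sign of the node of a point, `0` if the
  node is not alive;
* `RT A .. j x0 x3 x1` : the moving label matrix `∑_(i > j) thN i • MT i`; `RT_step`, `RT_top`,
  `RT_ix`, `RT_mart0`, `RT_mart3`;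
* `GF a b` : slot at the time `a`, functions at the time `b`;
* `flow_eq` : the flow piece is the sum over `x0` of the Abel sums of `H352.abel_id`;
* `cosA_cmp` : `H305.cmp`, three parts, each at fixed `x0`.
-/

namespace Vale.Agent.P141.H677

open Finset Matrix
open Vale.Agent.P141.PL (Pt loc prd iv hs ix mem_iv ix_ix cb mem_cb cx)
open Vale.Agent.P141.PL.H560 (cbs bx0)
open Vale.Agent.P141.PL.H317 (crn)
open Vale.Agent.P141.PL.H804 (bx3)
open Vale.Agent.P141.PL.H588 (Pl)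
open Vale.Agent.P141.H579 (cosA)
open Vale.Agent.P141.H420 (Tr)
open Vale.Agent.P141.H483 (hd ze xiT)
open Vale.Agent.P141.H352 (In p)

noncomputable section

open scoped Classical

variable {ι : Type*} [Fintype ι] [DecidableEq ι]

/-! ### The moving label matrix -/

/-- the matrix of the flow `√l K⁻¹ dK K⁻¹` at the cell `(k, m)` -/
def MT (l : ℝ) (K : ℕ → ℤ → Matrix ι ι ℝ) (k : ℕ) (m : ℤ) : Matrix ι ι ℝ :=
  √l • ((K k m)⁻¹ * (hd K k m * (K k m)⁻¹))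

theorem MT_mulVec (l : ℝ) (K : ℕ → ℤ → Matrix ι ι ℝ) (w : ι → ℝ) (k : ℕ) (m : ℤ) :
    MT l K k m *ᵥ w = xiT l K w k m := by
  unfold MT H483.xiT
  rw [smul_mulVec, mulVec_mulVec, mulVec_mulVec, Matrix.mul_assoc]

/-- the node of the point `(x0, x1, x3)` of scale `k`, order `(x3, x2, x1)` -/
def nd3 (o x0 x3 x1 : ℤ) (k : ℕ) : Pt := (ix k x3, cP o x0 k - ix k x1 - ix k x3, ix k x1)

/-- sign of the node of a point, times the three Haar signs, `0` if the node is not alive -/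
def thN (A : ℕ → Pt → Prop) (o : ℤ) (K : ℕ) (M : Pt) (sg : ℕ → Pt → ℝ) (x0 x3 x1 : ℤ) (k : ℕ) :
    ℝ :=
  if nd3 o x0 x3 x1 k ∈ sN A o K M x0 k then
    sg k (rv (nd3 o x0 x3 x1 k)) * (hs k x0 * hs k x1 * hs k x3) else 0

/-- the moving label matrix at the time `j` -/
def RT (A : ℕ → Pt → Prop) (o : ℤ) (K : ℕ) (M : Pt) (sg : ℕ → Pt → ℝ) (l : ℝ)
    (u : ℤ → ℤ → ι → ℝ) (j : ℕ) (x0 x3 x1 : ℤ) : Matrix ι ι ℝ :=
  ∑ i ∈ Ico j K, thN A o K M sg x0 x3 x1 (i + 1) •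
    MT l (KT l u x1) (i + 1) (nd3 o x0 x3 x1 (i + 1)).2.1

section RT

variable {A : ℕ → Pt → Prop} {o : ℤ} {K : ℕ} {M : Pt} {sg : ℕ → Pt → ℝ} {l : ℝ}
  {u : ℤ → ℤ → ι → ℝ}

theorem RT_top (x0 x3 x1 : ℤ) : RT A o K M sg l u K x0 x3 x1 = 0 := by
  unfold RT
  rw [Ico_self, sum_empty]

theorem RT_step {j : ℕ} (hj : j < K) (x0 x3 x1 : ℤ) :
    RT A o K M sg l u j x0 x3 x1 = thN A o K M sg x0 x3 x1 (j + 1) •
      MT l (KT l u x1) (j + 1) (nd3 o x0 x3 x1 (j + 1)).2.1 + RT A o K M sg l u (j + 1) x0 x3 x1 := by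
  unfold RT
  rw [sum_eq_sum_Ico_succ_bot hj]

theorem ix_le {j k : ℕ} (h : j ≤ k) {x y : ℤ} (e : ix j x = ix j y) : ix k x = ix k y := by
  have h1 : ∀ z : ℤ, ix k z = ix (k - j) (ix j z) := fun z => by
    rw [ix_ix, Nat.add_sub_cancel' h]
  rw [h1, h1, e]

theorem hs_ix {k : ℕ} {x y : ℤ} (e : ix k x = ix k y) : hs (k + 1) x = hs (k + 1) y := by
  unfold PL.hs
  rw [Nat.add_sub_cancel, e]

omit [Fintype ι] [DecidableEq ι] in
/-- the node depends only on the cells -/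
theorem nd3_ix {k : ℕ} {x0 y0 x3 y3 x1 : ℤ} (h0 : ix k x0 = ix k y0) (h3 : ix k x3 = ix k y3) :
    nd3 o x0 x3 x1 k = nd3 o y0 y3 x1 k := by
  unfold nd3
  rw [cP_ix o h0, h3]

theorem sN_ix {k : ℕ} {x0 y0 : ℤ} (h0 : ix k x0 = ix k y0) :
    sN A o K M x0 k = sN A o K M y0 k := by
  unfold sN
  rw [cP_ix o h0]

/-- the moving matrix at the time `j` depends only on the cells of scale `j` of `x0` and `x3` -/
theorem RT_ix {j : ℕ} {x0 y0 x3 y3 : ℤ} (x1 : ℤ) (h0 : ix j x0 = ix j y0)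
    (h3 : ix j x3 = ix j y3) : RT A o K M sg l u j x0 x3 x1 = RT A o K M sg l u j y0 y3 x1 := by
  unfold RT
  refine sum_congr rfl fun i hi => ?_
  have hi' := (mem_Ico.1 hi).1
  have a0 := ix_le hi' h0
  have a3 := ix_le hi' h3
  have b0 := ix_le (Nat.le_succ i) a0
  have b3 := ix_le (Nat.le_succ i) a3
  have e1 : thN A o K M sg x0 x3 x1 (i + 1) = thN A o K M sg y0 y3 x1 (i + 1) := by
    unfold thN
    rw [nd3_ix b0 b3, sN_ix b0, hs_ix a0, hs_ix a3]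
  rw [e1, nd3_ix b0 b3]

/-- the sign changes with the Haar sign -/
theorem thN_neg {k : ℕ} {x0 y0 x3 y3 : ℤ} (x1 : ℤ) (h0 : ix (k + 1) x0 = ix (k + 1) y0)
    (h3 : ix (k + 1) x3 = ix (k + 1) y3)
    (h : hs (k + 1) x0 * hs (k + 1) x3 = -(hs (k + 1) y0 * hs (k + 1) y3)) :
    thN A o K M sg x0 x3 x1 (k + 1) = -thN A o K M sg y0 y3 x1 (k + 1) := by
  unfold thN
  rw [nd3_ix h0 h3, sN_ix h0]
  split_ifs
  · rw [show hs (k + 1) x0 * hs (k + 1) x1 * hs (k + 1) x3 =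
        hs (k + 1) x1 * (hs (k + 1) x0 * hs (k + 1) x3) by ring, h]
    ring
  · simp

/-- **a martingale in `x0`** : the mean over the two halves of the cell of `x0`. -/
theorem RT_half0 {j : ℕ} (hj : j < K) {x0 a b : ℤ} (x3 x1 : ℤ)
    (ha : ix (j + 1) a = ix (j + 1) x0) (hb : ix (j + 1) b = ix (j + 1) x0)
    (h : hs (j + 1) a = -hs (j + 1) b) :
    RT A o K M sg l u (j + 1) x0 x3 x1 = (1 / 2 : ℝ) •
      (RT A o K M sg l u j a x3 x1 + RT A o K M sg l u j b x3 x1) := by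
  rw [RT_step hj a, RT_step hj b, RT_ix (y0 := x0) (y3 := x3) x1 ha rfl,
    RT_ix (y0 := x0) (y3 := x3) x1 hb rfl,
    thN_neg (y0 := b) (y3 := x3) x1 (ha.trans hb.symm) rfl (by rw [h]; ring),
    nd3_ix (y0 := b) (ha.trans hb.symm) rfl]
  module

/-- **a martingale in `x3`** -/
theorem RT_half3 {j : ℕ} (hj : j < K) {x3 a b : ℤ} (x0 x1 : ℤ)
    (ha : ix (j + 1) a = ix (j + 1) x3) (hb : ix (j + 1) b = ix (j + 1) x3)
    (h : hs (j + 1) a = -hs (j + 1) b) :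
    RT A o K M sg l u (j + 1) x0 x3 x1 = (1 / 2 : ℝ) •
      (RT A o K M sg l u j x0 a x1 + RT A o K M sg l u j x0 b x1) := by
  rw [RT_step hj x0 a, RT_step hj x0 b, RT_ix (y0 := x0) (y3 := x3) x1 rfl ha,
    RT_ix (y0 := x0) (y3 := x3) x1 rfl hb,
    thN_neg (y0 := x0) (y3 := b) x1 rfl (ha.trans hb.symm) (by rw [h]; ring),
    nd3_ix (x0 := x0) (y0 := x0) (y3 := b) rfl (ha.trans hb.symm)]
  module

theorem ix_two (j : ℕ) (m : ℤ) : ix j (2 ^ j * m) = m := by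
  unfold ix
  exact Int.mul_ediv_cancel_left _ (by positivity)

/-- **a martingale in `x0`, letters of `H483.Mart`**, any vector `w` (it may depend on `x3, x1`). -/
theorem RT_mart0 (x3 x1 : ℤ) (w : ι → ℝ) :
    H483.Mart K (fun j m => RT A o K M sg l u j (2 ^ j * m) x3 x1 *ᵥ w) := by
  intro j hj m
  have h2 : ix (j + 1) ((2 : ℤ) ^ j * (2 * m)) = m := by
    rw [show (2 : ℤ) ^ j * (2 * m) = 2 ^ (j + 1) * m by ring, ix_two]
  have h3 : ix (j + 1) ((2 : ℤ) ^ j * (2 * m + 1)) = m := by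
    rw [← H352.ix_succ, ix_two]
    omega
  have e := RT_half0 (A := A) (o := o) (K := K) (M := M) (sg := sg) (l := l) (u := u) hj
    (x0 := 2 ^ (j + 1) * m) (a := 2 ^ j * (2 * m)) (b := 2 ^ j * (2 * m + 1)) x3 x1
    (by rw [h2, ix_two]) (by rw [h3, ix_two])
    (by
      unfold PL.hs
      rw [Nat.add_sub_cancel, ix_two, ix_two, if_pos (by omega), if_neg (by omega), neg_neg])
  beta_reduce
  rw [e, smul_mulVec, add_mulVec]

/-- **a martingale in `x3`, letters of `H483.Mart`**. -/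
theorem RT_mart3 (x0 x1 : ℤ) (w : ι → ℝ) :
    H483.Mart K (fun j m => RT A o K M sg l u j x0 (2 ^ j * m) x1 *ᵥ w) := by
  intro j hj m
  have h2 : ix (j + 1) ((2 : ℤ) ^ j * (2 * m)) = m := by
    rw [show (2 : ℤ) ^ j * (2 * m) = 2 ^ (j + 1) * m by ring, ix_two]
  have h3 : ix (j + 1) ((2 : ℤ) ^ j * (2 * m + 1)) = m := by
    rw [← H352.ix_succ, ix_two]
    omega
  have e := RT_half3 (A := A) (o := o) (K := K) (M := M) (sg := sg) (l := l) (u := u) hj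
    (x3 := 2 ^ (j + 1) * m) (a := 2 ^ j * (2 * m)) (b := 2 ^ j * (2 * m + 1)) x0 x1
    (by rw [h2, ix_two]) (by rw [h3, ix_two])
    (by
      unfold PL.hs
      rw [Nat.add_sub_cancel, ix_two, ix_two, if_pos (by omega), if_neg (by omega), neg_neg])
  beta_reduce
  rw [e, smul_mulVec, add_mulVec]

end RT

/-! ### The Abel sum -/

/-- slot at the time `a`, functions at the time `b` -/
def GF (A : ℕ → Pt → Prop) (o : ℤ) (K : ℕ) (M : Pt) (sg : ℕ → Pt → ℝ) (l : ℝ) (g : ℤ × ℤ → ℝ)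
    (u v : ℤ → ℤ → ι → ℝ) (F1 F2 F3 : ℕ → Pt → ℝ) (x0 : ℤ) (a b : ℕ) (y : Pt) : ℝ :=
  F1 b (x0, y.2.1, y.2.2) * F2 b (x0, y.1, y.2.2) * F3 b (x0, y.1, y.2.1) * g y.2 *
    (u y.1 y.2.1 ⬝ᵥ RT A o K M sg l u a x0 y.2.2 y.1 *ᵥ v y.1 y.2.2)

/-- the step of the slot -/
theorem GF_sub (A : ℕ → Pt → Prop) (o : ℤ) {K : ℕ} (M : Pt) (sg : ℕ → Pt → ℝ) (l : ℝ)
    (g : ℤ × ℤ → ℝ) (u v : ℤ → ℤ → ι → ℝ) (F1 F2 F3 : ℕ → Pt → ℝ) (x0 : ℤ) {j : ℕ} (hj : j < K)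
    (b : ℕ) (y : Pt) :
    GF A o K M sg l g u v F1 F2 F3 x0 j b y - GF A o K M sg l g u v F1 F2 F3 x0 (j + 1) b y =
      F1 b (x0, y.2.1, y.2.2) * F2 b (x0, y.1, y.2.2) * F3 b (x0, y.1, y.2.1) * g y.2 *
        (thN A o K M sg x0 y.2.2 y.1 (j + 1) * (u y.1 y.2.1 ⬝ᵥ
          xiT l (KT l u y.1) (v y.1 y.2.2) (j + 1) (nd3 o x0 y.2.2 y.1 (j + 1)).2.1)) := by
  unfold GF
  rw [RT_step hj, add_mulVec, smul_mulVec, MT_mulVec, dotProduct_add, dotProduct_smul, smul_eq_mul]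
  ring

/-- one scale, one point `x0` -/
theorem flow_scale (A : ℕ → Pt → Prop) (o : ℤ) {K : ℕ} (M : Pt) (sg : ℕ → Pt → ℝ) (l : ℝ)
    (g : ℤ × ℤ → ℝ) (u v : ℤ → ℤ → ι → ℝ) (F1 F2 F3 : ℕ → Pt → ℝ) (x0 : ℤ) {j : ℕ} (hj : j < K) :
    ∑ m ∈ sN A o K M x0 (j + 1), sg (j + 1) (rv m) *
        ∑ x1 ∈ iv (j + 1) m.2.2, ∑ x3 ∈ iv (j + 1) m.1,
          hs (j + 1) x0 * hs (j + 1) x1 * hs (j + 1) x3 * (F2 (j + 1) (x0, x1, x3) *
            fF l g u v (F1 (j + 1)) (F3 (j + 1)) (j + 1) m.2.1 x0 x1 x3) =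
      In K M (p (j + 1) (cP o x0 (j + 1))) (fun y =>
        GF A o K M sg l g u v F1 F2 F3 x0 j (j + 1) y -
          GF A o K M sg l g u v F1 F2 F3 x0 (j + 1) (j + 1) y) := by
  set k := j + 1 with hk
  unfold H352.In
  rw [H352.cb_part (k := k) (by omega) M]
  have e1 : ∀ m ∈ cbs K M k, rv m ∉ sN A o K M x0 k → ∑ y ∈ cb k m,
      p k (cP o x0 k) y * (GF A o K M sg l g u v F1 F2 F3 x0 j k y -
        GF A o K M sg l g u v F1 F2 F3 x0 k k y) = 0 := by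
    intro m _ hn
    refine sum_eq_zero fun y hy => ?_
    have hy' : cx k y = m := mem_cb.1 hy
    unfold H352.p
    split_ifs with h
    · rw [GF_sub A o M sg l g u v F1 F2 F3 x0 hj k y]
      have e2 : nd3 o x0 y.2.2 y.1 k = rv m := by
        rw [← hy']
        unfold nd3 rv PL.cx
        rw [← h]
        refine Prod.ext rfl (Prod.ext ?_ rfl)
        simp only
        ring
      have e3 : thN A o K M sg x0 y.2.2 y.1 k = 0 := by
        unfold thN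
        rw [e2, if_neg hn]
      rw [← hk, e3]
      ring
    · rw [zero_mul]
  have e4 : ∑ m ∈ cbs K M k, ∑ y ∈ cb k m,
      p k (cP o x0 k) y * (GF A o K M sg l g u v F1 F2 F3 x0 j k y -
        GF A o K M sg l g u v F1 F2 F3 x0 k k y) =
      ∑ m ∈ sN A o K M x0 k, ∑ y ∈ cb k (rv m),
      p k (cP o x0 k) y * (GF A o K M sg l g u v F1 F2 F3 x0 j k y -
        GF A o K M sg l g u v F1 F2 F3 x0 k k y) := by
    rw [← sum_filter_add_sum_filter_not (cbs K M k) (fun m => rv m ∈ sN A o K M x0 k)]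
    rw [sum_eq_zero (s := (cbs K M k).filter fun m => ¬ rv m ∈ sN A o K M x0 k) fun m hm =>
      e1 m (mem_filter.1 hm).1 (mem_filter.1 hm).2, add_zero]
    refine sum_nbij' rv rv (fun m hm => ?_) (fun m hm => ?_) (fun _ _ => rfl) (fun _ _ => rfl)
      fun _ _ => rfl
    · exact (mem_filter.1 hm).2
    · rw [mem_filter, rv_rv]
      exact ⟨(mem_sN.1 hm).1, hm⟩
  rw [e4]
  refine sum_congr rfl fun m hm => ?_
  have hm' := mem_sN.1 hm
  have hx0 : ix k x0 = (bx0 o (rv m)).1 := (mem_iv).1 hm'.2.1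
  have hc : m.2.2 + m.2.1 + m.1 = cP o x0 k := by
    unfold cP
    rw [hx0]
    unfold bx0 rv
    ring
  unfold PL.cb
  rw [sum_product, mul_sum]
  refine sum_congr rfl fun x1 h1 => ?_
  rw [sum_product, sum_comm, mul_sum]
  refine sum_congr rfl fun x3 h3 => ?_
  have hx1 : ix k x1 = m.2.2 := (mem_iv).1 h1
  have hx3 : ix k x3 = m.1 := (mem_iv).1 h3
  have e5 : nd3 o x0 x3 x1 k = m := by
    unfold nd3
    rw [hx1, hx3, ← hc]
    refine Prod.ext rfl (Prod.ext ?_ rfl)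
    simp only
    ring
  have e6 : ∀ x2 ∈ iv k (rv m).2.1, p k (cP o x0 k) (x1, x2, x3) *
      (GF A o K M sg l g u v F1 F2 F3 x0 j k (x1, x2, x3) -
        GF A o K M sg l g u v F1 F2 F3 x0 k k (x1, x2, x3)) =
      sg k (rv m) * (hs k x0 * hs k x1 * hs k x3) * F2 k (x0, x1, x3) *
        (((2 : ℝ) ^ k)⁻¹ * (g (x2, x3) * F1 k (x0, x2, x3) * F3 k (x0, x1, x2) *
          (xiT l (KT l u x1) (v x1 x3) k m.2.1 ⬝ᵥ u x1 x2))) := by
    intro x2 h2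
    have hx2 : ix k x2 = m.2.1 := (mem_iv).1 h2
    rw [GF_sub A o M sg l g u v F1 F2 F3 x0 hj k, ← hk]
    unfold H352.p thN
    simp only
    rw [if_pos (by rw [hx1, hx2, hx3, hc]), e5, if_pos hm, dotProduct_comm (u x1 x2)]
    ring
  rw [sum_congr rfl e6, ← mul_sum, ← mul_sum]
  unfold fF qT mT
  rw [dotProduct_smul, dotProduct_sum, smul_eq_mul]
  simp only [dotProduct_smul, smul_eq_mul]
  change _ = sg k (rv m) * (hs k x0 * hs k x1 * hs k x3) * F2 k (x0, x1, x3) *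
    (((2 : ℝ) ^ k)⁻¹ * ∑ x2 ∈ iv k m.2.1, g (x2, x3) * F1 k (x0, x2, x3) * F3 k (x0, x1, x2) *
          (xiT l (KT l u x1) (v x1 x3) k m.2.1 ⬝ᵥ u x1 x2))
  ring

/-- **The flow piece is the sum over `x0` of the Abel sums.** -/
theorem flow_eq {o : ℤ} (ho : o = 1 ∨ o = -1) (A : ℕ → Pt → Prop) (K : ℕ) (x : Pt)
    (sg : ℕ → Pt → ℝ) (l : ℝ) (g : ℤ × ℤ → ℝ) (u v : ℤ → ℤ → ι → ℝ) (F1 F2 F3 : ℕ → Pt → ℝ) :
    nodesA A K x (fun k m => sg k m *
        nodeS o k m (F2 k) (fF l g u v (F1 k) (F3 k) k m.2.1)) =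
      ∑ t ∈ rt (PL.cx K x), ∑ x0 ∈ iv K t, ∑ j ∈ range K,
        In K (PL.cx K x) (p (j + 1) (cP o x0 (j + 1))) (fun y =>
          GF A o K (PL.cx K x) sg l g u v F1 F2 F3 x0 j (j + 1) y -
            GF A o K (PL.cx K x) sg l g u v F1 F2 F3 x0 (j + 1) (j + 1) y) := by
  have h := swap0 ho A K x fun x0 k m => sg k m * ∑ x1 ∈ iv k m.1, ∑ x3 ∈ iv k m.2.2,
    hs k x0 * hs k x1 * hs k x3 * (F2 k (x0, x1, x3) *
      fF l g u v (F1 k) (F3 k) k m.2.1 x0 x1 x3)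
  have e1 : nodesA A K x (fun k m => sg k m *
      nodeS o k m (F2 k) (fF l g u v (F1 k) (F3 k) k m.2.1)) =
      nodesA A K x (fun k m => ∑ x0 ∈ iv k (bx0 o m).1, sg k m * ∑ x1 ∈ iv k m.1,
        ∑ x3 ∈ iv k m.2.2, hs k x0 * hs k x1 * hs k x3 * (F2 k (x0, x1, x3) *
          fF l g u v (F1 k) (F3 k) k m.2.1 x0 x1 x3)) := by
    unfold nodesA nodeS
    simp only [mul_sum]
  rw [e1, h]
  refine sum_congr rfl fun t _ => sum_congr rfl fun x0 _ => ?_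
  have e2 : ∀ f : ℕ → ℝ, ∑ k ∈ Icc 1 K, f k = ∑ j ∈ range K, f (j + 1) := by
    intro f
    rw [range_eq_Ico, sum_Ico_add' f 0 K 1]
    rfl
  rw [e2]
  refine sum_congr rfl fun j hj => ?_
  exact flow_scale A o (PL.cx K x) sg l g u v F1 F2 F3 x0 (mem_range.1 hj)

/-! ### The cost of a row class -/

/-- **The cost in three parts, each at fixed `x0`.** -/
theorem cosA_cmp {l : ℝ} (hl : 0 < l) {L : ℕ} {e : ι → ℤ} (he : Function.Injective e)
    (hm : ∀ i, e i ∈ H958.lbs L) {o : ℤ} (ho : o = 1 ∨ o = -1) (A : ℕ → Pt → Prop) (K : ℕ)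
    (x : Pt) (g : ℤ → ℤ → ℝ) (u v : ℤ → ℤ → ι → ℝ) (F1 F2 F3 : ℕ → Pt → ℝ) :
    ∃ sg : ℕ → Pt → ℝ, (∀ k m, |sg k m| ≤ 1) ∧
    cosA A o K x (H305.cmp g u v) (fun k _ => F1 k) (fun k _ => F2 k) (fun k _ => F3 k) ≤
      nodesA A K x (fun k m => |nodeS o k m (F2 k)
        (fI l (fun q => g q.1 q.2) u v (F1 k) (F3 k) k m.2.1)|) +
      ∑ t ∈ rt (PL.cx K x), ∑ x0 ∈ iv K t, ∑ k ∈ Icc 1 K, ∑ m ∈ sN A o K (PL.cx K x) x0 k,
        |(2 ^ (k + L) : ℝ)⁻¹ * (H576.WZ L l e (fA (fun q => g q.1 q.2) F1 x0) (fb u F3 x0)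
          (KT l u) (k + L) m * PL.H588.hd (k + L) * PL.H804.bl (k + L)
          (H958.encR L fun lab z x => H338.cu e (fC v F2 x0 k z x) lab) m.1 m.2.2).trace| +
      ∑ t ∈ rt (PL.cx K x), ∑ x0 ∈ iv K t, |∑ j ∈ range K,
        In K (PL.cx K x) (p (j + 1) (cP o x0 (j + 1))) (fun y =>
          GF A o K (PL.cx K x) sg l (fun q => g q.1 q.2) u v F1 F2 F3 x0 j (j + 1) y -
            GF A o K (PL.cx K x) sg l (fun q => g q.1 q.2) u v F1 F2 F3 x0 (j + 1) (j + 1) y)| := by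
  refine ⟨sgN o (fun q => g q.1 q.2) u v F1 F2 F3, fun k m => abs_sgN_le .., ?_⟩
  refine (cosA_split hl A o K x (fun q => g q.1 q.2) u v F1 F2 F3).trans ?_
  refine add_le_add (add_le_add le_rfl ?_) ?_
  · exact gapZ_le ho l he hm A K x (fun q => g q.1 q.2) u v F1 F2 F3
  · rw [flow_eq ho]
    exact (abs_sum_le_sum_abs _ _).trans (sum_le_sum fun t _ => abs_sum_le_sum_abs _ _)

end

end Vale.Agent.P141.H677
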