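import Vale.Agent.P141.H677.SlotR
import Vale.Agent.P141.H453.NumC

/-!
# P141, line (A): the numbers of every slot from the raw numbers

* `num_comp_th` : `H453.num_comp` with its exponent;
* `slotNum_of_raw : RawNum D → SlotNum D`.
-/

namespace Vale.Agent.P141.H677.Sk

open Finset Matrix
open Vale.Agent.P141.PL (Pt iv hs ix mem_iv ix_ix cb mem_cb cx card_iv)
open Vale.Agent.P141.PL.H315 (Tri)
open Vale.Agent.P141.H48 (US ES BSl)
open Vale.Agent.P141.H401 (StX PartX Bun PartF)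
open Vale.Agent.P141.H305 (ClsM kapM)
open Vale.Agent.P141.H453 (log_absorb blind_L signed_L interp)

noncomputable section

open scoped Classical

set_option linter.unusedSectionVars false

/-- `H453.num_comp` with its exponent (text of helper453) -/
theorem num_comp_th (q : ℕ) {e0 C0 C1 A EM : ℝ} (he0 : 0 < e0) (he1 : e0 ≤ 1) (hC0 : 0 ≤ C0)
    (hC1 : 0 ≤ C1) (hA : 1 ≤ A) (hEM : 1 ≤ EM) :
    ∃ C : ℝ, 0 < C ∧ ∀ y κ E D b X : ℝ, 0 < y → y ≤ 1 → 1 ≤ κ → 0 < E → E ≤ EM →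
      0 ≤ D → 1 ≤ b →
      (∀ L : ℕ, X ≤ D * ((1 + (L : ℝ)) ^ q * (b * A * y ^ e0 +
        (1 + κ) ^ 2 * y ^ (-C0) / 2 ^ L))) →
      (∀ L : ℕ, ∀ dl : ℝ, 0 < dl → X ≤ D * ((1 + (L : ℝ)) ^ q * (A * dl + y ^ (-C1) * E / dl +
        A * E + (1 + κ) ^ 2 * y ^ (-C1) * (1 + 1 / dl) / 2 ^ L))) →
      X ≤ D * C * b * (1 + Real.log κ + Real.log (1 / y)) ^ q *
        (y ^ (e0 / 2) * (E / EM) ^ (e0 / (2 * (e0 + C1)) / 4)) := by
  have hs : 0 < e0 + C1 := by linarith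
  set lam : ℝ := e0 / (2 * (e0 + C1)) with hlam
  have hlam0 : 0 < lam := by rw [hlam]; positivity
  obtain ⟨Cq, hCq, Hq⟩ := log_absorb q (θ := lam / 4) (by positivity)
  refine ⟨4 * A * EM * (8 * (C0 + C1 + 1)) ^ q * Cq, by positivity, ?_⟩
  intro y κ E D b X hy hy1 hκ hE hEE hD hb blind signed
  have hEM0 : 0 < EM := by linarith
  have hE10 : 0 < E / EM := div_pos hE hEM0
  have hE11 : E / EM ≤ 1 := by rw [div_le_one hEM0]; exact hEE
  have hy' : 1 ≤ 1 / y := by rw [le_div_iff₀ hy]; linarith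
  have hE1' : 1 ≤ 1 / (E / EM) := by rw [le_div_iff₀ hE10]; linarith
  have ly0 : 0 ≤ Real.log (1 / y) := Real.log_nonneg hy'
  have lk0 : 0 ≤ Real.log κ := Real.log_nonneg hκ
  have le0 : 0 ≤ Real.log (1 / (E / EM)) := Real.log_nonneg hE1'
  have b1 := blind_L q he0 he1 hC0 (a := C0 + C1) (by linarith) hA hEM hy hy1 hκ hD hb le0 blind
  have b2 := signed_L q hC1 (a := C0 + C1) (by linarith) hA hEM hy hy1 hκ hE hEE hD hb signed
  have hq1 := Hq (E / EM) hE10 hE11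
  set ly : ℝ := Real.log (1 / y) with hly
  set lk : ℝ := Real.log κ with hlk
  set le : ℝ := Real.log (1 / (E / EM)) with hle
  set R : ℝ := E / EM with hR
  set G : ℝ := 1 + lk + ly + le with hG
  have hG1 : 1 ≤ G := by rw [hG]; linarith
  have ha10 : 0 ≤ D * (8 * (C0 + C1 + 1) * G) ^ q * (4 * A * EM * b) := by positivity
  have hmin := interp he0 hC1 hlam ha10 hy hE10 b1 b2
  have hGq : G ^ q ≤ (1 + lk + ly) ^ q * (1 + le) ^ q := by
    rw [← mul_pow]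
    refine pow_le_pow_left₀ (by linarith) ?_ q
    rw [hG]
    nlinarith [mul_nonneg (add_nonneg lk0 ly0) le0]
  have hsplit : R ^ (lam / 2) = R ^ (lam / 4) * R ^ (lam / 4) := by
    rw [← Real.rpow_add hE10]
    congr 1
    ring
  have hR4 : 0 ≤ R ^ (lam / 4) := Real.rpow_nonneg hE10.le _
  have hYe : 0 ≤ y ^ (e0 / 2) := Real.rpow_nonneg hy.le _
  have hK : 0 ≤ (8 * (C0 + C1 + 1)) ^ q * (4 * A * EM * b) := by positivity
  calc X ≤ D * (8 * (C0 + C1 + 1) * G) ^ q * (4 * A * EM * b) *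
          (y ^ (e0 / 2) * R ^ (lam / 2)) := hmin
    _ = D * ((8 * (C0 + C1 + 1)) ^ q * (4 * A * EM * b)) * (y ^ (e0 / 2) * R ^ (lam / 4)) *
          (G ^ q * R ^ (lam / 4)) := by
        rw [hsplit, mul_pow]
        ring
    _ ≤ D * ((8 * (C0 + C1 + 1)) ^ q * (4 * A * EM * b)) * (y ^ (e0 / 2) * R ^ (lam / 4)) *
          ((1 + lk + ly) ^ q * Cq) := by
        refine mul_le_mul_of_nonneg_left ?_
          (mul_nonneg (mul_nonneg hD hK) (mul_nonneg hYe hR4))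
        calc G ^ q * R ^ (lam / 4) ≤ (1 + lk + ly) ^ q * (1 + le) ^ q * R ^ (lam / 4) :=
              mul_le_mul_of_nonneg_right hGq hR4
          _ = (1 + lk + ly) ^ q * ((1 + le) ^ q * R ^ (lam / 4)) := by ring
          _ ≤ _ := mul_le_mul_of_nonneg_left hq1 (pow_nonneg (by linarith) q)
    _ = _ := by ring


/-- **The numbers of every slot from the raw numbers.** -/
theorem slotNum_of_raw {D : Bun} (H : RawNum D) : SlotNum D := by
  intro a ha ha1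
  obtain ⟨es, hes, hes1, H⟩ := H a ha ha1
  refine ⟨es, hes, hes1, fun e0 he0 he0' => ?_⟩
  obtain ⟨k8s, hk8s, H⟩ := H e0 he0 he0'
  refine ⟨k8s, hk8s, fun k8 hk8 hk8' => ?_⟩
  obtain ⟨k3s, hk3s, H⟩ := H k8 hk8 hk8'
  refine ⟨k3s, hk3s, fun k3 hk3 hk3' => ?_⟩
  obtain ⟨q, C0, C1, c1, d1, hC0, hC1, hc1, hd1, H⟩ := H k3 hk3 hk3'
  have he01 : e0 ≤ 1 := he0'.trans hes1
  have hs : 0 < e0 + C1 := by linarith
  have hth : 0 < e0 / (2 * (e0 + C1)) / 4 := by positivity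
  refine ⟨q, e0 / (2 * (e0 + C1)) / 4, 1, c1, d1, hth, zero_le_one, hc1, hd1,
    fun c hc hcc d hd hdd Kt e cP L hK he hcP hL CD hCD => ?_⟩
  obtain ⟨A0, hA0, H⟩ := H c hc hcc d hd hdd Kt e cP L hK he hcP hL CD hCD
  have hEM : (1 : ℝ) ≤ L + 3780000 := by linarith
  obtain ⟨C2, hC2, H2⟩ := num_comp_th q (e0 := e0) (C0 := C0) (C1 := C1) (A := A0)
    (EM := L + 3780000) he0 he01 hC0 hC1 hA0 hEM
  refine ⟨C2, hC2.le, ?_⟩
  intro t ht ht1 n ez F1 F2 F3 h1 h3 h2 o ho K hKn x ι _ _ s r U g u v hs' hr hcls A b' C' hD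
    R κ E hκ hE hEL hsl h hh
  refine (H t ht ht1 n ez F1 F2 F3 h1 h3 h2 o ho K hKn x ι s r U g u v hs' hr hcls A b' C' hD
    R κ E hκ hE hEL hsl h hh).toX fun X hX => ?_
  have hr0 : 0 < r := by linarith
  have hy : 0 < t / r := div_pos ht hr0
  have hy1 : t / r ≤ 1 := by
    rw [div_le_one hr0]
    linarith
  have hb : (1 : ℝ) ≤ t ^ (-c) := Real.one_le_rpow_of_pos_of_le_one_of_nonpos ht ht1 (by linarith)
  have hez : 0 ≤ ez := h2.1
  have hD0 : 0 ≤ ez * s * 8 ^ K := by positivity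
  have h4 := H2 (t / r) κ E (ez * s * 8 ^ K) (t ^ (-c)) X hy hy1 hκ hE hEL hD0 hb hX.blind
    hX.signed
  refine h4.trans ?_
  have e1 : 1 / (t / r) = r / t := one_div_div t r
  rw [e1]
  have hrt : 1 ≤ r / t := by
    rw [le_div_iff₀ ht]
    linarith
  have hlg : 0 ≤ 1 + Real.log κ + Real.log (r / t) := by
    have := Real.log_nonneg hκ
    have := Real.log_nonneg hrt
    linarith
  have g1 : (E / (L + 3780000)) ^ (e0 / (2 * (e0 + C1)) / 4) ≤
      E ^ (e0 / (2 * (e0 + C1)) / 4) := by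
    refine Real.rpow_le_rpow (by positivity) ?_ hth.le
    exact div_le_self hE.le hEM
  have g2 : t ^ (-c) ≤ t ^ (-(1 * (c + d))) :=
    Real.rpow_le_rpow_of_exponent_ge ht ht1 (by linarith)
  have y0 : 0 ≤ (t / r) ^ (e0 / 2) := Real.rpow_nonneg hy.le _
  have hE0 : 0 ≤ E ^ (e0 / (2 * (e0 + C1)) / 4) := Real.rpow_nonneg hE.le _
  have ht0 : 0 ≤ t ^ (-(1 * (c + d))) := Real.rpow_nonneg ht.le _
  have hlq : 0 ≤ (1 + Real.log κ + Real.log (r / t)) ^ q := pow_nonneg hlg q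
  calc ez * s * 8 ^ K * C2 * t ^ (-c) * (1 + Real.log κ + Real.log (r / t)) ^ q *
        ((t / r) ^ (e0 / 2) * (E / (L + 3780000)) ^ (e0 / (2 * (e0 + C1)) / 4))
      ≤ ez * s * 8 ^ K * C2 * t ^ (-(1 * (c + d))) *
        (1 + Real.log κ + Real.log (r / t)) ^ q *
        ((t / r) ^ (e0 / 2) * E ^ (e0 / (2 * (e0 + C1)) / 4)) := by
        have k1 : 0 ≤ ez * s * 8 ^ K * C2 := mul_nonneg hD0 hC2.le
        refine mul_le_mul (mul_le_mul_of_nonneg_right (mul_le_mul_of_nonneg_left g2 k1) hlq)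
          (mul_le_mul_of_nonneg_left g1 y0) (mul_nonneg y0 (Real.rpow_nonneg (by positivity) _))
          (mul_nonneg (mul_nonneg k1 ht0) hlq)
    _ = _ := by ring

end

end Vale.Agent.P141.H677.Sk
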