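import Vale.Agent.P141.H677.Glue

/-!
# P141: the alive nodes at fixed `x1`, at fixed `x2` and at fixed `x3`

The tied vertex `x0` runs over the three cells `rt M` of scale `K`.  At a fixed face point `xi` the
nodes are the nodes of `PL.H804.bx3` on the planes `o - 2 - ix k xi`, one root for every cell of `x0`:

* `swap1` : order `(x3, x2, x0)`, root `(M3, M2, t)`;
* `swap2` : order `(x3, x1, x0)`, root `(M3, M1, t)`;
* `swap3` : order `(x2, x1, x0)`, root `(M2, M1, t)`.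
-/

namespace Vale.Agent.P141.H677

open Finset
open Vale.Agent.P141.PL (Pt iv hs ix mem_iv ix_ix)
open Vale.Agent.P141.PL.H560 (cbs bx0)
open Vale.Agent.P141.PL.H317 (crn)
open Vale.Agent.P141.PL.H804 (bx3)

noncomputable section

open scoped Classical

/-- the node of the face cube over the box `(·, m.2.1, m.1)` at the point `x1` -/
def f1 (x1 : ℤ) (k : ℕ) (m : Pt) : Pt := (ix k x1, m.2.1, m.1)

/-- the node of the face cube over the box `(m.2.1, ·, m.1)` at the point `x2` -/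
def f2 (x2 : ℤ) (k : ℕ) (m : Pt) : Pt := (m.2.1, ix k x2, m.1)

/-- the node of the face cube over the box `(m.2.1, m.1, ·)` at the point `x3` -/
def f3 (x3 : ℤ) (k : ℕ) (m : Pt) : Pt := (m.2.1, m.1, ix k x3)

/-- the alive nodes at the point `x1`, root cell `t` of `x0`, order `(x3, x2, x0)` -/
def s1N (A : ℕ → Pt → Prop) (o : ℤ) (K : ℕ) (M : Pt) (t x1 : ℤ) (k : ℕ) : Finset Pt :=
  (bx3 K (M.2.2, M.2.1, t) k (cP o x1 k)).filter fun m => A k (crn k (f1 x1 k m))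

/-- the alive nodes at the point `x2`, root cell `t` of `x0`, order `(x3, x1, x0)` -/
def s2N (A : ℕ → Pt → Prop) (o : ℤ) (K : ℕ) (M : Pt) (t x2 : ℤ) (k : ℕ) : Finset Pt :=
  (bx3 K (M.2.2, M.1, t) k (cP o x2 k)).filter fun m => A k (crn k (f2 x2 k m))

/-- the alive nodes at the point `x3`, root cell `t` of `x0`, order `(x2, x1, x0)` -/
def s3N (A : ℕ → Pt → Prop) (o : ℤ) (K : ℕ) (M : Pt) (t x3 : ℤ) (k : ℕ) : Finset Pt :=
  (bx3 K (M.2.1, M.1, t) k (cP o x3 k)).filter fun m => A k (crn k (f3 x3 k m))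

theorem s1N_sub (A : ℕ → Pt → Prop) (o : ℤ) (K : ℕ) (M : Pt) (t x1 : ℤ) (k : ℕ) :
    s1N A o K M t x1 k ⊆ bx3 K (M.2.2, M.2.1, t) k (cP o x1 k) := filter_subset _ _

theorem s2N_sub (A : ℕ → Pt → Prop) (o : ℤ) (K : ℕ) (M : Pt) (t x2 : ℤ) (k : ℕ) :
    s2N A o K M t x2 k ⊆ bx3 K (M.2.2, M.1, t) k (cP o x2 k) := filter_subset _ _

theorem s3N_sub (A : ℕ → Pt → Prop) (o : ℤ) (K : ℕ) (M : Pt) (t x3 : ℤ) (k : ℕ) :
    s3N A o K M t x3 k ⊆ bx3 K (M.2.1, M.1, t) k (cP o x3 k) := filter_subset _ _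

/-- the cell of `x0` of a node -/
theorem bx0_rt {o : ℤ} (ho : o = 1 ∨ o = -1) {k K : ℕ} (hk : k ≤ K) {M m : Pt}
    (hm : m ∈ cbs K M k) : ix (K - k) (bx0 o m).1 ∈ rt M := by
  have h := iv_rt ho hk hm (x0 := 2 ^ k * (bx0 o m).1) (by
    rw [mem_iv]
    unfold PL.ix
    exact Int.mul_ediv_cancel_left _ (by positivity))
  have e : ix K (2 ^ k * (bx0 o m).1) = ix (K - k) (ix k (2 ^ k * (bx0 o m).1)) := by
    rw [ix_ix, Nat.add_sub_cancel' hk]
  have e2 : ix k (2 ^ k * (bx0 o m).1) = (bx0 o m).1 := by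
    unfold PL.ix
    exact Int.mul_ediv_cancel_left _ (by positivity)
  rwa [e, e2] at h

/-- abstract bijection: nodes with a fixed point against nodes of the planes over all cells -/
theorem swap_aux {o : ℤ} (ho : o = 1 ∨ o = -1) (A : ℕ → Pt → Prop) (K : ℕ) (M : Pt)
    {k : ℕ} (hk : k ≤ K) (X : Finset ℤ) (s : ℤ → ℤ → Finset Pt) (e : Pt → Pt) (f : ℤ → Pt → Pt)
    (P : ℤ → Pt → Prop)
    (hX : ∀ m ∈ cbs K M k, ∀ x, P x m → x ∈ X)
    (h1 : ∀ x m, m ∈ cbs K M k → A k (crn k m) → P x m →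
      e m ∈ s (ix (K - k) (bx0 o m).1) x ∧ f x (e m) = m)
    (h2 : ∀ t ∈ rt M, ∀ x ∈ X, ∀ m' ∈ s t x, f x m' ∈ cbs K M k ∧ A k (crn k (f x m')) ∧
      P x (f x m') ∧ e (f x m') = m' ∧ ix (K - k) (bx0 o (f x m')).1 = t)
    (g : ℤ → Pt → ℝ) (W : Pt → Finset ℤ) (hW : ∀ m x, x ∈ W m ↔ P x m) :
    ∑ m ∈ cbs K M k with A k (crn k m), ∑ x ∈ W m, g x m =
      ∑ x ∈ X, ∑ t ∈ rt M, ∑ m' ∈ s t x, g x (f x m') := by
  have e1 : ∀ x ∈ X, ∑ t ∈ rt M, ∑ m' ∈ s t x, g x (f x m') =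
      ∑ m ∈ cbs K M k with A k (crn k m), if P x m then g x m else 0 := by
    intro x hx
    rw [← sum_filter, filter_filter, sum_sigma']
    refine sum_bij' (fun q _ => f x q.2) (fun m _ => ⟨ix (K - k) (bx0 o m).1, e m⟩) ?_ ?_ ?_ ?_ ?_
    · rintro ⟨t, m'⟩ hq
      rw [mem_sigma] at hq
      have h := h2 t hq.1 x hx m' hq.2
      rw [mem_filter]
      exact ⟨h.1, h.2.1, h.2.2.1⟩
    · intro m hm
      rw [mem_filter] at hm
      rw [mem_sigma]
      exact ⟨bx0_rt ho hk hm.1, (h1 x m hm.1 hm.2.1 hm.2.2).1⟩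
    · rintro ⟨t, m'⟩ hq
      rw [mem_sigma] at hq
      have h := h2 t hq.1 x hx m' hq.2
      simp only
      rw [h.2.2.2.1, h.2.2.2.2]
    · intro m hm
      rw [mem_filter] at hm
      exact (h1 x m hm.1 hm.2.1 hm.2.2).2
    · intro q _
      rfl
  rw [sum_congr rfl e1, sum_comm]
  refine sum_congr rfl fun m hm => ?_
  rw [mem_filter] at hm
  rw [← sum_filter]
  refine sum_congr ?_ fun _ _ => rfl
  ext x
  rw [mem_filter, hW]
  exact ⟨fun h => ⟨hX m hm.1 x h, h⟩, fun h => h.2⟩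

theorem ix_up {k K : ℕ} (hk : k ≤ K) {x m M : ℤ} (h : ix k x = m) (hm : m ∈ iv (K - k) M) :
    x ∈ iv K M := by
  rw [mem_iv] at hm ⊢
  rw [← hm, ← h, ix_ix, Nat.add_sub_cancel' hk]

theorem ix_dn {k K : ℕ} (hk : k ≤ K) {x M : ℤ} (h : x ∈ iv K M) : ix k x ∈ iv (K - k) M := by
  rw [mem_iv] at h ⊢
  rw [ix_ix, Nat.add_sub_cancel' hk, h]

/-- **The nodes at fixed `x1`.** -/
theorem swap1 {o : ℤ} (ho : o = 1 ∨ o = -1) (A : ℕ → Pt → Prop) (K : ℕ) (x : Pt)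
    (f : ℤ → ℕ → Pt → ℝ) :
    nodesA A K x (fun k m => ∑ x1 ∈ iv k m.1, f x1 k m) =
      ∑ x1 ∈ iv K (PL.cx K x).1, ∑ t ∈ rt (PL.cx K x), ∑ k ∈ Icc 1 K,
        ∑ m ∈ s1N A o K (PL.cx K x) t x1 k, f x1 k (f1 x1 k m) := by
  have e : ∀ k ∈ Icc 1 K, ∑ m ∈ cbs K (PL.cx K x) k with A k (crn k m), ∑ x1 ∈ iv k m.1,
      f x1 k m = ∑ x1 ∈ iv K (PL.cx K x).1, ∑ t ∈ rt (PL.cx K x),
        ∑ m ∈ s1N A o K (PL.cx K x) t x1 k, f x1 k (f1 x1 k m) := by
    intro k hk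
    have hk2 := (mem_Icc.1 hk).2
    refine swap_aux ho A K (PL.cx K x) hk2 _ (fun t x1 => s1N A o K (PL.cx K x) t x1 k)
      (fun m => (m.2.2, m.2.1, (bx0 o m).1)) (fun x1 => f1 x1 k) (fun x1 m => x1 ∈ iv k m.1)
      ?_ ?_ ?_ (fun x1 m => f x1 k m) (fun m => iv k m.1) (fun _ _ => Iff.rfl)
    · intro m hm x1 h
      unfold cbs at hm
      rw [mem_product] at hm
      exact ix_up hk2 ((mem_iv).1 h) hm.1
    · intro x1 m hm hA h
      have hx : ix k x1 = m.1 := (mem_iv).1 h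
      have ef : f1 x1 k (m.2.2, m.2.1, (bx0 o m).1) = m := by
        unfold f1
        rw [hx]
      refine ⟨?_, ef⟩
      unfold s1N PL.H804.bx3
      rw [mem_filter, mem_filter, ef]
      refine ⟨⟨?_, ?_⟩, hA⟩
      · unfold cbs at hm
        rw [mem_product, mem_product] at hm ⊢
        exact ⟨hm.2.2, hm.2.1, (mem_iv).2 rfl⟩
      · unfold cP bx0
        simp only
        rw [hx]
        ring
    · intro t _ x1 hx1 m' hm'
      unfold s1N PL.H804.bx3 at hm'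
      rw [mem_filter, mem_filter, mem_product, mem_product] at hm'
      obtain ⟨⟨⟨a1, a2, a3⟩, hc⟩, hA⟩ := hm'
      have e0 : (bx0 o (f1 x1 k m')).1 = m'.2.2 := by
        unfold bx0 f1
        unfold cP at hc
        linarith
      refine ⟨?_, hA, ?_, ?_, ?_⟩
      · unfold cbs f1
        rw [mem_product, mem_product]
        exact ⟨ix_dn hk2 hx1, a2, a1⟩
      · exact (mem_iv).2 rfl
      · rw [e0]
        rfl
      · rw [e0]
        exact (mem_iv).1 a3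
  unfold nodesA
  rw [sum_congr rfl e, sum_comm]
  refine sum_congr rfl fun x1 _ => ?_
  rw [sum_comm]

/-- **The nodes at fixed `x2`.** -/
theorem swap2 {o : ℤ} (ho : o = 1 ∨ o = -1) (A : ℕ → Pt → Prop) (K : ℕ) (x : Pt)
    (f : ℤ → ℕ → Pt → ℝ) :
    nodesA A K x (fun k m => ∑ x2 ∈ iv k m.2.1, f x2 k m) =
      ∑ x2 ∈ iv K (PL.cx K x).2.1, ∑ t ∈ rt (PL.cx K x), ∑ k ∈ Icc 1 K,
        ∑ m ∈ s2N A o K (PL.cx K x) t x2 k, f x2 k (f2 x2 k m) := by
  have e : ∀ k ∈ Icc 1 K, ∑ m ∈ cbs K (PL.cx K x) k with A k (crn k m), ∑ x2 ∈ iv k m.2.1,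
      f x2 k m = ∑ x2 ∈ iv K (PL.cx K x).2.1, ∑ t ∈ rt (PL.cx K x),
        ∑ m ∈ s2N A o K (PL.cx K x) t x2 k, f x2 k (f2 x2 k m) := by
    intro k hk
    have hk2 := (mem_Icc.1 hk).2
    refine swap_aux ho A K (PL.cx K x) hk2 _ (fun t x2 => s2N A o K (PL.cx K x) t x2 k)
      (fun m => (m.2.2, m.1, (bx0 o m).1)) (fun x2 => f2 x2 k) (fun x2 m => x2 ∈ iv k m.2.1)
      ?_ ?_ ?_ (fun x2 m => f x2 k m) (fun m => iv k m.2.1) (fun _ _ => Iff.rfl)
    · intro m hm x2 h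
      unfold cbs at hm
      rw [mem_product, mem_product] at hm
      exact ix_up hk2 ((mem_iv).1 h) hm.2.1
    · intro x2 m hm hA h
      have hx : ix k x2 = m.2.1 := (mem_iv).1 h
      have ef : f2 x2 k (m.2.2, m.1, (bx0 o m).1) = m := by
        unfold f2
        rw [hx]
      refine ⟨?_, ef⟩
      unfold s2N PL.H804.bx3
      rw [mem_filter, mem_filter, ef]
      refine ⟨⟨?_, ?_⟩, hA⟩
      · unfold cbs at hm
        rw [mem_product, mem_product] at hm ⊢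
        exact ⟨hm.2.2, hm.1, (mem_iv).2 rfl⟩
      · unfold cP bx0
        simp only
        rw [hx]
        ring
    · intro t _ x2 hx2 m' hm'
      unfold s2N PL.H804.bx3 at hm'
      rw [mem_filter, mem_filter, mem_product, mem_product] at hm'
      obtain ⟨⟨⟨a1, a2, a3⟩, hc⟩, hA⟩ := hm'
      have e0 : (bx0 o (f2 x2 k m')).1 = m'.2.2 := by
        unfold bx0 f2
        unfold cP at hc
        linarith
      refine ⟨?_, hA, ?_, ?_, ?_⟩
      · unfold cbs f2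
        rw [mem_product, mem_product]
        exact ⟨a2, ix_dn hk2 hx2, a1⟩
      · exact (mem_iv).2 rfl
      · rw [e0]
        rfl
      · rw [e0]
        exact (mem_iv).1 a3
  unfold nodesA
  rw [sum_congr rfl e, sum_comm]
  refine sum_congr rfl fun x2 _ => ?_
  rw [sum_comm]

/-- **The nodes at fixed `x3`.** -/
theorem swap3 {o : ℤ} (ho : o = 1 ∨ o = -1) (A : ℕ → Pt → Prop) (K : ℕ) (x : Pt)
    (f : ℤ → ℕ → Pt → ℝ) :
    nodesA A K x (fun k m => ∑ x3 ∈ iv k m.2.2, f x3 k m) =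
      ∑ x3 ∈ iv K (PL.cx K x).2.2, ∑ t ∈ rt (PL.cx K x), ∑ k ∈ Icc 1 K,
        ∑ m ∈ s3N A o K (PL.cx K x) t x3 k, f x3 k (f3 x3 k m) := by
  have e : ∀ k ∈ Icc 1 K, ∑ m ∈ cbs K (PL.cx K x) k with A k (crn k m), ∑ x3 ∈ iv k m.2.2,
      f x3 k m = ∑ x3 ∈ iv K (PL.cx K x).2.2, ∑ t ∈ rt (PL.cx K x),
        ∑ m ∈ s3N A o K (PL.cx K x) t x3 k, f x3 k (f3 x3 k m) := by
    intro k hk
    have hk2 := (mem_Icc.1 hk).2
    refine swap_aux ho A K (PL.cx K x) hk2 _ (fun t x3 => s3N A o K (PL.cx K x) t x3 k)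
      (fun m => (m.2.1, m.1, (bx0 o m).1)) (fun x3 => f3 x3 k) (fun x3 m => x3 ∈ iv k m.2.2)
      ?_ ?_ ?_ (fun x3 m => f x3 k m) (fun m => iv k m.2.2) (fun _ _ => Iff.rfl)
    · intro m hm x3 h
      unfold cbs at hm
      rw [mem_product, mem_product] at hm
      exact ix_up hk2 ((mem_iv).1 h) hm.2.2
    · intro x3 m hm hA h
      have hx : ix k x3 = m.2.2 := (mem_iv).1 h
      have ef : f3 x3 k (m.2.1, m.1, (bx0 o m).1) = m := by
        unfold f3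
        rw [hx]
      refine ⟨?_, ef⟩
      unfold s3N PL.H804.bx3
      rw [mem_filter, mem_filter, ef]
      refine ⟨⟨?_, ?_⟩, hA⟩
      · unfold cbs at hm
        rw [mem_product, mem_product] at hm ⊢
        exact ⟨hm.2.1, hm.1, (mem_iv).2 rfl⟩
      · unfold cP bx0
        simp only
        rw [hx]
        ring
    · intro t _ x3 hx3 m' hm'
      unfold s3N PL.H804.bx3 at hm'
      rw [mem_filter, mem_filter, mem_product, mem_product] at hm'
      obtain ⟨⟨⟨a1, a2, a3⟩, hc⟩, hA⟩ := hm'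
      have e0 : (bx0 o (f3 x3 k m')).1 = m'.2.2 := by
        unfold bx0 f3
        unfold cP at hc
        linarith
      refine ⟨?_, hA, ?_, ?_, ?_⟩
      · unfold cbs f3
        rw [mem_product, mem_product]
        exact ⟨a2, a1, ix_dn hk2 hx3⟩
      · exact (mem_iv).2 rfl
      · rw [e0]
        rfl
      · rw [e0]
        exact (mem_iv).1 a3
  unfold nodesA
  rw [sum_congr rfl e, sum_comm]
  refine sum_congr rfl fun x3 _ => ?_
  rw [sum_comm]

end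

end Vale.Agent.P141.H677
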